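import Vale.Agent.P219.TPH.Sn
import Vale.Agent.P219.TP.Moments

/-! # The model isoperimetric profile (task H16) -/

open MeasureTheory Set Metric
open scoped ENNReal ContDiff

namespace Vale.Agent.P219.TPH

open Vale.Agent.P219.TP

variable {n : ℕ} {k : ℝ}

theorem AR_pos (hn : 1 ≤ n) (hk : 0 ≤ k) {R : ℝ} (hR : 0 < R) : 0 < AR n k R :=
  mul_pos (sig_pos hn) (pow_pos (sn_pos hk hR) _)

theorem modelH_sn_nonneg (hk : 0 ≤ k) {R : ℝ} (hR : 0 ≤ R) : 0 ≤ sn k R :=
  hR.trans (le_sn hk hR)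

theorem AR_mono (hn : 1 ≤ n) (hk : 0 ≤ k) {R R' : ℝ} (hR : 0 ≤ R) (h : R ≤ R') :
    AR n k R ≤ AR n k R' :=
  mul_le_mul_of_nonneg_left
    (pow_le_pow_left₀ (modelH_sn_nonneg hk hR) ((sn_strictMono hk).monotone h) _) (sig_pos hn).le

theorem VR_zero : VR n k 0 = 0 := by
  simp [VR]

theorem modelH_cont (n : ℕ) (k : ℝ) : Continuous fun r => sn k r ^ (n - 1) :=
  (contDiff_sn k).continuous.pow _

theorem modelH_intg (n : ℕ) (k a b : ℝ) :
    IntervalIntegrable (fun r => sn k r ^ (n - 1)) volume a b :=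
  (modelH_cont n k).intervalIntegrable a b

theorem VR_strictMonoOn (hn : 1 ≤ n) (hk : 0 ≤ k) : StrictMonoOn (VR n k) (Ici 0) := by
  intro a ha b hb hab
  have ha' : (0 : ℝ) ≤ a := ha
  have h1 : (∫ r in (0 : ℝ)..a, sn k r ^ (n - 1)) + ∫ r in a..b, sn k r ^ (n - 1) =
      ∫ r in (0 : ℝ)..b, sn k r ^ (n - 1) :=
    intervalIntegral.integral_add_adjacent_intervals (modelH_intg n k _ _) (modelH_intg n k _ _)
  have h2 : 0 < ∫ r in a..b, sn k r ^ (n - 1) := by
    refine intervalIntegral.intervalIntegral_pos_of_pos_on (modelH_intg n k _ _) ?_ hab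
    intro x hx
    exact pow_pos (sn_pos hk (ha'.trans_lt hx.1)) _
  unfold VR
  rw [← h1]
  have h3 := sig_pos hn
  nlinarith [mul_pos h3 h2]

theorem hasStrictDerivAt_VR (hn : 1 ≤ n) (k R : ℝ) :
    HasStrictDerivAt (VR n k) (AR n k R) R := by
  have h1 := intervalIntegral.integral_hasStrictDerivAt_right (modelH_intg n k 0 R)
    (modelH_cont n k).stronglyMeasurable.stronglyMeasurableAtFilter (modelH_cont n k).continuousAt
  exact h1.const_mul (sig n)

theorem hasStrictDerivAt_AR (hn : 1 ≤ n) (hk : 0 ≤ k) {R : ℝ} (hR : 0 < R) :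
    HasStrictDerivAt (AR n k) (H0 n k R * AR n k R) R := by
  have h0 : HasStrictDerivAt (sn k) (cs k R) R :=
    ((contDiff_sn k).contDiffAt.hasStrictDerivAt' (hasDerivAt_sn k R) (by simp))
  have h1 := (h0.pow (n - 1)).const_mul (sig n)
  have hs := sn_pos hk hR
  refine h1.congr_deriv ?_
  rcases Nat.lt_or_ge 1 n with h | h
  · obtain ⟨m, rfl⟩ : ∃ m, n = m + 2 := ⟨n - 2, by omega⟩
    simp only [H0, AR, show m + 2 - 1 = m + 1 by omega, Nat.add_sub_cancel]
    push_cast
    field_simp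
    ring
  · have : n = 1 := le_antisymm h hn
    subst this
    simp [H0]

theorem exists_VR (hn : 1 ≤ n) (hk : 0 ≤ k) {V : ℝ} (hV : 0 ≤ V) : ∃ R, 0 ≤ R ∧ VR n k R = V := by
  have hs := sig_pos hn
  have hcont : Continuous (VR n k) := continuous_iff_continuousAt.2 fun R =>
    (hasStrictDerivAt_VR hn k R).hasDerivAt.continuousAt
  set M : ℝ := V / sig n + 1 with hM
  have hM1 : 1 ≤ M := by
    have : 0 ≤ V / sig n := div_nonneg hV hs.le
    linarith
  have h1 : V ≤ VR n k M := by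
    have e1 : (∫ r in (0 : ℝ)..1, sn k r ^ (n - 1)) + ∫ r in (1 : ℝ)..M, sn k r ^ (n - 1) =
        ∫ r in (0 : ℝ)..M, sn k r ^ (n - 1) :=
      intervalIntegral.integral_add_adjacent_intervals (modelH_intg n k _ _) (modelH_intg n k _ _)
    have e2 : 0 ≤ ∫ r in (0 : ℝ)..1, sn k r ^ (n - 1) :=
      intervalIntegral.integral_nonneg zero_le_one fun x hx =>
        pow_nonneg (modelH_sn_nonneg hk hx.1) _
    have e3 : (∫ _ in (1 : ℝ)..M, (1 : ℝ)) ≤ ∫ r in (1 : ℝ)..M, sn k r ^ (n - 1) := by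
      refine intervalIntegral.integral_mono_on hM1 (by simp) (modelH_intg n k _ _) fun x hx => ?_
      exact one_le_pow₀ (hx.1.trans (le_sn hk (zero_le_one.trans hx.1)))
    rw [intervalIntegral.integral_const, smul_eq_mul, mul_one] at e3
    have e4 : V = sig n * (M - 1) := by
      rw [hM]
      field_simp
      ring
    rw [e4, VR]
    exact mul_le_mul_of_nonneg_left (by linarith) hs.le
  have h2 := intermediate_value_Icc (f := VR n k) (zero_le_one.trans hM1) hcont.continuousOn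
  rw [VR_zero] at h2
  obtain ⟨R, hR, hRV⟩ := h2 ⟨hV, h1⟩
  exact ⟨R, hR.1, hRV⟩

/-- The extended volume function. -/
noncomputable def modelHF (n : ℕ) (k : ℝ) (R : ℝ) : ℝ := if 0 ≤ R then VR n k R else R

theorem modelH_VR_nonneg (hn : 1 ≤ n) (hk : 0 ≤ k) {R : ℝ} (hR : 0 ≤ R) : 0 ≤ VR n k R := by
  have := (VR_strictMonoOn hn hk).monotoneOn (mem_Ici.2 le_rfl) (mem_Ici.2 hR) hR
  rwa [VR_zero] at this

theorem modelHF_strictMono (hn : 1 ≤ n) (hk : 0 ≤ k) : StrictMono (modelHF n k) := by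
  intro a b hab
  unfold modelHF
  by_cases ha : 0 ≤ a
  · have hb : 0 ≤ b := ha.trans hab.le
    rw [if_pos ha, if_pos hb]
    exact VR_strictMonoOn hn hk ha hb hab
  · rw [if_neg ha]
    by_cases hb : 0 ≤ b
    · rw [if_pos hb]
      exact (not_le.1 ha).trans_le (modelH_VR_nonneg hn hk hb)
    · rw [if_neg hb]
      exact hab

theorem modelHF_surj (hn : 1 ≤ n) (hk : 0 ≤ k) : Function.Surjective (modelHF n k) := by
  intro V
  by_cases hV : 0 ≤ V
  · obtain ⟨R, hR, h⟩ := exists_VR hn hk hV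
    exact ⟨R, by rw [modelHF, if_pos hR, h]⟩
  · exact ⟨V, by rw [modelHF, if_neg hV]⟩

/-- The profile `I = A ∘ V⁻¹`. PROOF: choose `V⁻¹` by `exists_VR`; inverse function theorem
(`HasStrictDerivAt.of_local_left_inverse` or `to_localInverse`). -/
theorem exists_profile (hn : 2 ≤ n) (hk : 0 ≤ k) : ∃ I : ℝ → ℝ, MonotoneOn I (Ici 0) ∧
    ContinuousOn I (Ici 0) ∧ (∀ V, 0 ≤ V → 0 ≤ I V) ∧ I 0 = 0 ∧
    (∀ R, 0 ≤ R → I (VR n k R) = AR n k R) ∧
    ∀ R, 0 < R → HasStrictDerivAt I (H0 n k R) (VR n k R) := by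
  have hn1 : 1 ≤ n := by omega
  set e : ℝ ≃o ℝ := (modelHF_strictMono hn1 hk).orderIsoOfSurjective _ (modelHF_surj hn1 hk) with he
  have he1 : ∀ R, e R = modelHF n k R := fun R => rfl
  have hV : ∀ R, 0 ≤ R → e.symm (VR n k R) = R := by
    intro R hR
    rw [OrderIso.symm_apply_eq, he1, modelHF, if_pos hR]
  have h0 : e.symm 0 = 0 := by
    have := hV 0 le_rfl
    rwa [VR_zero] at this
  have hnn : ∀ V, 0 ≤ V → 0 ≤ e.symm V := by
    intro V hV0
    rw [← h0]
    exact e.symm.monotone hV0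
  have hVR : ∀ V, 0 ≤ V → VR n k (e.symm V) = V := by
    intro V hV0
    have h1 := e.apply_symm_apply V
    rwa [he1, modelHF, if_pos (hnn V hV0)] at h1
  have hARc : Continuous (AR n k) := continuous_const.mul (modelH_cont n k)
  refine ⟨fun V => AR n k (e.symm V), ?_, ?_, ?_, ?_, ?_, ?_⟩
  · intro a ha b hb hab
    exact AR_mono hn1 hk (hnn a ha) (e.symm.monotone hab)
  · exact (hARc.comp e.symm.continuous).continuousOn
  · intro V hV0
    exact mul_nonneg (sig_pos hn1).le (pow_nonneg (modelH_sn_nonneg hk (hnn V hV0)) _)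
  · simp only [h0, AR, sn_zero]
    rw [zero_pow (by omega), mul_zero]
  · intro R hR
    simp only [hV R hR]
  · intro R hR
    have hA := AR_pos hn1 hk hR
    have hpos : 0 < VR n k R := by
      have := VR_strictMonoOn hn1 hk (mem_Ici.2 le_rfl) (mem_Ici.2 hR.le) hR
      rwa [VR_zero] at this
    have h1 : HasStrictDerivAt (fun V => e.symm V) (AR n k R)⁻¹ (VR n k R) := by
      refine HasStrictDerivAt.of_local_left_inverse (f := VR n k) e.symm.continuous.continuousAt
        ?_ hA.ne' ?_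
      · rw [hV R hR.le]
        exact hasStrictDerivAt_VR hn1 k R
      · filter_upwards [lt_mem_nhds hpos] with V hV0
        exact hVR V hV0.le
    have h2 : HasStrictDerivAt (AR n k) (H0 n k R * AR n k R) (e.symm (VR n k R)) := by
      rw [hV R hR.le]
      exact hasStrictDerivAt_AR hn1 hk hR
    have h3 := h2.comp (VR n k R) h1
    have h4 : H0 n k R * AR n k R * (AR n k R)⁻¹ = H0 n k R := by
      field_simp
    rw [h4] at h3
    exact h3

end Vale.Agent.P219.TPH
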