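import Vale.Agent.P219.TPH.Defs
import Vale.Agent.P219.TP.Slice

/-! # Minimising sequences with thin layers (task H17) -/

open MeasureTheory Set Metric
open scoped ENNReal ContDiff

namespace Vale.Agent.P219.TPH

open Vale.Agent.P219.TP

variable {n : ℕ} (G : Geo n)

/-- Volume of the geodesic ball. -/
theorem sliceh_V1_nonneg (h : E n → ℝ) : 0 ≤ V1 G h := measureReal_nonneg

theorem sliceh_V1_le {o : E n} {ρ : ℝ} {h : E n → ℝ} (hc : G.Cls o ρ h) :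
    V1 G h ≤ G.vol.real {x | ‖G.lg o x‖ ≤ ρ} := by
  unfold V1
  refine measureReal_mono ?_ (slice_vol_ball_lt G o ρ).ne
  intro x hx
  apply hc.supp x
  rw [show h x = 1 from hx]
  exact one_ne_zero

theorem sliceh_V1_step {o : E n} {ρ : ℝ} {h : E n → ℝ} (hc : G.Cls o ρ h) {N k : ℕ}
    (hk : k < N) : V1 G h ≤ V1 G (fun x => sliceH (((N : ℝ) + 1) * h x - (k + 1 : ℕ))) := by
  unfold V1
  refine measureReal_mono ?_ ?_
  · intro x hx
    have h1 : h x = 1 := hx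
    have h2 : (k : ℝ) + 1 ≤ N := by exact_mod_cast hk
    show sliceH (((N : ℝ) + 1) * h x - (k + 1 : ℕ)) = 1
    rw [h1]
    apply slice_H_high
    push_cast
    linarith
  · refine ((measure_mono ?_).trans_lt (slice_vol_ball_lt G o ρ)).ne
    intro x hx
    have h1 : sliceH (((N : ℝ) + 1) * h x - (k + 1 : ℕ)) = 1 := hx
    apply (slice_cls G hc ((N : ℝ) + 1) k).supp x
    rw [h1]
    exact one_ne_zero

/-- PROOF: as `TP.exists_thin`: `h_k = sliceH((N+1) h - (k+1))`, `k < N`;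
`{h = 1} ⊆ {h_k = 1}`, so `V1 h ≤ V1 h_k`, `I (V1 h) ≤ I (V1 h_k)`; `slice_per_sum`,
`slice_layer_sum`. -/
theorem exists_thin_H {I : ℝ → ℝ} (hI0 : ∀ V, 0 ≤ V → 0 ≤ I V) (hImono : MonotoneOn I (Ici 0))
    (o : E n) (ρ : ℝ) {J : ℝ} (hJ : ∀ h, G.Cls o ρ h → J ≤ G.per h - I (V1 G h))
    (hJ' : ∀ ε > 0, ∃ h, G.Cls o ρ h ∧ G.per h - I (V1 G h) < J + ε) :
    ∀ ε > 0, ∃ h, G.Cls o ρ h ∧ G.per h - I (V1 G h) < J + ε ∧
      G.vol.real {x | 0 < h x ∧ h x < 1} < ε := by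
  intro ε hε
  by_contra hcon
  push Not at hcon
  obtain ⟨h, hc, hd⟩ := hJ' (ε / 2) (by positivity)
  set V : ℝ := G.vol.real {x | ‖G.lg o x‖ ≤ ρ} with hV
  obtain ⟨N, hN⟩ := exists_nat_gt ((J + ε / 2 + 2 * V + I (V1 G h)) / (ε / 2))
  rw [div_lt_iff₀ (by positivity)] at hN
  set M : ℝ := (N : ℝ) + 1 with hM
  have hM0 : 0 < M := by positivity
  set hk : ℕ → E n → ℝ := fun k x => sliceH (M * h x - (k + 1 : ℕ)) with hhk
  have hcls : ∀ k, G.Cls o ρ (hk k) := fun k => slice_cls G hc M k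
  have hI1 : ∀ k ∈ Finset.range N, I (V1 G h) ≤ I (V1 G (hk k)) := fun k hkN =>
    hImono (sliceh_V1_nonneg G _) (sliceh_V1_nonneg G _)
      (sliceh_V1_step G hc (Finset.mem_range.1 hkN))
  have h1 : ∑ k ∈ Finset.range N, (G.per (hk k) - I (V1 G (hk k))) ≤
      M * (G.per h - I (V1 G h)) + I (V1 G h) := by
    have e2 : ∑ k ∈ Finset.range N, G.per (hk k) ≤ M * G.per h := slice_per_sum G hc hM0.le N
    have e3 := Finset.sum_le_sum hI1
    rw [Finset.sum_const, Finset.card_range, nsmul_eq_mul] at e3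
    rw [Finset.sum_sub_distrib]
    have e4 : M * (G.per h - I (V1 G h)) + I (V1 G h) = M * G.per h - N * I (V1 G h) := by
      rw [hM]
      ring
    rw [e4]
    linarith
  have h2 : ∀ k ∈ Finset.range N, J + ε - G.vol.real {x | 0 < hk k x ∧ hk k x < 1} ≤
      G.per (hk k) - I (V1 G (hk k)) := by
    intro k _
    by_cases hlt : G.per (hk k) - I (V1 G (hk k)) < J + ε
    · have e1 := hcon (hk k) (hcls k) hlt
      have e2 := hJ (hk k) (hcls k)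
      linarith
    · push Not at hlt
      have e3 : 0 ≤ G.vol.real {x | 0 < hk k x ∧ hk k x < 1} := measureReal_nonneg
      linarith
  have h3 := Finset.sum_le_sum h2
  rw [Finset.sum_sub_distrib, Finset.sum_const, Finset.card_range, nsmul_eq_mul] at h3
  have h4 : ∑ k ∈ Finset.range N, G.vol.real {x | 0 < hk k x ∧ hk k x < 1} ≤ 2 * V :=
    slice_layer_sum G hc hM0.le N
  have h6 : M * (G.per h - I (V1 G h)) < M * (J + ε / 2) := mul_lt_mul_of_pos_left hd hM0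
  have h7 : M * (J + ε / 2) = N * (J + ε) - N * (ε / 2) + (J + ε / 2) := by rw [hM]; ring
  linarith

/-- PROOF: `exists_thin_H` with `ε = 1/(j+1)`, and compactness of `[0, vol B]` for `V1 h_j`. -/
theorem exists_min_seq {I : ℝ → ℝ} (hI0 : ∀ V, 0 ≤ V → 0 ≤ I V) (hImono : MonotoneOn I (Ici 0))
    (o : E n) (ρ : ℝ) {J : ℝ} (hJ : ∀ h, G.Cls o ρ h → J ≤ G.per h - I (V1 G h))
    (hJ' : ∀ ε > 0, ∃ h, G.Cls o ρ h ∧ G.per h - I (V1 G h) < J + ε) :
    ∃ Vs : ℝ, 0 ≤ Vs ∧ ∀ ε > 0, ∃ h, G.Cls o ρ h ∧ G.per h - I (V1 G h) < J + ε ∧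
      G.vol.real {x | 0 < h x ∧ h x < 1} < ε ∧ |V1 G h - Vs| < ε := by
  have h0 := exists_thin_H G hI0 hImono o ρ hJ hJ'
  have hpos : ∀ j : ℕ, (0 : ℝ) < 1 / ((j : ℝ) + 1) := fun j => by positivity
  choose h hc hd hl using fun j : ℕ => h0 (1 / ((j : ℝ) + 1)) (hpos j)
  obtain ⟨Vs, hVs, φ, hφ, hlim⟩ := isCompact_Icc.tendsto_subseq
    (x := fun j => V1 G (h j)) (fun j => ⟨sliceh_V1_nonneg G (h j), sliceh_V1_le G (hc j)⟩ :
      ∀ j, V1 G (h j) ∈ Icc 0 (G.vol.real {x | ‖G.lg o x‖ ≤ ρ}))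
  refine ⟨Vs, hVs.1, fun ε hε => ?_⟩
  have e1 : ∀ᶠ j in Filter.atTop, |V1 G (h (φ j)) - Vs| < ε := by
    have := (Metric.tendsto_nhds.1 hlim) ε hε
    filter_upwards [this] with j hj
    rwa [Real.dist_eq] at hj
  have e2 : ∀ᶠ j : ℕ in Filter.atTop, 1 / ((φ j : ℝ) + 1) < ε :=
    ((tendsto_one_div_add_atTop_nhds_zero_nat (𝕜 := ℝ)).comp hφ.tendsto_atTop).eventually
      (gt_mem_nhds hε)
  obtain ⟨j, hj1, hj2⟩ := (e1.and e2).exists
  exact ⟨h (φ j), hc _, (hd _).trans (by linarith), (hl _).trans hj2, hj1⟩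

theorem deficit_bddBelow {I : ℝ → ℝ} (hImono : MonotoneOn I (Ici 0)) (o : E n) (ρ : ℝ) :
    ∃ C : ℝ, ∀ h, G.Cls o ρ h → -C ≤ G.per h - I (V1 G h) := by
  refine ⟨I (G.vol.real {x | ‖G.lg o x‖ ≤ ρ}), fun h hc => ?_⟩
  have hper : 0 ≤ G.per h := by
    unfold Geo.per
    exact integral_nonneg fun x => norm_nonneg _
  have h1 := hImono (sliceh_V1_nonneg G h) measureReal_nonneg (sliceh_V1_le G hc)
  linarith

end Vale.Agent.P219.TPH
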