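import Vale.Agent.P219.TPH.PairH
import Vale.Agent.P219.TP.TPineq

/-! # From lines to the pair integral (task H15) -/

open MeasureTheory Set Metric
open scoped ENNReal ContDiff

namespace Vale.Agent.P219.TPH

open Vale.Agent.P219.TP

variable {n : ℕ} (G : Geo n)

/-! ### Times in the ball -/

/-- The times at which a geodesic is in the ball. -/
def wh_S (o : E n) (ρ : ℝ) (x u : E n) : Set ℝ := {t | ‖G.lg o (G.ex x (t • u))‖ ≤ ρ}

theorem wh_isClosed_S (o : E n) (ρ : ℝ) (x u : E n) : IsClosed (wh_S G o ρ x u) := by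
  have h1 : Continuous fun t : ℝ => ‖G.lg o (G.ex x (t • u))‖ :=
    (G.lg_smooth.continuous.comp (continuous_const.prodMk (continuous_geod G x u))).norm
  exact isClosed_le h1 continuous_const

theorem wh_mem_of_between {o : E n} {ρ : ℝ} {x u : E n} {a b t : ℝ} (ha : a ∈ wh_S G o ρ x u)
    (hb : b ∈ wh_S G o ρ x u) (hat : a ≤ t) (htb : t ≤ b) : t ∈ wh_S G o ρ x u := by
  rcases eq_or_lt_of_le (hat.trans htb) with hab | hab
  · have : t = a := le_antisymm (hab ▸ htb) hat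
    rw [this]; exact ha
  · have h0 : 0 ≤ (t - a) / (b - a) := div_nonneg (by linarith) (by linarith)
    have h1 : (t - a) / (b - a) ≤ 1 := (div_le_one (by linarith)).2 (by linarith)
    have h := G.ball_convex (o := o) (x := G.ex x (a • u)) (y := G.ex x (b • u)) ha hb h0 h1
    rw [lg_along, smul_smul, div_mul_cancel₀ _ (by linarith : b - a ≠ 0), G.ex_flow,
      add_sub_cancel] at h
    exact h

theorem wh_dist_le {o : E n} {ρ : ℝ} {x u : E n} (hu : ‖u‖ = 1) {a b : ℝ}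
    (ha : a ∈ wh_S G o ρ x u) (hb : b ∈ wh_S G o ρ x u) : |b - a| ≤ 2 * ρ := by
  have h1 := G.lg_nonexp (G.ex x (a • u)) o (G.ex x (b • u))
  have h2 : ‖G.lg (G.ex x (a • u)) (G.ex x (b • u))‖ = |b - a| := by
    rw [lg_along, norm_smul, G.norm_V, hu, mul_one, Real.norm_eq_abs]
  have h3 : ‖G.lg (G.ex x (a • u)) o‖ ≤ ρ := by
    rw [G.norm_lg_comm]; exact ha
  have h4 : ‖G.lg o (G.ex x (b • u))‖ ≤ ρ := hb
  rw [← h2]
  have h5 : G.lg (G.ex x (a • u)) (G.ex x (b • u)) = G.lg (G.ex x (a • u)) o -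
      (G.lg (G.ex x (a • u)) o - G.lg (G.ex x (a • u)) (G.ex x (b • u))) := by abel
  rw [h5]
  refine (norm_sub_le _ _).trans ?_
  linarith

theorem wh_volume_S {o : E n} {ρ : ℝ} {x u : E n} (hu : ‖u‖ = 1) :
    volume (wh_S G o ρ x u) ≤ ENNReal.ofReal (2 * ρ) := by
  refine (Real.volume_le_diam _).trans ?_
  refine Metric.ediam_le ?_
  intro a ha b hb
  rw [edist_dist]
  apply ENNReal.ofReal_le_ofReal
  rw [Real.dist_eq, abs_sub_comm]
  exact wh_dist_le G hu ha hb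

theorem wh_h_zero {o : E n} {ρ : ℝ} {h : E n → ℝ} (hh : G.Cls o ρ h) {x u : E n} {t : ℝ}
    (ht : t ∉ wh_S G o ρ x u) : h (G.ex x (t • u)) = 0 := by
  by_contra h0
  exact ht (hh.supp _ h0)

theorem wh_D_zero' {o : E n} {ρ : ℝ} {h : E n → ℝ} (hh : G.Cls o ρ h) {y : E n}
    (hy : ¬ ‖G.lg o y‖ ≤ ρ) : G.D h y = 0 := by
  have hc : Continuous fun z : E n => ‖G.lg o z‖ :=
    (G.lg_smooth.continuous.comp (continuous_const.prodMk continuous_id)).norm
  have ho : IsOpen {z : E n | ρ < ‖G.lg o z‖} := isOpen_lt continuous_const hc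
  have h1 : h =ᶠ[nhds y] fun _ => (0 : ℝ) := by
    filter_upwards [ho.mem_nhds (show ρ < ‖G.lg o y‖ from not_le.1 hy)] with z hz
    by_contra h0
    exact absurd (hh.supp z h0) (not_le.2 hz)
  unfold Geo.D
  rw [h1.fderiv_eq]
  simp

theorem wh_D_zero {o : E n} {ρ : ℝ} {h : E n → ℝ} (hh : G.Cls o ρ h) {x u : E n} {t : ℝ}
    (ht : t ∉ wh_S G o ρ x u) : G.D h (G.ex x (t • u)) = 0 := wh_D_zero' G hh ht

theorem wh_compactSupport {o : E n} {ρ : ℝ} {h : E n → ℝ} (hh : G.Cls o ρ h) :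
    HasCompactSupport h := by
  apply HasCompactSupport.of_support_subset_isCompact (G.isCompact_gball o ρ)
  intro x hx
  exact hh.supp x hx

theorem wh_gkS_left {κ : E n → E n → ℝ → ℝ → ℝ} {o : E n} {ρ : ℝ} {h : E n → ℝ}
    (hh : G.Cls o ρ h) {x u : E n} {σ : ℝ} (hσ : σ ∉ wh_S G o ρ x u) (τ : ℝ) :
    gkS G κ h x u σ τ = 0 := by
  unfold gkS
  rw [wh_D_zero G hh hσ]
  simp

theorem wh_gkS_right {κ : E n → E n → ℝ → ℝ → ℝ} {o : E n} {ρ : ℝ} {h : E n → ℝ}
    (hh : G.Cls o ρ h) {x u : E n} {τ : ℝ} (hτ : τ ∉ wh_S G o ρ x u) (σ : ℝ) :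
    gkS G κ h x u σ τ = 0 := by
  unfold gkS
  rw [wh_D_zero G hh hτ]
  simp

/-- A bound of the pair integrand. -/
theorem wh_gkS_bound {o : E n} {ρ : ℝ} (hρ : 0 < ρ) {κ : E n → E n → ℝ → ℝ → ℝ}
    (hκb : ∀ K : Set (E n), IsCompact K → ∃ C : ℝ, 0 ≤ C ∧ ∀ p ∈ K, ∀ q ∈ K, ∀ a b : ℝ, |a| ≤ 1 →
      |b| ≤ 1 → |κ p q a b| ≤ C) {h : E n → ℝ} (hh : G.Cls o ρ h) :
    ∃ C : ℝ, 0 ≤ C ∧ ∀ x u : E n, ‖u‖ = 1 → ∀ σ τ : ℝ, σ < τ → |gkS G κ h x u σ τ| ≤ C := by
  have hK := G.isCompact_gball o ρ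
  obtain ⟨C1, hC1, hC1'⟩ := hκb _ hK
  obtain ⟨C2, hC2⟩ := (hK.prod (isCompact_closedBall (0 : E n) (2 * ρ))).exists_bound_of_continuousOn
    (f := fun z : E n × E n => (G.T z.1 z.2).det)
    (ContinuousLinearMap.continuous_det.comp G.T_smooth.continuous).continuousOn
  obtain ⟨C3, hC3⟩ := hK.exists_bound_of_continuousOn (f := G.D h)
    (ray_continuous_D G hh.smooth).continuousOn
  refine ⟨C1 * (|C2| * (2 * ρ) ^ (n - 1)) * (|C3| * |C3|), by positivity, ?_⟩
  intro x u hu σ τ hστ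
  by_cases hσ : σ ∈ wh_S G o ρ x u
  swap
  · rw [wh_gkS_left G hh hσ, abs_zero]; positivity
  by_cases hτ : τ ∈ wh_S G o ρ x u
  swap
  · rw [wh_gkS_right G hh hτ, abs_zero]; positivity
  have hd : |τ - σ| ≤ 2 * ρ := wh_dist_le G hu hσ hτ
  have hd0 : |τ - σ| = τ - σ := abs_of_pos (by linarith)
  unfold gkS
  rw [abs_mul, abs_mul]
  gcongr
  · exact hC1' _ hσ _ hτ _ _ (ray_abs_ca_le G hu σ) (by rw [abs_neg]; exact ray_abs_ca_le G hu τ)
  · unfold jac
    have h1 : |(G.T (G.ex x (σ • u)) ((τ - σ) • G.V σ x u)).det| ≤ |C2| := by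
      refine (hC2 (G.ex x (σ • u), (τ - σ) • G.V σ x u) ⟨hσ, ?_⟩).trans (le_abs_self _)
      rw [mem_closedBall_zero_iff, norm_smul, G.norm_V, hu, mul_one]
      exact hd
    rw [abs_mul, abs_abs, abs_pow]
    gcongr
  · rw [abs_mul, abs_norm, abs_norm]
    gcongr
    · exact (hC3 _ hσ).trans (le_abs_self _)
    · exact (hC3 _ hτ).trans (le_abs_self _)

theorem wh_lintegral_restrict {F : ℝ → ℝ≥0∞} {S A : Set ℝ} (hA : MeasurableSet A)
    (hSA : S ⊆ A) (hF : ∀ t ∉ S, F t = 0) : ∫⁻ t in A, F t = ∫⁻ t, F t := by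
  rw [← lintegral_indicator hA]
  apply lintegral_congr
  intro t
  by_cases ht : t ∈ A
  · rw [indicator_of_mem ht]
  · rw [indicator_of_notMem ht, hF t fun h => ht (hSA h)]

theorem wh_lintegral_le_of_bound {F : ℝ → ℝ≥0∞} {S A : Set ℝ} (hS : MeasurableSet S)
    (hF : ∀ t ∉ S, F t = 0) {c : ℝ≥0∞} (hc : ∀ t, F t ≤ c) :
    ∫⁻ t in A, F t ≤ c * volume S := by
  calc ∫⁻ t in A, F t ≤ ∫⁻ t in A, S.indicator (fun _ => c) t := by
        apply lintegral_mono
        intro t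
        by_cases ht : t ∈ S
        · simp only [indicator_of_mem ht]; exact hc t
        · simp only [indicator_of_notMem ht, hF t ht]; exact le_rfl
    _ ≤ ∫⁻ t, S.indicator (fun _ => c) t := lintegral_mono' Measure.restrict_le_self le_rfl
    _ = c * volume S := by rw [lintegral_indicator_const hS]

theorem wh_btL_eq {f : ℝ → ℝ} {o : E n} {ρ : ℝ} {h : E n → ℝ}
    (hh : G.Cls o ρ h) {x u : E n} {A : Set ℝ} (hA : wh_S G o ρ x u ⊆ A) :
    btL G f h x u A = btL G f h x u univ := by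
  unfold btL
  rw [setIntegral_eq_integral_of_forall_compl_eq_zero (s := A),
    setIntegral_eq_integral_of_forall_compl_eq_zero (s := A), setIntegral_univ, setIntegral_univ]
  · intro t ht
    rw [wh_D_zero G hh fun h => ht (hA h)]
    simp
  · intro t ht
    rw [wh_D_zero G hh fun h => ht (hA h)]
    simp

/-- The inequality on a window `(0,T)`. If `γ(0)` and `γ(T)` are outside of the ball
`B = {‖lg o ·‖ ≤ ρ}`, then `{t : γ(t) ∈ B}` is an interval (`ball_convex`) which is contained in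
`(0,T)` or disjoint from it: in the first case all integrals over `(0,T)` are integrals over `ℝ`, in
the second case they vanish. Otherwise the left side is at most `C`: `{t : γ(t) ∈ B}` is contained
in an interval of length `2ρ`, the integrand is bounded. -/
theorem window_H {o : E n} {ρ : ℝ} (hρ : 0 < ρ) {κ : E n → E n → ℝ → ℝ → ℝ}
    (hκm : Measurable fun z : E n × E n × ℝ × ℝ => κ z.1 z.2.1 z.2.2.1 z.2.2.2)
    (hκb : ∀ K : Set (E n), IsCompact K → ∃ C : ℝ, 0 ≤ C ∧ ∀ p ∈ K, ∀ q ∈ K, ∀ a b : ℝ, |a| ≤ 1 →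
      |b| ≤ 1 → |κ p q a b| ≤ C) {s : ℝ} {f : ℝ → ℝ} (hs : 0 ≤ s) (hf : Continuous f)
    (hf0 : ∀ a ∈ Icc (0 : ℝ) 1, 0 ≤ f a) {h : E n → ℝ} (hh : G.Cls o ρ h)
    (hline : ∀ x u : E n, ‖u‖ = 1 →
      ENNReal.ofReal (s * volume.real {t : ℝ | h (G.ex x (t • u)) = 1}) +
          (∫⁻ σ, ∫⁻ τ in Ioi σ, ENNReal.ofReal (-gkS G κ h x u σ τ)) ≤
        (∫⁻ σ, ∫⁻ τ in Ioi σ, ENNReal.ofReal (gkS G κ h x u σ τ)) +
          ENNReal.ofReal (btL G f h x u univ)) :
    ∃ C : ℝ, 0 ≤ C ∧ ∀ (T : ℝ), 0 < T → ∀ x u : E n, ‖u‖ = 1 →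
      ENNReal.ofReal (s * volume.real ({t : ℝ | h (G.ex x (t • u)) = 1} ∩ Ioo 0 T)) +
          (∫⁻ σ in Ioo 0 T, ∫⁻ τ in Ioi σ, ENNReal.ofReal (-gkS G κ h x u σ τ)) ≤
        (∫⁻ σ in Ioo 0 T, ∫⁻ τ in Ioi σ, ENNReal.ofReal (gkS G κ h x u σ τ)) +
          ENNReal.ofReal (btL G f h x u (Ioo 0 T)) +
          ENNReal.ofReal C * ({y | ‖G.lg o y‖ ≤ ρ}.indicator 1 x +
            {y | ‖G.lg o y‖ ≤ ρ}.indicator 1 (G.ex x (T • u))) := by
  obtain ⟨C', hC', hbd⟩ := wh_gkS_bound G hρ hκb hh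
  refine ⟨s * (2 * ρ) + C' * (2 * ρ) * (2 * ρ), by positivity, ?_⟩
  intro T hT x u hu
  have hSc := wh_isClosed_S G o ρ x u
  have hSm : MeasurableSet (wh_S G o ρ x u) := hSc.measurableSet
  have h1S : {t : ℝ | h (G.ex x (t • u)) = 1} ⊆ wh_S G o ρ x u := by
    intro t ht
    by_contra h0
    have h1 := wh_h_zero G hh h0
    have h2 : h (G.ex x (t • u)) = 1 := ht
    rw [h1] at h2
    exact zero_ne_one h2
  have hin : ∀ κ' : E n → E n → ℝ → ℝ → ℝ, ∀ c : ℝ, ∀ σ ∉ wh_S G o ρ x u,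
      ∫⁻ τ in Ioi σ, ENNReal.ofReal (c * gkS G κ' h x u σ τ) = 0 := by
    intro κ' c σ hσ
    simp [wh_gkS_left G hh hσ]
  by_cases hcase : (0 : ℝ) ∉ wh_S G o ρ x u ∧ T ∉ wh_S G o ρ x u
  · by_cases hex : ∃ t₀ ∈ Ioo 0 T, t₀ ∈ wh_S G o ρ x u
    · obtain ⟨t₀, ht₀, ht₀S⟩ := hex
      have hsub : wh_S G o ρ x u ⊆ Ioo 0 T := by
        intro t ht
        constructor
        · by_contra h0
          exact hcase.1 (wh_mem_of_between G ht ht₀S (not_lt.1 h0) ht₀.1.le)
        · by_contra h0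
          exact hcase.2 (wh_mem_of_between G ht₀S ht ht₀.2.le (not_lt.1 h0))
      have e1 : {t : ℝ | h (G.ex x (t • u)) = 1} ∩ Ioo 0 T = {t : ℝ | h (G.ex x (t • u)) = 1} :=
        inter_eq_left.2 (h1S.trans hsub)
      rw [e1, wh_btL_eq G hh hsub,
        wh_lintegral_restrict (S := wh_S G o ρ x u) measurableSet_Ioo hsub
          (fun σ hσ => by simpa using hin κ (-1) σ hσ),
        wh_lintegral_restrict (S := wh_S G o ρ x u) measurableSet_Ioo hsub
          (fun σ hσ => by simpa using hin κ 1 σ hσ)]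
      exact (hline x u hu).trans le_self_add
    · push Not at hex
      have e1 : {t : ℝ | h (G.ex x (t • u)) = 1} ∩ Ioo 0 T = ∅ := by
        rw [eq_empty_iff_forall_notMem]
        rintro t ⟨ht, ht'⟩
        exact hex t ht' (h1S ht)
      have e2 : (∫⁻ σ in Ioo 0 T, ∫⁻ τ in Ioi σ, ENNReal.ofReal (-gkS G κ h x u σ τ)) = 0 := by
        rw [← lintegral_indicator measurableSet_Ioo]
        refine (lintegral_congr fun σ => ?_).trans lintegral_zero
        by_cases hσ : σ ∈ Ioo 0 T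
        · rw [indicator_of_mem hσ]
          simpa using hin κ (-1) σ (hex σ hσ)
        · rw [indicator_of_notMem hσ]
      rw [e1, e2]
      simp
  · -- one of the ends in the ball
    have hind : (1 : ℝ≥0∞) ≤ {y | ‖G.lg o y‖ ≤ ρ}.indicator 1 x +
            {y | ‖G.lg o y‖ ≤ ρ}.indicator 1 (G.ex x (T • u)) := by
      by_cases h0 : (0 : ℝ) ∈ wh_S G o ρ x u
      · have h0' : x ∈ {y | ‖G.lg o y‖ ≤ ρ} := by
          have : ‖G.lg o (G.ex x ((0 : ℝ) • u))‖ ≤ ρ := h0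
          rw [zero_smul, G.ex_zero] at this
          exact this
        rw [indicator_of_mem h0']
        exact le_self_add
      · have h1 : T ∈ wh_S G o ρ x u := by
          by_contra h1
          exact hcase ⟨h0, h1⟩
        have h1' : G.ex x (T • u) ∈ {y | ‖G.lg o y‖ ≤ ρ} := h1
        rw [indicator_of_mem h1']
        exact le_add_self
    have hvol := wh_volume_S G (o := o) (ρ := ρ) (x := x) hu
    have hL : ENNReal.ofReal (s * volume.real ({t : ℝ | h (G.ex x (t • u)) = 1} ∩ Ioo 0 T)) ≤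
        ENNReal.ofReal (s * (2 * ρ)) := by
      apply ENNReal.ofReal_le_ofReal
      apply mul_le_mul_of_nonneg_left _ hs
      apply ENNReal.toReal_le_of_le_ofReal (by positivity)
      exact (measure_mono (inter_subset_left.trans h1S)).trans hvol
    have hR : (∫⁻ σ in Ioo 0 T, ∫⁻ τ in Ioi σ, ENNReal.ofReal (-gkS G κ h x u σ τ)) ≤
        ENNReal.ofReal (C' * (2 * ρ) * (2 * ρ)) := by
      have hinner : ∀ σ, ∫⁻ τ in Ioi σ, ENNReal.ofReal (-gkS G κ h x u σ τ) ≤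
          ENNReal.ofReal (C' * (2 * ρ)) := by
        intro σ
        have h1 : ∫⁻ τ in Ioi σ, ENNReal.ofReal (-gkS G κ h x u σ τ) ≤
            ∫⁻ τ in Ioi σ, (wh_S G o ρ x u).indicator (fun _ => ENNReal.ofReal C') τ := by
          apply setLIntegral_mono' measurableSet_Ioi
          intro τ hτ
          by_cases hτS : τ ∈ wh_S G o ρ x u
          · rw [indicator_of_mem hτS]
            exact ENNReal.ofReal_le_ofReal ((neg_le_abs _).trans (hbd x u hu σ τ hτ))
          · rw [indicator_of_notMem hτS, wh_gkS_right G hh hτS]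
            simp
        refine h1.trans ?_
        refine (lintegral_mono' Measure.restrict_le_self le_rfl).trans ?_
        rw [lintegral_indicator_const hSm, ENNReal.ofReal_mul hC']
        gcongr
      refine (wh_lintegral_le_of_bound (S := wh_S G o ρ x u) hSm
        (fun σ hσ => by simpa using hin κ (-1) σ hσ) hinner).trans ?_
      rw [ENNReal.ofReal_mul (by positivity : 0 ≤ C' * (2 * ρ))]
      gcongr
    calc _ ≤ ENNReal.ofReal (s * (2 * ρ)) + ENNReal.ofReal (C' * (2 * ρ) * (2 * ρ)) :=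
          add_le_add hL hR
      _ = ENNReal.ofReal (s * (2 * ρ) + C' * (2 * ρ) * (2 * ρ)) * 1 := by
          rw [mul_one, ENNReal.ofReal_add (by positivity) (by positivity)]
      _ ≤ _ := by
          refine le_trans ?_ le_add_self
          gcongr

/-! ### The pair integrand on the unit sphere bundle -/

theorem wh_gkS_shift (κ : E n → E n → ℝ → ℝ → ℝ) (h : E n → ℝ) (x u : E n) (σ τ : ℝ) :
    gkS G κ h (G.ex x (σ • u)) (G.V σ x u) 0 (τ - σ) = gkS G κ h x u σ τ := by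
  have h1 : G.ca h (G.ex x (σ • u)) (G.V σ x u) (τ - σ) = G.ca h x u τ := by
    unfold Geo.ca
    rw [G.ex_flow, G.V_flow, add_sub_cancel]
  have h2 : jac G (G.ex x (σ • u)) (G.V σ x u) 0 (τ - σ) = jac G x u σ τ := by
    unfold jac
    rw [zero_smul, G.ex_zero, G.V_zero, sub_zero]
  unfold gkS
  rw [h1, h2, tpi_ca_shift, zero_smul, G.ex_zero, G.ex_flow, add_sub_cancel]

/-- Inner integral of the pair integrand. -/
noncomputable def wh_G (κ : E n → E n → ℝ → ℝ → ℝ) (h : E n → ℝ) (z : E n × E n) : ℝ≥0∞ :=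
  ∫⁻ t in Ioi (0 : ℝ), ENNReal.ofReal (gkS G κ h z.1 z.2 0 t)

theorem wh_measurable_gkS {κ : E n → E n → ℝ → ℝ → ℝ}
    (hκm : Measurable fun z : E n × E n × ℝ × ℝ => κ z.1 z.2.1 z.2.2.1 z.2.2.2) {h : E n → ℝ}
    (hh : ContDiff ℝ 1 h) :
    Measurable fun z : (E n × E n) × ℝ => gkS G κ h z.1.1 z.1.2 0 z.2 := by
  have hD := ray_continuous_D G hh
  have he : Continuous fun z : (E n × E n) × ℝ => G.ex z.1.1 (z.2 • z.1.2) :=
    G.ex_smooth.continuous.comp ((continuous_fst.comp continuous_fst).prodMk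
      (continuous_snd.smul (continuous_snd.comp continuous_fst)))
  have hDe : Continuous fun z : (E n × E n) × ℝ => G.D h (G.ex z.1.1 (z.2 • z.1.2)) := hD.comp he
  have hV : Continuous fun z : (E n × E n) × ℝ => G.V z.2 z.1.1 z.1.2 :=
    G.V_smooth.continuous.comp (continuous_snd.prodMk ((continuous_fst.comp continuous_fst).prodMk
      (continuous_snd.comp continuous_fst)))
  have hca : Measurable fun z : (E n × E n) × ℝ => G.ca h z.1.1 z.1.2 z.2 := by
    unfold Geo.ca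
    exact (hDe.inner hV).measurable.div hDe.norm.measurable
  have p0 : Continuous fun z : (E n × E n) × ℝ => ((z.1, (0 : ℝ)) : (E n × E n) × ℝ) := by
    fun_prop
  have hT : Continuous fun z : (E n × E n) × ℝ => |(G.T z.1.1 (z.2 • z.1.2)).det| :=
    (ContinuousLinearMap.continuous_det.comp (G.T_smooth.continuous.comp
      ((continuous_fst.comp continuous_fst).prodMk
        (continuous_snd.smul (continuous_snd.comp continuous_fst))))).abs
  have hj : Measurable fun z : (E n × E n) × ℝ => |(G.T z.1.1 (z.2 • z.1.2)).det| *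
      z.2 ^ (n - 1) := hT.measurable.mul (measurable_snd.pow_const _)
  have hk : Measurable fun z : (E n × E n) × ℝ =>
      κ (G.ex z.1.1 ((0 : ℝ) • z.1.2)) (G.ex z.1.1 (z.2 • z.1.2)) (G.ca h z.1.1 z.1.2 0)
        (-G.ca h z.1.1 z.1.2 z.2) :=
    hκm.comp ((he.comp p0).measurable.prodMk (he.measurable.prodMk
      ((hca.comp p0.measurable).prodMk hca.neg)))
  have hd : Measurable fun z : (E n × E n) × ℝ =>
      ‖G.D h (G.ex z.1.1 ((0 : ℝ) • z.1.2))‖ * ‖G.D h (G.ex z.1.1 (z.2 • z.1.2))‖ :=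
    ((hDe.norm.comp p0).mul hDe.norm).measurable
  have heq : (fun z : (E n × E n) × ℝ => gkS G κ h z.1.1 z.1.2 0 z.2) = fun z =>
      κ (G.ex z.1.1 ((0 : ℝ) • z.1.2)) (G.ex z.1.1 (z.2 • z.1.2)) (G.ca h z.1.1 z.1.2 0)
        (-G.ca h z.1.1 z.1.2 z.2) * (|(G.T z.1.1 (z.2 • z.1.2)).det| * z.2 ^ (n - 1)) *
      (‖G.D h (G.ex z.1.1 ((0 : ℝ) • z.1.2))‖ * ‖G.D h (G.ex z.1.1 (z.2 • z.1.2))‖) := by
    funext z
    unfold gkS jac
    rw [sub_zero, zero_smul, G.ex_zero, G.V_zero]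
  rw [heq]
  exact (hk.mul hj).mul hd

theorem wh_measurable_G {κ : E n → E n → ℝ → ℝ → ℝ}
    (hκm : Measurable fun z : E n × E n × ℝ × ℝ => κ z.1 z.2.1 z.2.2.1 z.2.2.2) {h : E n → ℝ}
    (hh : ContDiff ℝ 1 h) : Measurable (wh_G G κ h) := by
  unfold wh_G
  exact Measurable.lintegral_prod_right'
    (f := fun p : (E n × E n) × ℝ => ENNReal.ofReal (gkS G κ h p.1.1 p.1.2 0 p.2))
    (wh_measurable_gkS G hκm hh).ennreal_ofReal

theorem wh_G_eq (κ : E n → E n → ℝ → ℝ → ℝ) (h : E n → ℝ) (x u : E n) (σ : ℝ) :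
    ∫⁻ τ in Ioi σ, ENNReal.ofReal (gkS G κ h x u σ τ) =
      wh_G G κ h (G.ex x (σ • u), G.V σ x u) := by
  unfold wh_G
  rw [← tpi_setLIntegral_shift _ σ]
  apply lintegral_congr
  intro τ
  simp only [wh_gkS_shift]

theorem wh_J_G (κ : E n → E n → ℝ → ℝ → ℝ) (h : E n → ℝ) :
    tpiJ G (wh_G G κ h) = lineL G κ h := rfl

theorem wh_window {κ : E n → E n → ℝ → ℝ → ℝ} {s : ℝ} {f : ℝ → ℝ}
    (hs : 0 ≤ s) (hf0 : ∀ a ∈ Icc (0 : ℝ) 1, 0 ≤ f a) {h : E n → ℝ} (hh : ContDiff ℝ 1 h)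
    {o : E n} {ρ C T : ℝ} {x u : E n}
    (hw : ENNReal.ofReal (s * volume.real ({t : ℝ | h (G.ex x (t • u)) = 1} ∩ Ioo 0 T)) +
          (∫⁻ σ in Ioo 0 T, ∫⁻ τ in Ioi σ, ENNReal.ofReal (-gkS G κ h x u σ τ)) ≤
        (∫⁻ σ in Ioo 0 T, ∫⁻ τ in Ioi σ, ENNReal.ofReal (gkS G κ h x u σ τ)) +
          ENNReal.ofReal (btL G f h x u (Ioo 0 T)) +
          ENNReal.ofReal C * ({y | ‖G.lg o y‖ ≤ ρ}.indicator 1 x +
            {y | ‖G.lg o y‖ ≤ ρ}.indicator 1 (G.ex x (T • u)))) :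
    ENNReal.ofReal s * tpiW G (fun z => {y | h y = 1}.indicator 1 z.1) 0 T (x, u) +
        tpiW G (wh_G G (fun p q a b => -κ p q a b) h) 0 T (x, u) ≤
      tpiW G (wh_G G κ h) 0 T (x, u) +
      (2⁻¹ * tpiW G (tpiPhi G f h 1) 0 T (x, u) +
        2⁻¹ * tpiW G (tpiPhi G f h (-1)) 0 T (x, u)) +
      ENNReal.ofReal C * (({y | ‖G.lg o y‖ ≤ ρ}.indicator 1 x : ℝ≥0∞) +
        {y | ‖G.lg o y‖ ≤ ρ}.indicator 1 (G.ex x (T • u))) := by
  have hcont : Continuous fun t : ℝ => h (G.ex x (t • u)) :=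
    hh.continuous.comp (G.ex_smooth.continuous.comp
      (continuous_const.prodMk (continuous_id.smul continuous_const)))
  have hA : MeasurableSet {t : ℝ | h (G.ex x (t • u)) = 1} :=
    (isClosed_singleton.preimage hcont).measurableSet
  have hlhs : ENNReal.ofReal s * tpiW G (fun z => {y | h y = 1}.indicator 1 z.1) 0 T (x, u) =
      ENNReal.ofReal (s * volume.real ({t | h (G.ex x (t • u)) = 1} ∩ Ioo 0 T)) := by
    rw [ENNReal.ofReal_mul hs]
    congr 1
    have h1 : tpiW G (fun z => {y | h y = 1}.indicator 1 z.1) 0 T (x, u) =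
        ∫⁻ t in Ioo 0 T, {t : ℝ | h (G.ex x (t • u)) = 1}.indicator 1 t := by
      unfold tpiW
      apply lintegral_congr
      intro t
      simp only [indicator_apply, Pi.one_apply]
      rfl
    have hfin : volume ({t : ℝ | h (G.ex x (t • u)) = 1} ∩ Ioo 0 T) ≠ ⊤ := by
      refine ne_top_of_le_ne_top ?_ (measure_mono inter_subset_right)
      simp
    rw [h1, lintegral_indicator_one hA, Measure.restrict_apply hA, ofReal_measureReal hfin]
  have hW : ∀ κ' : E n → E n → ℝ → ℝ → ℝ, tpiW G (wh_G G κ' h) 0 T (x, u) =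
      ∫⁻ σ in Ioo 0 T, ∫⁻ τ in Ioi σ, ENNReal.ofReal (gkS G κ' h x u σ τ) := by
    intro κ'
    unfold tpiW
    apply lintegral_congr
    intro σ
    exact (wh_G_eq G κ' h x u σ).symm
  rw [hlhs, hW, hW]
  simp only [gkS_neg]
  refine hw.trans ?_
  gcongr
  unfold btL
  refine ENNReal.ofReal_add_le.trans ?_
  rw [tpi_ofReal_half, tpi_ofReal_half]
  gcongr
  · refine (tpi_ofReal_integral_le ?_).trans (le_of_eq ?_)
    · intro t
      exact mul_nonneg (hf0 _ (tpi_clip_mem _)) (le_max_left _ _)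
    · unfold tpiW
      apply lintegral_congr
      intro t
      rw [tpi_Phi_eq, one_mul]
  · refine (tpi_ofReal_integral_le ?_).trans (le_of_eq ?_)
    · intro t
      exact mul_nonneg (hf0 _ (tpi_clip_mem _)) (le_max_left _ _)
    · unfold tpiW
      apply lintegral_congr
      intro t
      rw [tpi_Phi_eq, neg_one_mul]

/-- PROOF: integrate `window_H` over the unit sphere bundle and use `flow_avg` (`tpiJ_W`) for every
term, divide by `T → ∞`; compare `TP.two_point`. -/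
theorem two_point_lines (hn : 2 ≤ n) {o : E n} {ρ : ℝ} (hρ : 0 < ρ) {κ : E n → E n → ℝ → ℝ → ℝ}
    (hκm : Measurable fun z : E n × E n × ℝ × ℝ => κ z.1 z.2.1 z.2.2.1 z.2.2.2)
    (hκb : ∀ K : Set (E n), IsCompact K → ∃ C : ℝ, 0 ≤ C ∧ ∀ p ∈ K, ∀ q ∈ K, ∀ a b : ℝ, |a| ≤ 1 →
      |b| ≤ 1 → |κ p q a b| ≤ C) {s F : ℝ} {f : ℝ → ℝ} (hs : 0 ≤ s) (hf : Continuous f)
    (hf0 : ∀ a ∈ Icc (0 : ℝ) 1, 0 ≤ f a)
    (hF : ∀ e : E n, ‖e‖ = 1 →
      ∫ u : sphere (0 : E n) 1, f (max 0 (inner ℝ e (u : E n))) * max 0 (inner ℝ e (u : E n))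
        ∂((volume : Measure (E n)).toSphere) ≤ F) {h : E n → ℝ} (hh : G.Cls o ρ h)
    (hline : ∀ x u : E n, ‖u‖ = 1 →
      ENNReal.ofReal (s * volume.real {t : ℝ | h (G.ex x (t • u)) = 1}) +
          (∫⁻ σ, ∫⁻ τ in Ioi σ, ENNReal.ofReal (-gkS G κ h x u σ τ)) ≤
        (∫⁻ σ, ∫⁻ τ in Ioi σ, ENNReal.ofReal (gkS G κ h x u σ τ)) +
          ENNReal.ofReal (btL G f h x u univ)) :
    s * sig n * V1 G h - F * G.per h ≤ pairX G κ h := by
  have hn1 : 1 ≤ n := by omega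
  have hsm : ContDiff ℝ 1 h := hh.smooth
  have hc : HasCompactSupport h := wh_compactSupport G hh
  obtain ⟨C, hC, hwin⟩ := window_H G hρ hκm hκb hs hf hf0 hh hline
  obtain ⟨hp1, hp2, hp3⟩ := pairX_eq G hn hκm hκb hsm hc
  have hκm' : Measurable fun z : E n × E n × ℝ × ℝ =>
      (fun p q a b => -κ p q a b) z.1 z.2.1 z.2.2.1 z.2.2.2 := hκm.neg
  set κn : E n → E n → ℝ → ℝ → ℝ := fun p q a b => -κ p q a b with hκn
  -- `F ≥ 0`
  have hF0 : 0 ≤ F := by
    have he : ‖(EuclideanSpace.single (⟨0, by omega⟩ : Fin n) (1 : ℝ) : E n)‖ = 1 := by simp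
    refine le_trans ?_ (hF _ he)
    apply integral_nonneg
    intro u
    have h1 : inner ℝ (EuclideanSpace.single (⟨0, by omega⟩ : Fin n) (1 : ℝ) : E n) (u : E n)
        ≤ 1 := by
      have := real_inner_le_norm
        (EuclideanSpace.single (⟨0, by omega⟩ : Fin n) (1 : ℝ) : E n) (u : E n)
      rw [he] at this
      simpa using this
    exact mul_nonneg (hf0 _ ⟨le_max_left _ _, max_le zero_le_one h1⟩) (le_max_left _ _)
  have hper : 0 ≤ G.per h := integral_nonneg fun x => norm_nonneg _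
  have hsig : 0 ≤ sig n := measureReal_nonneg
  have hV1 : 0 ≤ V1 G h := measureReal_nonneg
  -- measurable sets
  have hA1 : MeasurableSet {x : E n | h x = 1} :=
    (isClosed_singleton.preimage hsm.continuous).measurableSet
  have hA0 : MeasurableSet {y : E n | ‖G.lg o y‖ ≤ ρ} :=
    (G.isCompact_gball o ρ).isClosed.measurableSet
  have hv0 : G.vol {y : E n | ‖G.lg o y‖ ≤ ρ} < ⊤ := G.vol_compact_lt_top (G.isCompact_gball o ρ)
  have hv1 : G.vol {x : E n | h x = 1} < ⊤ := by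
    refine (measure_mono ?_).trans_lt hv0
    intro x hx
    apply hh.supp
    have hx1 : h x = 1 := hx
    rw [hx1]
    exact one_ne_zero
  set F1 : E n → ℝ≥0∞ := {y | h y = 1}.indicator 1 with hF1
  set F0 : E n → ℝ≥0∞ := {y | ‖G.lg o y‖ ≤ ρ}.indicator 1 with hF0'
  have hmF1 : Measurable F1 := measurable_one.indicator hA1
  have hmF0 : Measurable F0 := measurable_one.indicator hA0
  have hmG := wh_measurable_G G hκm hsm
  have hmN := wh_measurable_G G (κ := κn) hκm' hsm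
  have hmP := tpi_measurable_Phi G hf hsm 1
  have hmM := tpi_measurable_Phi G hf hsm (-1)
  -- values of the bundle integrals
  have hJ1 : tpiJ G (fun z => F1 z.1) = ENNReal.ofReal (sig n * V1 G h) := by
    rw [tpiJ_fst, hF1, lintegral_indicator_one hA1, ENNReal.ofReal_mul hsig, tpi_sig]
    unfold V1
    rw [ofReal_measureReal hv1.ne]
  have hJ0 : tpiJ G (fun z => F0 z.1) =
      ENNReal.ofReal (sig n * G.vol.real {y : E n | ‖G.lg o y‖ ≤ ρ}) := by
    rw [tpiJ_fst, hF0', lintegral_indicator_one hA0, ENNReal.ofReal_mul hsig, tpi_sig,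
      ofReal_measureReal hv0.ne]
  have hJP := tpi_J_Phi G hsm hc hF0 hf hf0 hF (ε := 1) (by simp)
  have hJM := tpi_J_Phi G hsm hc hF0 hf hf0 hF (ε := -1) (by simp)
  set Lp : ℝ := (lineL G κ h).toReal with hLp
  set Lm : ℝ := (lineL G κn h).toReal with hLm
  have hLp0 : 0 ≤ Lp := ENNReal.toReal_nonneg
  have hLm0 : 0 ≤ Lm := ENNReal.toReal_nonneg
  have hJG : tpiJ G (wh_G G κ h) = ENNReal.ofReal Lp := (ENNReal.ofReal_toReal hp1).symm
  have hJN : tpiJ G (wh_G G κn h) = ENNReal.ofReal Lm := (ENNReal.ofReal_toReal hp2).symm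
  -- the limit
  have key : s * sig n * V1 G h + Lm ≤ Lp + F * G.per h := by
    apply tpi_real_limit
      (c := C * (2 * (sig n * G.vol.real {y : E n | ‖G.lg o y‖ ≤ ρ})))
    intro N hN
    obtain ⟨T, ⟨hT1, hT2⟩, hT3⟩ := tpi_exists_time G hn1 hmF0 hN
    have hT0 : 0 < T := by linarith
    refine ⟨T, hT1, ?_⟩
    have hint := tpiJ_mono G
      (F := fun z => ENNReal.ofReal s * tpiW G (fun z => F1 z.1) 0 T z +
        tpiW G (wh_G G κn h) 0 T z)
      (F' := fun z => (tpiW G (wh_G G κ h) 0 T z +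
        (2⁻¹ * tpiW G (tpiPhi G f h 1) 0 T z + 2⁻¹ * tpiW G (tpiPhi G f h (-1)) 0 T z)) +
        ENNReal.ofReal C * (F0 z.1 + F0 (G.ex z.1 (T • z.2))))
      (fun x u hu => wh_window G hs hf0 hsm (hwin T hT0 x u hu))
    have hW1 := tpi_measurable_W G (F := fun z => F1 z.1) (hmF1.comp measurable_fst) 0 T
    have hWG := tpi_measurable_W G hmG 0 T
    have hWN := tpi_measurable_W G hmN 0 T
    have hWP := tpi_measurable_W G hmP 0 T
    have hWM := tpi_measurable_W G hmM 0 T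
    have hB : Measurable fun z : E n × E n => F0 z.1 + F0 (G.ex z.1 (T • z.2)) := by
      apply (hmF0.comp measurable_fst).add
      apply hmF0.comp
      exact (G.ex_smooth.continuous.comp
        (continuous_fst.prodMk (continuous_snd.const_smul T))).measurable
    have hm2 : Measurable fun z : E n × E n => tpiW G (wh_G G κ h) 0 T z +
        (2⁻¹ * tpiW G (tpiPhi G f h 1) 0 T z + 2⁻¹ * tpiW G (tpiPhi G f h (-1)) 0 T z) :=
      hWG.add ((hWP.const_mul _).add (hWM.const_mul _))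
    have hm3 : Measurable fun z : E n × E n => 2⁻¹ * tpiW G (tpiPhi G f h 1) 0 T z :=
      hWP.const_mul _
    have hm4 : Measurable fun z : E n × E n =>
        ENNReal.ofReal s * tpiW G (fun z => F1 z.1) 0 T z := hW1.const_mul _
    rw [tpiJ_add G hm4, tpiJ_const_mul G hW1, tpiJ_add G hm2,
      tpiJ_add G hWG, tpiJ_add G hm3, tpiJ_const_mul G hWP, tpiJ_const_mul G hWM,
      tpiJ_const_mul G hB, tpiJ_add G (F := fun z => F0 z.1) (hmF0.comp measurable_fst),
      tpiJ_W G hn1 (F := fun z => F1 z.1) (hmF1.comp measurable_fst) le_rfl hT0.le,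
      tpiJ_W G hn1 hmG le_rfl hT0.le, tpiJ_W G hn1 hmN le_rfl hT0.le,
      tpiJ_W G hn1 hmP le_rfl hT0.le, tpiJ_W G hn1 hmM le_rfl hT0.le, sub_zero] at hint
    have h2 : ENNReal.ofReal (T * (s * sig n * V1 G h + Lm)) ≤
        ENNReal.ofReal (T * (Lp + F * G.per h) +
          C * (2 * (sig n * G.vol.real {y : E n | ‖G.lg o y‖ ≤ ρ}))) := by
      calc ENNReal.ofReal (T * (s * sig n * V1 G h + Lm))
          = ENNReal.ofReal s * (ENNReal.ofReal T * tpiJ G (fun z => F1 z.1)) +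
              ENNReal.ofReal T * tpiJ G (wh_G G κn h) := by
            rw [hJ1, hJN, ← ENNReal.ofReal_mul hT0.le, ← ENNReal.ofReal_mul hs,
              ← ENNReal.ofReal_mul hT0.le, ← ENNReal.ofReal_add]
            · congr 1
              ring
            all_goals positivity
        _ ≤ _ := hint
        _ ≤ ENNReal.ofReal T * ENNReal.ofReal Lp +
            (2⁻¹ * (ENNReal.ofReal T * ENNReal.ofReal (F * G.per h)) +
              2⁻¹ * (ENNReal.ofReal T * ENNReal.ofReal (F * G.per h))) +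
            ENNReal.ofReal C *
              (ENNReal.ofReal (sig n * G.vol.real {y : E n | ‖G.lg o y‖ ≤ ρ}) +
              ENNReal.ofReal (sig n * G.vol.real {y : E n | ‖G.lg o y‖ ≤ ρ})) := by
            gcongr
            · exact hJG.le
            · exact hJ0.le
            · exact hT3.trans hJ0.le
        _ = _ := by
            rw [← add_mul, ENNReal.inv_two_add_inv_two, one_mul,
              ← ENNReal.ofReal_mul hT0.le, ← ENNReal.ofReal_mul hT0.le, ← ENNReal.ofReal_add,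
              ← ENNReal.ofReal_add, ← ENNReal.ofReal_mul, ← ENNReal.ofReal_add]
            · congr 1
              ring
            all_goals positivity
    have h3 : 0 ≤ T * (Lp + F * G.per h) +
          C * (2 * (sig n * G.vol.real {y : E n | ‖G.lg o y‖ ≤ ρ})) := by
      positivity
    exact (ENNReal.ofReal_le_ofReal_iff h3).1 h2
  rw [hp3]
  linarith

end Vale.Agent.P219.TPH
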