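import Vale.Agent.P219.TPH.RayH
import Vale.Agent.P219.TPH.WindowH
import Vale.Agent.P219.TP.PerContract

/-! # The two-point inequality for the exact kernel -/

open MeasureTheory Set Metric
open scoped ENNReal ContDiff

namespace Vale.Agent.P219.TPH

open Vale.Agent.P219.TP

variable {n : ℕ} (G : Geo n) {k : ℝ}

theorem two_point_H (hn : 2 ≤ n) (hk : 0 ≤ k) (hG : Curv G k) {Φ : ℝ × ℝ → ℝ} {lam H s F : ℝ}
    {f : ℝ → ℝ} (hg : Good n k Φ lam H s f) (hH : 0 ≤ H) (hs : 0 ≤ s) (hf : Continuous f)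
    (hf0 : ∀ a ∈ Icc (0 : ℝ) 1, 0 ≤ f a)
    (hF : ∀ e : E n, ‖e‖ = 1 →
      ∫ u : sphere (0 : E n) 1, f (max 0 (inner ℝ e (u : E n))) * max 0 (inner ℝ e (u : E n))
        ∂((volume : Measure (E n)).toSphere) ≤ F) {o : E n} {ρ : ℝ} (hρ : 0 < ρ) {h : E n → ℝ}
    (hh : G.Cls o ρ h) :
    s * sig n * V1 G h - F * G.per h ≤ pairX G (kex G k Φ lam H) h := by
  have hc : HasCompactSupport h := Cls.hasCompactSupport G hh
  obtain ⟨δ, hδ, hΦ⟩ := hg.smooth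
  rw [← pairX_symm G hk hδ hΦ lam H hh.smooth hc]
  exact two_point_lines G hn hρ (measurable_kexs G hk hδ hΦ lam H)
    (fun K hK => kexs_bound G hk hδ hΦ lam H hK) hs hf hf0 hF hh
    (fun x u hu => ray_H hn hk hG hg hH hs hf hf0 hh.smooth hc
      (fun x => ⟨hh.nonneg x, hh.le_one x⟩) hu)

end Vale.Agent.P219.TPH
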