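import Vale.Agent.P219.TPH.ContractH
import Vale.Agent.P219.TPH.TwoPointH
import Vale.Agent.P219.TPH.ModelH
import Vale.Agent.P219.TPH.SliceH
import Vale.Agent.P219.TP.Sobolev

/-! # The isoperimetric inequality from certificates -/

open MeasureTheory Set Metric
open scoped ENNReal ContDiff

namespace Vale.Agent.P219.TPH

open Vale.Agent.P219.TP

variable {n : ℕ} {k : ℝ}

theorem certH_F_nonneg (hn : 2 ≤ n) {R : ℝ} (C : CertH n k R) : 0 ≤ C.F := by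
  have e0 : ‖(EuclideanSpace.single (⟨0, by omega⟩ : Fin n) (1 : ℝ))‖ = 1 := by simp
  have h1 := C.hF _ e0
  have h2 : 0 ≤ ∫ u : sphere (0 : E n) 1, C.f (max 0 (inner ℝ
      (EuclideanSpace.single (⟨0, by omega⟩ : Fin n) (1 : ℝ)) (u : E n))) * max 0 (inner ℝ
      (EuclideanSpace.single (⟨0, by omega⟩ : Fin n) (1 : ℝ)) (u : E n))
      ∂((volume : Measure (E n)).toSphere) := by
    refine integral_nonneg fun u => ?_
    have hu : ‖(u : E n)‖ = 1 := by simp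
    have h3 : max 0 (inner ℝ (EuclideanSpace.single (⟨0, by omega⟩ : Fin n) (1 : ℝ))
        (u : E n)) ≤ 1 := by
      refine max_le zero_le_one ?_
      have := real_inner_le_norm (EuclideanSpace.single (⟨0, by omega⟩ : Fin n) (1 : ℝ))
        (u : E n)
      rw [e0, hu] at this
      linarith
    exact mul_nonneg (C.f_nonneg _ ⟨le_max_left _ _, h3⟩) (le_max_left _ _)
  exact h2.trans h1

theorem sphere_F_eps {F ε : ℝ} {f : ℝ → ℝ} (hε : 0 ≤ ε) (hf : Continuous f) {e : E n}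
    (he : ‖e‖ = 1)
    (hF : ∫ u : sphere (0 : E n) 1, f (max 0 (inner ℝ e (u : E n))) *
      max 0 (inner ℝ e (u : E n)) ∂((volume : Measure (E n)).toSphere) ≤ F) :
    ∫ u : sphere (0 : E n) 1, (f (max 0 (inner ℝ e (u : E n))) + ε) *
      max 0 (inner ℝ e (u : E n)) ∂((volume : Measure (E n)).toSphere) ≤ F + ε * sig n := by
  have c0 : Continuous fun u : sphere (0 : E n) 1 => max 0 (inner ℝ e (u : E n)) := by fun_prop
  have c1 : Continuous fun u : sphere (0 : E n) 1 => f (max 0 (inner ℝ e (u : E n))) :=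
    hf.comp c0
  have i1 : Integrable (fun u : sphere (0 : E n) 1 => f (max 0 (inner ℝ e (u : E n))) *
      max 0 (inner ℝ e (u : E n))) (volume : Measure (E n)).toSphere :=
    integrable_sphere (n := n) (c1.mul c0)
  have i2 := integrable_sphere (n := n) c0
  have h1 : ∫ u : sphere (0 : E n) 1, (f (max 0 (inner ℝ e (u : E n))) + ε) *
      max 0 (inner ℝ e (u : E n)) ∂((volume : Measure (E n)).toSphere) =
      (∫ u : sphere (0 : E n) 1, f (max 0 (inner ℝ e (u : E n))) *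
        max 0 (inner ℝ e (u : E n)) ∂((volume : Measure (E n)).toSphere)) +
        ε * ∫ u : sphere (0 : E n) 1, max 0 (inner ℝ e (u : E n))
          ∂((volume : Measure (E n)).toSphere) := by
    rw [← integral_const_mul, ← integral_add i1 (i2.const_mul ε)]
    congr 1
    funext u
    ring
  have h2 : ∫ u : sphere (0 : E n) 1, max 0 (inner ℝ e (u : E n))
      ∂((volume : Measure (E n)).toSphere) ≤ sig n := by
    have h3 : ∫ u : sphere (0 : E n) 1, max 0 (inner ℝ e (u : E n))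
      ∂((volume : Measure (E n)).toSphere) ≤
      ∫ _ : sphere (0 : E n) 1, (1 : ℝ) ∂((volume : Measure (E n)).toSphere) := by
      refine integral_mono i2 (integrable_const 1) fun u => ?_
      refine max_le zero_le_one ?_
      have := real_inner_le_norm e (u : E n)
      have hu : ‖(u : E n)‖ = 1 := by simp
      rw [he, hu] at this
      linarith
    refine h3.trans (le_of_eq ?_)
    rw [integral_const]
    simp [sig]
  rw [h1]
  gcongr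

/-- Lower bound of the first variation. -/
theorem arith_low {lam s F ε sg A Vs V P X J η : ℝ} (hlam : 0 < lam) (hs : 0 ≤ s) (hF : 0 ≤ F)
    (hε : 0 ≤ ε) (hsg : 0 ≤ sg) (hA : 0 < A) (hJ : J < 0)
    (hbal : lam * A ^ 2 ≤ s * sg * Vs - F * A)
    (hX : s * sg * V - (F + ε * sg) * P ≤ X) (hP : 0 ≤ P) (hPA : P ≤ A + J / 2)
    (hV : |V - Vs| ≤ η) (hη : s * sg * η ≤ lam * -J * A / 8)
    (hε' : ε * (sg * A + A ^ 2) ≤ lam * -J * A / 8) :
    lam * -J * A / 4 ≤ X - (lam + ε) * P ^ 2 := by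
  have h1 : Vs - η ≤ V := by linarith [(abs_le.1 hV).1]
  have h2 : s * sg * (Vs - η) ≤ s * sg * V := mul_le_mul_of_nonneg_left h1 (by positivity)
  have hPA' : P ≤ A := by linarith
  have h3 : F * P ≤ F * A := mul_le_mul_of_nonneg_left hPA' hF
  have h4 : ε * sg * P ≤ ε * sg * A := mul_le_mul_of_nonneg_left hPA' (by positivity)
  have h5 : P ^ 2 ≤ A ^ 2 := pow_le_pow_left₀ hP hPA' 2
  have h6 : ε * P ^ 2 ≤ ε * A ^ 2 := mul_le_mul_of_nonneg_left h5 hε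
  have h7 : lam * P ^ 2 ≤ lam * (A * (A + J / 2)) := by
    refine mul_le_mul_of_nonneg_left ?_ hlam.le
    rw [pow_two]
    exact mul_le_mul hPA' hPA hP hA.le
  nlinarith

/-- There is a point where the first variation is definitely positive. -/
theorem base_point_H (hn : 2 ≤ n) (hk : 0 ≤ k) (G : Geo n) (hG : Curv G k) {R : ℝ}
    (C : CertH n k R) (hH : 0 ≤ H0 n k R) (hA : 0 < AR n k R) {ε : ℝ} (hε : 0 < ε) {Φ : ℝ × ℝ → ℝ}
    (hΦ : Good n k Φ (C.lam + ε) (H0 n k R) C.s (fun a => C.f a + ε)) {o : E n} {ρ : ℝ}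
    (hρ : 0 < ρ) {g : E n → ℝ} (hg : G.Cls o ρ g) {J η : ℝ} (hJ : J < 0)
    (hPA : G.per g ≤ AR n k R + J / 2) (hV : |V1 G g - VR n k R| ≤ η)
    (hη : C.s * sig n * η ≤ C.lam * -J * AR n k R / 8)
    (hε' : ε * (sig n * AR n k R + AR n k R ^ 2) ≤ C.lam * -J * AR n k R / 8) :
    ∃ p, G.D g p ≠ 0 ∧ C.lam * -J / 8 ≤
      (∫ x, kapE G k Φ (‖G.D g p‖⁻¹ • G.D g p) p x (G.ang g x p) * ‖G.D g x‖ ∂G.vol) -
        H0 n k R * ∫ x, th Φ 1 (‖G.D g p‖⁻¹ • G.D g p) (G.lg p x) *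
          inner ℝ (G.lg x p) (G.D g x) ∂G.vol := by
  have hc := Cls.hasCompactSupport G hg
  obtain ⟨δ, hδ, hΦs⟩ := hΦ.smooth
  have hF0 := certH_F_nonneg hn C
  have hsig : 0 < sig n := sig_pos (by omega)
  have hP0 : 0 ≤ G.per g := integral_nonneg fun _ => norm_nonneg _
  have h2 := two_point_H G hn hk hG hΦ hH C.s_nonneg (C.f_cont.add continuous_const)
    (fun a ha => add_nonneg (C.f_nonneg a ha) hε.le)
    (fun e he => sphere_F_eps hε.le C.f_cont he (C.hF e he)) hρ hg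
  have h3 := arith_low C.lam_pos C.s_nonneg hF0 hε.le hsig.le hA hJ C.balance h2 hP0 hPA hV hη hε'
  obtain ⟨hi, hfub⟩ := pairX_fubini G hk hδ hΦs (C.lam + ε) (H0 n k R) hg.smooth hc
  rw [hfub] at h3
  have hDi := perc_D_integrable G hg
  have h4 : (∫ p, ((∫ q, kex G k Φ (C.lam + ε) (H0 n k R) p q (G.ang g p q) (G.ang g q p) *
      ‖G.D g q‖ ∂G.vol) - (C.lam + ε) * G.per g) * ‖G.D g p‖ ∂G.vol) =
      (∫ p, (∫ q, kex G k Φ (C.lam + ε) (H0 n k R) p q (G.ang g p q) (G.ang g q p) *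
      ‖G.D g q‖ ∂G.vol) * ‖G.D g p‖ ∂G.vol) - (C.lam + ε) * G.per g ^ 2 := by
    have e1 : (C.lam + ε) * G.per g ^ 2 =
        ∫ p, ((C.lam + ε) * G.per g) * ‖G.D g p‖ ∂G.vol := by
      rw [integral_const_mul]
      change _ = (C.lam + ε) * G.per g * G.per g
      ring
    rw [e1, ← integral_sub hi (hDi.const_mul _)]
    congr 1
    funext p
    ring
  rw [← h4] at h3
  have hJ' : 0 < -J := by linarith
  have hpos : 0 < C.lam * -J * AR n k R / 4 := by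
    have := C.lam_pos
    positivity
  obtain ⟨p, hp, hp2⟩ := exists_base G hg.smooth hc hpos h3
  refine ⟨p, hp, ?_⟩
  rw [inner_kex G hk hδ hΦs (C.lam + ε) (H0 n k R) hg.smooth hc hp] at hp2
  set Jp := (∫ x, kapE G k Φ (‖G.D g p‖⁻¹ • G.D g p) p x (G.ang g x p) * ‖G.D g x‖ ∂G.vol) -
        H0 n k R * ∫ x, th Φ 1 (‖G.D g p‖⁻¹ • G.D g p) (G.lg p x) *
          inner ℝ (G.lg x p) (G.D g x) ∂G.vol with hJp
  have e2 : (C.lam + ε) * G.per g +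
      (∫ x, kapE G k Φ (‖G.D g p‖⁻¹ • G.D g p) p x (G.ang g x p) * ‖G.D g x‖ ∂G.vol) -
        H0 n k R * (∫ x, th Φ 1 (‖G.D g p‖⁻¹ • G.D g p) (G.lg p x) *
          inner ℝ (G.lg x p) (G.D g x) ∂G.vol) - (C.lam + ε) * G.per g = Jp := by
    rw [hJp]; ring
  rw [e2] at hp2
  have hPA' : G.per g ≤ AR n k R := by linarith
  have hPpos : 0 < G.per g := by
    rcases hP0.eq_or_lt with h0 | h0
    · rw [← h0, mul_zero] at hp2
      linarith
    · exact h0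
  have h5 : C.lam * -J / 8 * G.per g ≤ Jp * G.per g := by
    have h6 : C.lam * -J / 8 * G.per g ≤ C.lam * -J / 8 * AR n k R :=
      mul_le_mul_of_nonneg_left hPA' (by have := C.lam_pos; positivity)
    linarith
  exact le_of_mul_le_mul_right h5 hPpos

/-- Final estimate. -/
theorem arith_final {J Dg D' P P' IV IV' K Q H Cc t η x c B A d₁ ε' : ℝ} (ht : 0 < t)
    (hd₁ : 0 < d₁) (hd : d₁ ≤ K - H * Q) (hH : 0 ≤ H) (hCc : 0 ≤ Cc) (hc : 0 ≤ c) (hη : 0 ≤ η)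
    (hx : x = t * Q + Cc * t * η + Cc * t ^ 2) (hxB : |x| ≤ B * t)
    (hP' : P' ≤ P - t * K + Cc * t ^ 2 * P) (hPA : P ≤ A)
    (hI : IV - H * x - c * |x| ≤ IV') (hDg : Dg = P - IV) (hD' : D' = P' - IV')
    (hgI : Dg < J + ε') (hε' : ε' ≤ t * d₁ / 4) (hcB : c * B ≤ d₁ / 8)
    (htA : (Cc * A + H * Cc) * t ≤ d₁ / 8) (hη' : H * Cc * η ≤ d₁ / 8) : D' < J := by
  have h1 : t * d₁ ≤ t * (K - H * Q) := mul_le_mul_of_nonneg_left hd ht.le
  have h2 : c * |x| ≤ c * (B * t) := mul_le_mul_of_nonneg_left hxB hc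
  have h3 : c * (B * t) ≤ d₁ / 8 * t := by
    calc c * (B * t) = c * B * t := by ring
      _ ≤ _ := mul_le_mul_of_nonneg_right hcB ht.le
  have h4 : Cc * t ^ 2 * P ≤ Cc * t ^ 2 * A := mul_le_mul_of_nonneg_left hPA (by positivity)
  have h5 : (Cc * A + H * Cc) * t * t ≤ d₁ / 8 * t := mul_le_mul_of_nonneg_right htA ht.le
  have h6 : H * Cc * η * t ≤ d₁ / 8 * t := mul_le_mul_of_nonneg_right hη' ht.le
  have e1 : H * x = t * (H * Q) + H * Cc * η * t + H * Cc * t * t := by rw [hx]; ring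
  have e2 : t * (K - H * Q) = t * K - t * (H * Q) := by ring
  have e3 : (Cc * A + H * Cc) * t * t = Cc * t ^ 2 * A + H * Cc * t * t := by ring
  have e4 : 0 < t * d₁ := mul_pos ht hd₁
  rw [e2] at h1
  rw [e3] at h5
  linarith

theorem x_bound_H {Q t Cc η b x : ℝ} (ht : 0 < t) (ht1 : t ≤ 1) (hη : 0 ≤ η) (hη1 : η ≤ 1)
    (hCc : 0 ≤ Cc) (hQ : |Q| ≤ b) (hx : x = t * Q + Cc * t * η + Cc * t ^ 2) :
    |x| ≤ (b + 2 * Cc) * t := by
  have h1 : |t * Q| ≤ t * b := by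
    rw [abs_mul, abs_of_pos ht]
    exact mul_le_mul_of_nonneg_left hQ ht.le
  have h2 : 0 ≤ Cc * t * η := by positivity
  have h3 : 0 ≤ Cc * t ^ 2 := by positivity
  have h4 : Cc * t * η ≤ Cc * t := mul_le_of_le_one_right (by positivity) hη1
  have h5 : Cc * t ^ 2 ≤ Cc * t := by
    have : t ^ 2 ≤ t := by nlinarith
    exact mul_le_mul_of_nonneg_left this hCc
  have h6 := abs_le.1 h1
  have h7 : (b + 2 * Cc) * t = t * b + 2 * (Cc * t) := by ring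
  have h8 : 0 ≤ Cc * t := by positivity
  rw [hx, h7, abs_le]
  constructor
  · linarith
  · linarith

/-- The descent step, all constants given. -/
theorem descent_H (G : Geo n) {I : ℝ → ℝ} (hImono : MonotoneOn I (Ici 0)) {o : E n} {ρ : ℝ}
    (hρ : 0 < ρ) {J : ℝ} {Φ : ℝ × ℝ → ℝ} {Cc t₀ M A H c d₁ δ₁ Vs t η : ℝ} (hCc : 0 ≤ Cc)
    (hM : 0 ≤ M) (hA : 0 < A) (hH : 0 ≤ H) (hc : 0 ≤ c) (hd₁ : 0 < d₁)
    (hcon : ∀ (p ν : E n) (t : ℝ) (h : E n → ℝ), ‖G.lg o p‖ ≤ ρ →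
      ‖ν‖ = 1 → 0 ≤ t → t ≤ t₀ → G.Cls o ρ h → ∃ h', G.Cls o ρ h' ∧
      G.per h' ≤ G.per h -
        t * (∫ x, kapE G k Φ ν p x (G.ang h x p) * ‖G.D h x‖ ∂G.vol) + Cc * t ^ 2 * G.per h ∧
      V1 G h - t * (∫ x, th Φ 1 ν (G.lg p x) * inner ℝ (G.lg x p) (G.D h x) ∂G.vol) -
          Cc * t * G.vol.real {x | 0 < h x ∧ h x < 1} - Cc * t ^ 2 ≤ V1 G h')
    (hMb : ∀ (ν v : E n), ‖ν‖ = 1 → ‖v‖ ≤ 2 * ρ → |th Φ 1 ν v| ≤ M)
    (hcB : c * (M * (2 * ρ) * A + 2 * Cc) ≤ d₁ / 8)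
    (hstrict : ∀ V V' : ℝ, |V - Vs| < δ₁ → |V' - Vs| < δ₁ →
      |I V' - I V - (V' - V) * H| ≤ c * |V' - V|)
    (ht : 0 < t) (htt₀ : t ≤ t₀) (ht1 : t ≤ 1)
    (htB : (M * (2 * ρ) * A + 2 * Cc) * t ≤ min δ₁ Vs / 4)
    (htK : (Cc * A + H * Cc) * t ≤ d₁ / 8) (hη : 0 < η) (hη1 : η ≤ 1)
    (hηK : H * Cc * η ≤ d₁ / 8) (hηδ : η ≤ min δ₁ Vs / 4) (hηt : η ≤ t * d₁ / 4) {g : E n → ℝ}
    (hg : G.Cls o ρ g) (hgJ : G.per g - I (V1 G g) < J + η)
    (hlay : G.vol.real {x | 0 < g x ∧ g x < 1} ≤ η) (hgV : |V1 G g - Vs| < η)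
    (hPA : G.per g ≤ A) {p : E n} (hp : G.D g p ≠ 0)
    (hJp : d₁ ≤ (∫ x, kapE G k Φ (‖G.D g p‖⁻¹ • G.D g p) p x (G.ang g x p) * ‖G.D g x‖ ∂G.vol) -
        H * ∫ x, th Φ 1 (‖G.D g p‖⁻¹ • G.D g p) (G.lg p x) *
          inner ℝ (G.lg x p) (G.D g x) ∂G.vol) :
    ∃ g', G.Cls o ρ g' ∧ G.per g' - I (V1 G g') < J := by
  have hVg0 : 0 ≤ V1 G g := measureReal_nonneg
  have hpB : ‖G.lg o p‖ ≤ ρ := by
    by_contra h1
    exact hp (perc_D_of_eventually G (perc_D_zero G hg (not_le.1 h1)))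
  have hν : ‖(‖G.D g p‖⁻¹ • G.D g p)‖ = 1 := by
    rw [norm_smul, norm_inv, norm_norm, inv_mul_cancel₀ (norm_ne_zero_iff.2 hp)]
  obtain ⟨ν, hνdef⟩ : ∃ ν, ν = ‖G.D g p‖⁻¹ • G.D g p := ⟨_, rfl⟩
  rw [← hνdef] at hJp hν
  obtain ⟨g', hg', hper', hvol'⟩ := hcon p ν t g hpB hν ht.le htt₀ hg
  obtain ⟨Q, hQ⟩ : ∃ Q, Q = ∫ x, th Φ 1 ν (G.lg p x) * inner ℝ (G.lg x p) (G.D g x) ∂G.vol :=
    ⟨_, rfl⟩
  obtain ⟨K, hK⟩ : ∃ K, K = ∫ x, kapE G k Φ ν p x (G.ang g x p) * ‖G.D g x‖ ∂G.vol := ⟨_, rfl⟩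
  rw [← hQ, ← hK] at hJp
  rw [← hQ] at hvol'
  rw [← hK] at hper'
  have hQb : |Q| ≤ M * (2 * ρ) * G.per g := by
    rw [hQ]
    exact Q_bound G hM hpB (fun v hv => hMb ν v hν hv) hg
  have hQA : |Q| ≤ M * (2 * ρ) * A := hQb.trans (by gcongr)
  obtain ⟨x, hx⟩ : ∃ x, x = t * Q + Cc * t * η + Cc * t ^ 2 := ⟨_, rfl⟩
  have hxB := x_bound_H ht ht1 hη.le hη1 hCc hQA hx
  have hVx : V1 G g - x ≤ V1 G g' := by
    have h1 : Cc * t * G.vol.real {x | 0 < g x ∧ g x < 1} ≤ Cc * t * η := by gcongr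
    rw [hx]
    linarith
  have hmin : min δ₁ Vs ≤ δ₁ := min_le_left _ _
  have hmin' : min δ₁ Vs ≤ Vs := min_le_right _ _
  have hxs : |x| ≤ min δ₁ Vs / 4 := hxB.trans htB
  have hgV' := abs_lt.1 (hgV.trans_le hηδ)
  have hxs' := abs_le.1 hxs
  have hVx0 : 0 ≤ V1 G g - x := by linarith
  have hI1 : I (V1 G g - x) ≤ I (V1 G g') := hImono hVx0 measureReal_nonneg hVx
  have hI2 := hstrict (V1 G g) (V1 G g - x) (by rw [abs_lt]; constructor <;> linarith)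
    (by rw [abs_lt]; constructor <;> linarith)
  have hI3 : I (V1 G g) - H * x - c * |x| ≤ I (V1 G g') := by
    have h1 : V1 G g - x - V1 G g = -x := by ring
    rw [h1, abs_neg] at hI2
    have h2 := (abs_le.1 hI2).1
    linarith
  exact ⟨g', hg', arith_final (J := J) (Dg := G.per g - I (V1 G g))
    (D' := G.per g' - I (V1 G g')) ht hd₁ hJp hH hCc hc hη.le hx hxB hper' hPA hI3 rfl rfl hgJ hηt
    hcB htK hηK⟩

theorem H0_nonneg (hn : 2 ≤ n) (hk : 0 ≤ k) {R : ℝ} (hR : 0 < R) : 0 ≤ H0 n k R := by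
  have h1 := sn_pos hk hR
  have h2 := one_le_cs k R
  have h3 : (2 : ℝ) ≤ n := by exact_mod_cast hn
  have h4 : (0 : ℝ) ≤ (n : ℝ) - 1 := by linarith
  unfold H0
  positivity

/-- The deficit is nonnegative. -/
theorem deficit_nonneg (hn : 2 ≤ n) (hk : 0 ≤ k) (G : Geo n) (hG : Curv G k)
    (hC : ∀ R, 0 < R → Nonempty (CertH n k R)) {I : ℝ → ℝ} (hImono : MonotoneOn I (Ici 0))
    (hIcont : ContinuousOn I (Ici 0)) (hI0 : ∀ V, 0 ≤ V → 0 ≤ I V) (hIz : I 0 = 0)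
    (hIR : ∀ R, 0 ≤ R → I (VR n k R) = AR n k R)
    (hId : ∀ R, 0 < R → HasStrictDerivAt I (H0 n k R) (VR n k R)) (o : E n) {ρ : ℝ} (hρ : 0 < ρ)
    {h : E n → ℝ} (hh : G.Cls o ρ h) : 0 ≤ G.per h - I (V1 G h) := by
  by_contra hneg
  rw [not_le] at hneg
  have hsig : 0 < sig n := sig_pos (by omega)
  -- the infimum
  obtain ⟨Cb, hCb⟩ := deficit_bddBelow G hImono o ρ
  set S : Set ℝ := {y | ∃ h, G.Cls o ρ h ∧ G.per h - I (V1 G h) = y} with hS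
  have hSb : BddBelow S := ⟨-Cb, by rintro y ⟨g, hg, rfl⟩; exact hCb g hg⟩
  have hSn : S.Nonempty := ⟨_, h, hh, rfl⟩
  obtain ⟨J, hJdef⟩ : ∃ J, J = sInf S := ⟨_, rfl⟩
  have hJ : ∀ g, G.Cls o ρ g → J ≤ G.per g - I (V1 G g) :=
    fun g hg => hJdef ▸ csInf_le hSb ⟨g, hg, rfl⟩
  have hJ' : ∀ ε > 0, ∃ g, G.Cls o ρ g ∧ G.per g - I (V1 G g) < J + ε := by
    intro ε hε
    obtain ⟨y, ⟨g, hg, rfl⟩, hlt⟩ := exists_lt_of_csInf_lt hSn (lt_add_of_pos_right (sInf S) hε)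
    exact ⟨g, hg, hJdef ▸ hlt⟩
  have hJ0 : J < 0 := (hJ h hh).trans_lt hneg
  obtain ⟨Vs, hVs0, hseq⟩ := exists_min_seq G hI0 hImono o ρ hJ hJ'
  have hper : ∀ g : E n → ℝ, 0 ≤ G.per g := fun g => integral_nonneg fun _ => norm_nonneg _
  -- continuity at `Vs`
  have hcont : ∀ ε > 0, ∃ δ > 0, ∀ V, 0 ≤ V → |V - Vs| < δ → |I V - I Vs| < ε := by
    intro ε hε
    obtain ⟨δ, hδ, h1⟩ := Metric.continuousOn_iff.1 hIcont Vs hVs0 ε hε
    refine ⟨δ, hδ, fun V hV hVV => ?_⟩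
    have := h1 V hV (by rw [Real.dist_eq]; exact hVV)
    rwa [Real.dist_eq] at this
  have hIVs : -J ≤ I Vs := by
    by_contra hlt
    rw [not_le] at hlt
    obtain ⟨δ, hδ, h1⟩ := hcont ((-J - I Vs) / 2) (by linarith)
    obtain ⟨g, hg, h2, -, h3⟩ := hseq (min δ ((-J - I Vs) / 2)) (lt_min hδ (by linarith))
    have h4 := h1 (V1 G g) measureReal_nonneg (h3.trans_le (min_le_left _ _))
    have h5 := (abs_lt.1 h4).2
    have h6 := min_le_right δ ((-J - I Vs) / 2)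
    have h7 := hper g
    linarith
  obtain ⟨Rs, hRs0, hRs⟩ := exists_VR (n := n) (k := k) (by omega) hk hVs0
  have hRsp : 0 < Rs := by
    rcases hRs0.eq_or_lt with h0 | h0
    · rw [← h0, VR_zero] at hRs
      rw [← hRs, hIz] at hIVs
      linarith
    · exact h0
  obtain ⟨A, hAdef⟩ : ∃ A, A = AR n k Rs := ⟨_, rfl⟩
  have hIA : I Vs = A := by rw [hAdef, ← hIR Rs hRs0, hRs]
  have hApos : 0 < A := by rw [← hIA]; linarith
  have hVsp : 0 < Vs := by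
    rcases hVs0.eq_or_lt with h0 | h0
    · rw [← h0, hIz] at hIA
      linarith
    · exact h0
  obtain ⟨C⟩ := hC Rs hRsp
  obtain ⟨H, hHdef⟩ : ∃ H, H = H0 n k Rs := ⟨_, rfl⟩
  have hH : 0 ≤ H := hHdef ▸ H0_nonneg hn hk hRsp
  have hlam := C.lam_pos
  obtain ⟨d₁, hd₁⟩ : ∃ d₁, d₁ = C.lam * -J / 8 := ⟨_, rfl⟩
  have hd₁p : 0 < d₁ := by rw [hd₁]; exact div_pos (mul_pos hlam (by linarith)) (by norm_num)
  have hd₁A : C.lam * -J * A / 8 = d₁ * A := by rw [hd₁]; ring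
  -- the field
  obtain ⟨ε, hεp, hεs⟩ := exists_small (a := sig n * A + A ^ 2) (by positivity)
    (b := d₁ * A) (by positivity)
  have hεs' := hεs ε hεp.le le_rfl
  obtain ⟨Φ, hΦ⟩ := C.approx ε hεp
  obtain ⟨δ, hδ, hΦs⟩ := hΦ.smooth
  obtain ⟨Cc, t₀, hCc, ht₀, hcon⟩ := exists_contract_H G hn hk hG o hρ hδ hΦs hΦ.nonneg
  obtain ⟨M, hM, hMb⟩ := th_bounds (n := n) hδ hΦs 1 one_pos (2 * ρ)
  obtain ⟨B, hB⟩ : ∃ B, B = M * (2 * ρ) * A + 2 * Cc := ⟨_, rfl⟩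
  have hB0 : 0 ≤ B := by rw [hB]; positivity
  obtain ⟨c, hcp, hcs⟩ := exists_small hB0 (b := d₁ / 8) (by positivity)
  have hcs' := hcs c hcp.le le_rfl
  -- strict derivative
  obtain ⟨δ₁, hδ₁, hstrict⟩ : ∃ δ₁ > 0, ∀ V V' : ℝ, |V - Vs| < δ₁ → |V' - Vs| < δ₁ →
      |I V' - I V - (V' - V) * H| ≤ c * |V' - V| := by
    have h1 := (hId Rs hRsp).isLittleO.def hcp
    rw [hRs] at h1
    obtain ⟨δ₁, hδ₁, h2⟩ := Metric.eventually_nhds_iff.1 h1
    refine ⟨δ₁, hδ₁, fun V V' hV hV' => ?_⟩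
    have h3 := @h2 (V', V) (by
      rw [Prod.dist_eq, Real.dist_eq, Real.dist_eq]
      exact max_lt hV' hV)
    rw [hHdef]
    simpa [Real.norm_eq_abs, smul_eq_mul] using h3
  -- choice of t
  obtain ⟨t₁, ht₁, ht₁'⟩ := exists_small hB0 (b := min δ₁ Vs / 4) (by positivity)
  obtain ⟨t₂, ht₂, ht₂'⟩ := exists_small (a := Cc * A + H * Cc) (by positivity)
    (b := d₁ / 8) (by positivity)
  obtain ⟨t, ht⟩ : ∃ t : ℝ, t = min (min t₀ 1) (min t₁ t₂) := ⟨_, rfl⟩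
  have htp : 0 < t := by rw [ht]; positivity
  have htt₀ : t ≤ t₀ := ht ▸ (min_le_left _ _).trans (min_le_left _ _)
  have ht1 : t ≤ 1 := ht ▸ (min_le_left _ _).trans (min_le_right _ _)
  have htB := ht₁' t htp.le (ht ▸ (min_le_right _ _).trans (min_le_left _ _))
  have htK := ht₂' t htp.le (ht ▸ (min_le_right _ _).trans (min_le_right _ _))
  -- choice of η
  obtain ⟨η₁, hη₁, hη₁'⟩ := exists_small (a := C.s * sig n) (mul_nonneg C.s_nonneg hsig.le)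
    (b := d₁ * A) (by positivity)
  obtain ⟨η₂, hη₂, hη₂'⟩ := exists_small (a := H * Cc) (by positivity)
    (b := d₁ / 8) (by positivity)
  obtain ⟨δ₂, hδ₂, hδ₂'⟩ := hcont (-J / 4) (by linarith)
  obtain ⟨η, hη⟩ : ∃ η : ℝ, η = min (min 1 (min η₁ η₂)) (min (min δ₂ (min δ₁ Vs / 4))
    (min (-J / 4) (t * d₁ / 4))) := ⟨_, rfl⟩
  have hηp : 0 < η := by
    rw [hη]
    have : 0 < -J / 4 := by linarith
    positivity
  have hη1 : η ≤ 1 := hη ▸ (min_le_left _ _).trans (min_le_left _ _)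
  have hηs := hη₁' η hηp.le (hη ▸ (min_le_left _ _).trans
    ((min_le_right _ _).trans (min_le_left _ _)))
  have hηK := hη₂' η hηp.le (hη ▸ (min_le_left _ _).trans
    ((min_le_right _ _).trans (min_le_right _ _)))
  have hηδ₂ : η ≤ δ₂ := hη ▸ (min_le_right _ _).trans ((min_le_left _ _).trans (min_le_left _ _))
  have hηδ₁ : η ≤ min δ₁ Vs / 4 :=
    hη ▸ (min_le_right _ _).trans ((min_le_left _ _).trans (min_le_right _ _))
  have hηJ : η ≤ -J / 4 := hη ▸ (min_le_right _ _).trans ((min_le_right _ _).trans (min_le_left _ _))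
  have hηt : η ≤ t * d₁ / 4 :=
    hη ▸ (min_le_right _ _).trans ((min_le_right _ _).trans (min_le_right _ _))
  -- almost minimizer
  obtain ⟨g, hg, hgJ, hglay, hgV⟩ := hseq η hηp
  have hVg0 : 0 ≤ V1 G g := measureReal_nonneg
  have hIg := (abs_lt.1 (hδ₂' (V1 G g) hVg0 (hgV.trans_le hηδ₂))).2
  have hPA : G.per g ≤ A + J / 2 := by rw [← hIA]; linarith
  have hPA' : G.per g ≤ A := by linarith
  obtain ⟨p, hp, hJp⟩ := base_point_H hn hk G hG C (hHdef ▸ hH) (hAdef ▸ hApos) hεp hΦ hρ hg hJ0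
    (hAdef ▸ hPA) (η := η) (by rw [hRs]; exact hgV.le) (by rw [← hAdef, hd₁A]; exact hηs)
    (by rw [← hAdef, hd₁A, mul_comm]; exact hεs')
  rw [← hd₁, ← hHdef] at hJp
  obtain ⟨g', hg', hlt⟩ := descent_H (k := k) G hImono hρ hCc hM hApos hH hcp.le hd₁p hcon
    (fun ν v h1 h2 => (hMb ν v 1 h1 le_rfl le_rfl h2).1) (by rw [mul_comm, ← hB]; exact hcs')
    hstrict htp htt₀ ht1 (by rw [← hB]; exact htB) htK hηp hη1 hηK hηδ₁ hηt hg hgJ hglay.le hgV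
    hPA' hp hJp
  exact absurd (hJ g' hg') (not_le.2 hlt)

/-- **Isoperimetric inequality on function level.** -/
theorem isop (hn : 2 ≤ n) (hk : 0 ≤ k) (G : Geo n) (hG : Curv G k)
    (hC : ∀ R, 0 < R → Nonempty (CertH n k R)) {h : E n → ℝ} (hh : ContDiff ℝ 1 h)
    (hc : HasCompactSupport h) (h01 : ∀ x, 0 ≤ h x ∧ h x ≤ 1) {R : ℝ} (hR : 0 ≤ R)
    (hV : VR n k R ≤ G.vol.real {x | h x = 1}) : AR n k R ≤ G.per h := by
  obtain ⟨I, hImono, hIcont, hI0, hIz, hIR, hId⟩ := exists_profile (n := n) (k := k) hn hk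
  obtain ⟨L, hL⟩ := exists_lg_bound G hc 0
  have hcls : G.Cls 0 (max L 1) h := by
    refine ⟨hh, fun x => (h01 x).1, fun x => (h01 x).2, fun x hx => ?_⟩
    exact (hL x (subset_tsupport h hx)).trans (le_max_left _ _)
  have h1 := deficit_nonneg hn hk G hG hC hImono hIcont hI0 hIz hIR hId 0 (by positivity) hcls
  have hVR0 : 0 ≤ VR n k R := by
    have h2 := (VR_strictMonoOn (n := n) (k := k) (by omega) hk).monotoneOn
      (mem_Ici.2 le_rfl) (mem_Ici.2 hR) hR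
    rwa [VR_zero] at h2
  have h3 : I (VR n k R) ≤ I (V1 G h) := hImono hVR0 (mem_Ici.2 measureReal_nonneg) hV
  rw [hIR R hR] at h3
  linarith

end Vale.Agent.P219.TPH
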