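import Vale.Agent.P219.TPH.Defs
import Vale.Agent.P219.TP.Moments

/-! # Chords of the ball in curvature `-1`, dimension 5 -/

open MeasureTheory Set Metric
open scoped ENNReal ContDiff

namespace Vale.Agent.P219.TPH

open Vale.Agent.P219.TP

theorem bf_sig : sig 5 = 8 * Real.pi ^ 2 / 3 := by
  rw [sig_eq_gamma (n := 5) (by norm_num)]
  have h1 : Real.Gamma ((5 : ℕ) / 2 : ℝ) = 3 / 4 * √Real.pi := by
    have e1 : ((5 : ℕ) / 2 : ℝ) = (1 / 2 + 1) + 1 := by norm_num
    rw [e1, Real.Gamma_add_one (by norm_num), Real.Gamma_add_one (by norm_num),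
      Real.Gamma_one_half_eq]
    ring
  have h2 : Real.pi ^ (((5 : ℕ) : ℝ) / 2) = Real.pi ^ 2 * √Real.pi := by
    rw [show (((5 : ℕ) : ℝ) / 2) = 2 + 1 / 2 by norm_num, Real.rpow_add Real.pi_pos,
      ← Real.sqrt_eq_rpow]
    norm_num
  have h3 : 0 < √Real.pi := Real.sqrt_pos.2 Real.pi_pos
  rw [h1, h2]
  field_simp
  norm_num

theorem bf_log {R : ℝ} :
    Real.log ((1 + Real.tanh R * 1) / (1 - Real.tanh R * 1)) = 2 * R := by
  have hc := Real.cosh_pos R
  have h1 : (1 + Real.tanh R * 1) / (1 - Real.tanh R * 1) = Real.exp (2 * R) := by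
    rw [Real.tanh_eq_sinh_div_cosh, mul_one]
    have h2 : Real.cosh R + Real.sinh R = Real.exp R := Real.cosh_add_sinh R
    have h3 : Real.cosh R - Real.sinh R = Real.exp (-R) := Real.cosh_sub_sinh R
    have e1 : 1 + Real.sinh R / Real.cosh R = Real.exp R / Real.cosh R := by
      rw [← h2]
      field_simp
    have e2 : 1 - Real.sinh R / Real.cosh R = Real.exp (-R) / Real.cosh R := by
      rw [← h3]
      field_simp
    rw [e1, e2, div_div_div_cancel_right₀ hc.ne', ← Real.exp_sub]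
    congr 1
    ring
  rw [h1, Real.log_exp]

theorem bf_tanh {R : ℝ} (hR : 0 < R) : 0 < Real.tanh R ∧ Real.tanh R < 1 := by
  have hc := Real.cosh_pos R
  constructor
  · rw [Real.tanh_eq_sinh_div_cosh]
    exact div_pos (Real.sinh_pos_iff.2 hR) hc
  · rw [Real.tanh_eq_sinh_div_cosh, div_lt_one hc]
    exact Real.sinh_lt_cosh R

/-- the angular integral in closed form. -/
theorem bf_int {T : ℝ} (h0 : 0 < T) (h1 : T < 1) :
    ∫ t in (0 : ℝ)..1, Real.log ((1 + T * t) / (1 - T * t)) * t * (1 - t ^ 2) =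
      Real.log ((1 + T * 1) / (1 - T * 1)) * ((1 - 1 / T ^ 2) ^ 2 / 4) +
        2 / T * (5 / 12 - 1 / (4 * T ^ 2)) := by
  have hpos : ∀ t ∈ uIcc (0 : ℝ) 1, 0 < 1 + T * t ∧ 0 < 1 - T * t := by
    intro t ht
    rw [uIcc_of_le zero_le_one] at ht
    have h2 : 0 ≤ T * t := mul_nonneg h0.le ht.1
    have h3 : T * t ≤ T * 1 := mul_le_mul_of_nonneg_left ht.2 h0.le
    constructor <;> linarith
  have hder : ∀ t ∈ uIcc (0 : ℝ) 1, HasDerivAt (fun t : ℝ =>
      Real.log ((1 + T * t) / (1 - T * t)) *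
        (t ^ 2 / 2 - t ^ 4 / 4 - (1 / (2 * T ^ 2) - 1 / (4 * T ^ 4))) +
        2 / T * (t / 2 - t ^ 3 / 12 - t / (4 * T ^ 2)))
      (Real.log ((1 + T * t) / (1 - T * t)) * t * (1 - t ^ 2)) t := by
    intro t ht
    obtain ⟨h2, h3⟩ := hpos t ht
    have d1 : HasDerivAt (fun t : ℝ => 1 + T * t) T t := by
      simpa using ((hasDerivAt_id t).const_mul T).const_add 1
    have d2 : HasDerivAt (fun t : ℝ => 1 - T * t) (-T) t := by
      simpa using ((hasDerivAt_id t).const_mul T).const_sub 1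
    have d3 := (d1.div d2 h3.ne').log (div_pos h2 h3).ne'
    have d4 : HasDerivAt (fun t : ℝ => t ^ 2 / 2 - t ^ 4 / 4 -
        (1 / (2 * T ^ 2) - 1 / (4 * T ^ 4))) (t - t ^ 3) t := by
      have e1 := (hasDerivAt_pow 2 t).div_const 2
      have e2 := (hasDerivAt_pow 4 t).div_const 4
      refine ((e1.sub e2).sub_const _).congr_deriv ?_
      push_cast
      ring
    have d5 : HasDerivAt (fun t : ℝ => 2 / T * (t / 2 - t ^ 3 / 12 - t / (4 * T ^ 2)))
        (2 / T * (1 / 2 - t ^ 2 / 4 - 1 / (4 * T ^ 2))) t := by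
      have e1 := (hasDerivAt_id t).div_const 2
      have e2 := (hasDerivAt_pow 3 t).div_const 12
      have e3 := (hasDerivAt_id t).div_const (4 * T ^ 2)
      refine (((e1.sub e2).sub e3).const_mul (2 / T)).congr_deriv ?_
      push_cast
      ring
    refine ((d3.mul d4).add d5).congr_deriv ?_
    simp only [Pi.div_apply]
    field_simp
    ring
  have hint : IntervalIntegrable
      (fun t : ℝ => Real.log ((1 + T * t) / (1 - T * t)) * t * (1 - t ^ 2)) volume 0 1 := by
    refine ContinuousOn.intervalIntegrable ?_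
    refine ContinuousOn.mul (ContinuousOn.mul ?_ continuousOn_id) (by fun_prop)
    refine ContinuousOn.log (ContinuousOn.div (by fun_prop) (by fun_prop) ?_) ?_
    · exact fun t ht => (hpos t ht).2.ne'
    · exact fun t ht => (div_pos (hpos t ht).1 (hpos t ht).2).ne'
  rw [intervalIntegral.integral_eq_sub_of_hasDerivAt hder hint]
  simp only [mul_zero, add_zero, sub_zero, div_one, Real.log_one, zero_mul, mul_one, one_pow]
  field_simp
  ring

theorem bf_sinh (R : ℝ) : ∫ r in (0 : ℝ)..R, Real.sinh r ^ 4 =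
    Real.cosh R * Real.sinh R ^ 3 / 4 - 3 / 8 * (Real.sinh R * Real.cosh R) + 3 * R / 8 := by
  have hder : ∀ r ∈ uIcc (0 : ℝ) R, HasDerivAt (fun r : ℝ =>
      Real.cosh r * Real.sinh r ^ 3 / 4 - 3 / 8 * (Real.sinh r * Real.cosh r) + 3 * r / 8)
      (Real.sinh r ^ 4) r := by
    intro r _
    have d1 := ((Real.hasDerivAt_cosh r).mul ((Real.hasDerivAt_sinh r).pow 3)).div_const 4
    have d2 := ((Real.hasDerivAt_sinh r).mul (Real.hasDerivAt_cosh r)).const_mul (3 / 8)
    have d3 := ((hasDerivAt_id r).const_mul 3).div_const 8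
    refine ((d1.sub d2).add d3).congr_deriv ?_
    have h := Real.cosh_sq r
    simp only [Pi.pow_apply]
    norm_num
    ring_nf
    rw [h]
    ring
  rw [intervalIntegral.integral_eq_sub_of_hasDerivAt hder
    (Continuous.intervalIntegrable (by fun_prop) _ _)]
  simp

/-- Santalo's formula for the ball: the chord with angle `cos θ = t` has length `2 artanh(T t)`,
`T = tanh R`. PROOF: both sides in closed form (integration by parts), or differentiate in `R`. -/
theorem bal_five {R : ℝ} (hR : 0 < R) :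
    2 * Real.pi ^ 2 * (∫ t in (0 : ℝ)..1,
        Real.log ((1 + Real.tanh R * t) / (1 - Real.tanh R * t)) * t * (1 - t ^ 2)) *
      AR 5 1 R = sig 5 * VR 5 1 R := by
  have hsn : ∀ r : ℝ, sn 1 r = Real.sinh r := fun r => by simp [sn]
  have hs : 0 < Real.sinh R := Real.sinh_pos_iff.2 hR
  have hc := Real.cosh_pos R
  obtain ⟨hT0, hT1⟩ := bf_tanh hR
  rw [bf_int hT0 hT1, bf_log, AR, VR, bf_sig]
  simp only [hsn]
  norm_num
  rw [bf_sinh, Real.tanh_eq_sinh_div_cosh]
  have h := Real.cosh_sq R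
  field_simp
  rw [h]
  ring

end Vale.Agent.P219.TPH
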