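import Vale.Agent.P219.TPH.Sn

/-! # Certificates with fields singular at the origin (task H18) -/

open MeasureTheory Set Metric
open scoped ENNReal ContDiff

namespace Vale.Agent.P219.TPH

open Vale.Agent.P219.TP

/-- First variation of area of `φ(r,a) ∇r`, `φr`, `φa` the partial derivatives. -/
noncomputable def kapN (k : ℝ) (m : ℕ) (φ φr φa : ℝ → ℝ → ℝ) (r a b : ℝ) : ℝ :=
  φr r a * (1 - b ^ 2) + φ r a * (cs k r / sn k r) * ((m : ℝ) - 1 + b ^ 2) -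
    |φa r a| * |b| * √((1 - a ^ 2) * (1 - b ^ 2)) / sn k r

noncomputable def NN (k : ℝ) (m : ℕ) (φ φr φa : ℝ → ℝ → ℝ) (lam r a b : ℝ) : ℝ :=
  lam + (kapN k m φ φr φa r a b + kapN k m φ φr φa r b a) / 2

noncomputable def KN (k : ℝ) (m : ℕ) (φ φr φa : ℝ → ℝ → ℝ) (lam H r a b : ℝ) : ℝ :=
  NN k m φ φr φa lam r a b - H / 2 * (φ r a * b + φ r b * a)

/-- Field smooth for `r > 0`, even in `a`; conditions for `a, b ∈ [0,1]` only. -/
structure Nice (n : ℕ) (k : ℝ) (φ φr φa : ℝ → ℝ → ℝ) (lam H s : ℝ) (f : ℝ → ℝ) : Prop where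
  smooth : ContDiffOn ℝ ∞ (Function.uncurry φ) {p | 0 < p.1}
  deriv_r : ∀ r a : ℝ, 0 < r → HasDerivAt (fun r => φ r a) (φr r a) r
  deriv_a : ∀ r a : ℝ, 0 < r → HasDerivAt (φ r) (φa r a) a
  even : ∀ r a : ℝ, 0 < r → φ r (-a) = φ r a
  nonneg : ∀ r a : ℝ, 0 < r → 0 ≤ a → a ≤ 1 → 0 ≤ φ r a
  c1 : ∀ r a b : ℝ, 0 < r → 0 ≤ a → a ≤ 1 → 0 ≤ b → b ≤ 1 →
    H / 2 * (φ r b * a) ≤ NN k (n - 1) φ φr φa lam r a b
  c3 : ∀ r a : ℝ, 0 < r → 0 ≤ a → a ≤ 1 →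
    0 ≤ φr r a + ((n : ℝ) - 1) * (cs k r / sn k r) * φ r a
  c7 : ∀ r a b : ℝ, 0 < r → 0 ≤ a → a ≤ 1 → 0 ≤ b → b ≤ 1 →
    0 ≤ KN k (n - 1) φ φr φa lam H r a b + a * b * √(φ r a * φ r b) / sn k r
  c6 : ∀ r a b : ℝ, 0 < r → 0 ≤ a → a ≤ 1 → 0 ≤ b → b ≤ 1 →
    a * b * (s * r - (f a + f b) / 2) ≤ KN k (n - 1) φ φr φa lam H r a b * sn k r ^ (n - 1)

/-! ### The cutoff -/

/-- smooth nondecreasing cutoff, `0` on `(-∞, δ/2]`, `1` on `[δ, ∞)` -/
noncomputable def niceChi (δ r : ℝ) : ℝ := Real.smoothTransition ((r - δ / 2) / (δ / 2))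

theorem niceChi_contDiff (δ : ℝ) : ContDiff ℝ ∞ (niceChi δ) := by
  unfold niceChi
  exact Real.smoothTransition.contDiff.comp ((contDiff_id.sub contDiff_const).div_const _)

theorem niceChi_nonneg (δ r : ℝ) : 0 ≤ niceChi δ r := Real.smoothTransition.nonneg _

theorem niceChi_le_one (δ r : ℝ) : niceChi δ r ≤ 1 := Real.smoothTransition.le_one _

theorem niceChi_zero {δ r : ℝ} (hδ : 0 < δ) (hr : r ≤ δ / 2) : niceChi δ r = 0 := by
  refine Real.smoothTransition.zero_of_nonpos ?_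
  exact div_nonpos_of_nonpos_of_nonneg (by linarith) (by linarith)

theorem niceChi_one {δ r : ℝ} (hδ : 0 < δ) (hr : δ ≤ r) : niceChi δ r = 1 := by
  refine Real.smoothTransition.one_of_one_le ?_
  rw [le_div_iff₀ (by linarith)]
  linarith

theorem niceChi_mono {δ : ℝ} (hδ : 0 < δ) : Monotone (niceChi δ) := by
  intro x y hxy
  refine Real.smoothTransition.monotone ?_
  exact div_le_div_of_nonneg_right (by linarith) (by linarith)

theorem niceChi_deriv_nonneg {δ : ℝ} (hδ : 0 < δ) (r : ℝ) : 0 ≤ deriv (niceChi δ) r :=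
  (niceChi_mono hδ).deriv_nonneg

theorem niceChi_hasDerivAt (δ r : ℝ) : HasDerivAt (niceChi δ) (deriv (niceChi δ) r) r :=
  ((niceChi_contDiff δ).differentiable (by simp) r).hasDerivAt

/-! ### The cut field -/

/-- `χ(√x) φ(√x, y/√x)/√x` -/
noncomputable def nicePhi (δ : ℝ) (φ : ℝ → ℝ → ℝ) (p : ℝ × ℝ) : ℝ :=
  niceChi δ (√p.1) * φ (√p.1) (p.2 / √p.1) / √p.1

theorem nicePhi_zero {δ : ℝ} (hδ : 0 < δ) (φ : ℝ → ℝ → ℝ) {p : ℝ × ℝ}
    (hp : p.1 ≤ (δ / 2) ^ 2) : nicePhi δ φ p = 0 := by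
  have h : √p.1 ≤ δ / 2 := Real.sqrt_le_iff.2 ⟨by linarith, hp⟩
  unfold nicePhi
  rw [niceChi_zero hδ h]
  simp

theorem nicePhi_contDiff {δ : ℝ} (hδ : 0 < δ) {φ : ℝ → ℝ → ℝ}
    (hφ : ContDiffOn ℝ ∞ (Function.uncurry φ) {p | 0 < p.1}) :
    ContDiff ℝ ∞ (nicePhi δ φ) := by
  rw [contDiff_iff_contDiffAt]
  intro p
  rcases le_or_gt p.1 0 with hp | hp
  · have hev : nicePhi δ φ =ᶠ[nhds p] fun _ => 0 := by
      have hopen : IsOpen {p : ℝ × ℝ | p.1 < (δ / 2) ^ 2} :=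
        isOpen_lt continuous_fst continuous_const
      have hmem : p ∈ {p : ℝ × ℝ | p.1 < (δ / 2) ^ 2} := by
        have : 0 < (δ / 2) ^ 2 := by positivity
        exact lt_of_le_of_lt hp this
      filter_upwards [hopen.mem_nhds hmem] with q hq
      exact nicePhi_zero hδ φ (le_of_lt hq)
    exact contDiffAt_const.congr_of_eventuallyEq hev
  · have hs0 : 0 < √p.1 := Real.sqrt_pos.2 hp
    have hs : ContDiffAt ℝ ∞ (fun q : ℝ × ℝ => √q.1) p :=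
      (contDiffAt_fst).sqrt hp.ne'
    have hq : ContDiffAt ℝ ∞ (fun q : ℝ × ℝ => q.2 / √q.1) p :=
      contDiffAt_snd.div hs hs0.ne'
    have hopen : IsOpen {p : ℝ × ℝ | 0 < p.1} := isOpen_lt continuous_const continuous_fst
    have hφ' : ContDiffAt ℝ ∞ (Function.uncurry φ) (√p.1, p.2 / √p.1) :=
      hφ.contDiffAt (hopen.mem_nhds hs0)
    have h1 : ContDiffAt ℝ ∞ (fun q : ℝ × ℝ => φ (√q.1) (q.2 / √q.1)) p :=
      ContDiffAt.comp (g := Function.uncurry φ) (f := fun q : ℝ × ℝ => (√q.1, q.2 / √q.1)) p hφ'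
        (hs.prodMk hq)
    have h2 : ContDiffAt ℝ ∞ (fun q : ℝ × ℝ => niceChi δ (√q.1)) p :=
      (niceChi_contDiff δ).contDiffAt.comp p hs
    exact (h2.mul h1).div hs hs0.ne'

theorem nicePhi_sq {δ : ℝ} (φ : ℝ → ℝ → ℝ) {r : ℝ} (hr : 0 < r) (a : ℝ) :
    nicePhi δ φ (r ^ 2, r * a) = niceChi δ r * φ r a / r := by
  unfold nicePhi
  simp only [Real.sqrt_sq hr.le, mul_div_cancel_left₀ a hr.ne']

theorem nice_ph {δ : ℝ} (φ : ℝ → ℝ → ℝ) {r : ℝ} (hr : 0 < r) (a : ℝ) :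
    ph (nicePhi δ φ) r a = niceChi δ r * φ r a := by
  unfold ph
  rw [nicePhi_sq φ hr a]
  field_simp

theorem nice_fderiv_snd {δ : ℝ} (hδ : 0 < δ) {φ φa : ℝ → ℝ → ℝ}
    (hφ : ContDiffOn ℝ ∞ (Function.uncurry φ) {p | 0 < p.1})
    (hda : ∀ r a : ℝ, 0 < r → HasDerivAt (φ r) (φa r a) a) {r : ℝ} (hr : 0 < r) (a : ℝ) :
    r ^ 2 * fderiv ℝ (nicePhi δ φ) (r ^ 2, r * a) (0, 1) = niceChi δ r * φa r a := by
  have hd : HasFDerivAt (nicePhi δ φ) (fderiv ℝ (nicePhi δ φ) (r ^ 2, r * a)) (r ^ 2, r * a) :=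
    ((nicePhi_contDiff hδ hφ).differentiable (by simp) _).hasFDerivAt
  have hc : HasDerivAt (fun t : ℝ => ((r ^ 2, r * t) : ℝ × ℝ)) (0, r) a := by
    have h1 : HasDerivAt (fun t : ℝ => r * t) (r * 1) a := (hasDerivAt_id a).const_mul r
    rw [mul_one] at h1
    exact (hasDerivAt_const a (r ^ 2)).prodMk h1
  have h1 : HasDerivAt (fun t : ℝ => nicePhi δ φ (r ^ 2, r * t))
      (fderiv ℝ (nicePhi δ φ) (r ^ 2, r * a) (0, r)) a :=
    HasFDerivAt.comp_hasDerivAt (f := fun t : ℝ => ((r ^ 2, r * t) : ℝ × ℝ)) a hd hc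
  have h2 : HasDerivAt (fun t : ℝ => nicePhi δ φ (r ^ 2, r * t))
      (niceChi δ r * φa r a / r) a := by
    have e : (fun t : ℝ => nicePhi δ φ (r ^ 2, r * t)) =
        fun t : ℝ => niceChi δ r * φ r t / r := funext fun t => nicePhi_sq φ hr t
    rw [e]
    exact ((hda r a hr).const_mul _).div_const _
  have h3 := h1.unique h2
  have h4 : ((0, r) : ℝ × ℝ) = r • ((0, 1) : ℝ × ℝ) := by simp
  rw [h4, map_smul, smul_eq_mul] at h3
  have : r ^ 2 * fderiv ℝ (nicePhi δ φ) (r ^ 2, r * a) (0, 1) =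
      r * (r * fderiv ℝ (nicePhi δ φ) (r ^ 2, r * a) (0, 1)) := by ring
  rw [this, h3]
  field_simp

theorem nice_fderiv_fst {δ : ℝ} (hδ : 0 < δ) {φ φr : ℝ → ℝ → ℝ}
    (hφ : ContDiffOn ℝ ∞ (Function.uncurry φ) {p | 0 < p.1})
    (hdr : ∀ r a : ℝ, 0 < r → HasDerivAt (fun r => φ r a) (φr r a) r) {r : ℝ} (hr : 0 < r)
    (a : ℝ) :
    nicePhi δ φ (r ^ 2, r * a) + 2 * r ^ 2 * fderiv ℝ (nicePhi δ φ) (r ^ 2, r * a) (1, 0) +
      r * a * fderiv ℝ (nicePhi δ φ) (r ^ 2, r * a) (0, 1) =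
      deriv (niceChi δ) r * φ r a + niceChi δ r * φr r a := by
  have hd : HasFDerivAt (nicePhi δ φ) (fderiv ℝ (nicePhi δ φ) (r ^ 2, r * a)) (r ^ 2, r * a) :=
    ((nicePhi_contDiff hδ hφ).differentiable (by simp) _).hasFDerivAt
  have hc : HasDerivAt (fun t : ℝ => ((t ^ 2, t * a) : ℝ × ℝ)) (2 * r, a) r := by
    have h1 : HasDerivAt (fun t : ℝ => t ^ 2) (2 * r) r := by
      simpa using hasDerivAt_pow 2 r
    have h2 : HasDerivAt (fun t : ℝ => t * a) (1 * a) r := (hasDerivAt_id r).mul_const a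
    rw [one_mul] at h2
    exact h1.prodMk h2
  have h1 : HasDerivAt (fun t : ℝ => nicePhi δ φ (t ^ 2, t * a))
      (fderiv ℝ (nicePhi δ φ) (r ^ 2, r * a) (2 * r, a)) r :=
    HasFDerivAt.comp_hasDerivAt (f := fun t : ℝ => ((t ^ 2, t * a) : ℝ × ℝ)) r hd hc
  have h1' := (hasDerivAt_id r).mul h1
  have h2 : HasDerivAt (fun t : ℝ => niceChi δ t * φ t a)
      (deriv (niceChi δ) r * φ r a + niceChi δ r * φr r a) r :=
    (niceChi_hasDerivAt δ r).mul (hdr r a hr)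
  have hev : (fun t : ℝ => niceChi δ t * φ t a) =ᶠ[nhds r]
      (id * fun t : ℝ => nicePhi δ φ (t ^ 2, t * a)) := by
    filter_upwards [lt_mem_nhds hr] with t ht
    simp only [Pi.mul_apply, id]
    rw [nicePhi_sq φ ht a]
    field_simp
  have h3 := h1'.unique (h2.congr_of_eventuallyEq hev.symm)
  rw [← h3]
  have h4 : ((2 * r, a) : ℝ × ℝ) = (2 * r) • ((1, 0) : ℝ × ℝ) + a • ((0, 1) : ℝ × ℝ) := by simp
  rw [h4, map_add, map_smul, map_smul, smul_eq_mul, smul_eq_mul]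
  simp only [id, one_mul]
  ring

theorem nice_kapH {δ : ℝ} (hδ : 0 < δ) {k : ℝ} (hk : 0 ≤ k) {φ φr φa : ℝ → ℝ → ℝ}
    (hφ : ContDiffOn ℝ ∞ (Function.uncurry φ) {p | 0 < p.1})
    (hdr : ∀ r a : ℝ, 0 < r → HasDerivAt (fun r => φ r a) (φr r a) r)
    (hda : ∀ r a : ℝ, 0 < r → HasDerivAt (φ r) (φa r a) a) (m : ℕ) {r : ℝ} (hr : 0 < r)
    (a b : ℝ) :
    kapH k m (nicePhi δ φ) r a b = niceChi δ r * kapN k m φ φr φa r a b +
      deriv (niceChi δ) r * φ r a * (1 - b ^ 2) := by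
  have hsn : 0 < sn k r := sn_pos hk hr
  have e1 := nice_fderiv_fst hδ hφ hdr hr a
  have e2 := nice_fderiv_snd hδ hφ hda hr a
  have e3 := nicePhi_sq (δ := δ) φ hr a
  have e4 : r ^ 2 / sn k r * |fderiv ℝ (nicePhi δ φ) (r ^ 2, r * a) (0, 1)| =
      niceChi δ r * |φa r a| / sn k r := by
    have e6 : r ^ 2 * |fderiv ℝ (nicePhi δ φ) (r ^ 2, r * a) (0, 1)| =
        |r ^ 2 * fderiv ℝ (nicePhi δ φ) (r ^ 2, r * a) (0, 1)| := by
      rw [abs_mul, abs_of_nonneg (sq_nonneg r)]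
    rw [div_mul_eq_mul_div, e6, e2, abs_mul, abs_of_nonneg (niceChi_nonneg δ r)]
  have e5 : r * cs k r / sn k r * nicePhi δ φ (r ^ 2, r * a) =
      cs k r / sn k r * (niceChi δ r * φ r a) := by
    rw [e3]
    field_simp
  unfold kapH kapN
  rw [e1, e4, e5]
  ring

theorem nice_NH {δ : ℝ} (hδ : 0 < δ) {k : ℝ} (hk : 0 ≤ k) {φ φr φa : ℝ → ℝ → ℝ}
    (hφ : ContDiffOn ℝ ∞ (Function.uncurry φ) {p | 0 < p.1})
    (hdr : ∀ r a : ℝ, 0 < r → HasDerivAt (fun r => φ r a) (φr r a) r)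
    (hda : ∀ r a : ℝ, 0 < r → HasDerivAt (φ r) (φa r a) a) (m : ℕ) (lam ε : ℝ) {r : ℝ}
    (hr : 0 < r) (a b : ℝ) :
    NH k m (nicePhi δ φ) (lam + ε) r a b = niceChi δ r * NN k m φ φr φa lam r a b +
      ((1 - niceChi δ r) * lam + ε +
        deriv (niceChi δ) r * (φ r a * (1 - b ^ 2) + φ r b * (1 - a ^ 2)) / 2) := by
  unfold NH NN
  rw [nice_kapH hδ hk hφ hdr hda m hr a b, nice_kapH hδ hk hφ hdr hda m hr b a]
  ring

theorem nice_KH {δ : ℝ} (hδ : 0 < δ) {k : ℝ} (hk : 0 ≤ k) {φ φr φa : ℝ → ℝ → ℝ}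
    (hφ : ContDiffOn ℝ ∞ (Function.uncurry φ) {p | 0 < p.1})
    (hdr : ∀ r a : ℝ, 0 < r → HasDerivAt (fun r => φ r a) (φr r a) r)
    (hda : ∀ r a : ℝ, 0 < r → HasDerivAt (φ r) (φa r a) a) (m : ℕ) (lam ε H : ℝ) {r : ℝ}
    (hr : 0 < r) (a b : ℝ) :
    KH k m (nicePhi δ φ) (lam + ε) H r a b = niceChi δ r * KN k m φ φr φa lam H r a b +
      ((1 - niceChi δ r) * lam + ε +
        deriv (niceChi δ) r * (φ r a * (1 - b ^ 2) + φ r b * (1 - a ^ 2)) / 2) := by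
  unfold KH KN
  rw [nice_NH hδ hk hφ hdr hda m lam ε hr a b, nice_ph φ hr a, nice_ph φ hr b]
  ring

/-- the remainder is at least `ε` -/
theorem nice_rem {δ : ℝ} (hδ : 0 < δ) {φ : ℝ → ℝ → ℝ} {lam ε : ℝ} (hlam : 0 ≤ lam)
    {r a b : ℝ} (ha : 0 ≤ φ r a) (hb : 0 ≤ φ r b) (ha1 : a ^ 2 ≤ 1) (hb1 : b ^ 2 ≤ 1) :
    ε ≤ (1 - niceChi δ r) * lam + ε +
        deriv (niceChi δ) r * (φ r a * (1 - b ^ 2) + φ r b * (1 - a ^ 2)) / 2 := by
  have h1 : 0 ≤ (1 - niceChi δ r) * lam :=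
    mul_nonneg (sub_nonneg.2 (niceChi_le_one δ r)) hlam
  have h2 : 0 ≤ deriv (niceChi δ) r * (φ r a * (1 - b ^ 2) + φ r b * (1 - a ^ 2)) :=
    mul_nonneg (niceChi_deriv_nonneg hδ r)
      (add_nonneg (mul_nonneg ha (sub_nonneg.2 hb1)) (mul_nonneg hb (sub_nonneg.2 ha1)))
  linarith

/-! ### Evenness -/

theorem nice_abs {φ : ℝ → ℝ → ℝ} (he : ∀ r a : ℝ, 0 < r → φ r (-a) = φ r a) {r : ℝ}
    (hr : 0 < r) (a : ℝ) : φ r |a| = φ r a := by
  rcases abs_cases a with ⟨h, _⟩ | ⟨h, _⟩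
  · rw [h]
  · rw [h, he r a hr]

theorem nice_even_r {φ φr : ℝ → ℝ → ℝ}
    (hdr : ∀ r a : ℝ, 0 < r → HasDerivAt (fun r => φ r a) (φr r a) r)
    (he : ∀ r a : ℝ, 0 < r → φ r (-a) = φ r a) (r a : ℝ) (hr : 0 < r) :
    φr r (-a) = φr r a := by
  have h1 := hdr r (-a) hr
  have h2 := hdr r a hr
  refine h1.unique (h2.congr_of_eventuallyEq ?_)
  filter_upwards [lt_mem_nhds hr] with t ht
  exact he t a ht

theorem nice_even_a {φ φa : ℝ → ℝ → ℝ}
    (hda : ∀ r a : ℝ, 0 < r → HasDerivAt (φ r) (φa r a) a)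
    (he : ∀ r a : ℝ, 0 < r → φ r (-a) = φ r a) (r a : ℝ) (hr : 0 < r) :
    |φa r (-a)| = |φa r a| := by
  have h1 : HasDerivAt (fun t : ℝ => φ r (-t)) (-φa r (-a)) a := by
    have h3 := HasDerivAt.comp (h₂ := φ r) (h := fun t : ℝ => -t) a (hda r (-a) hr)
      (hasDerivAt_neg a)
    have e : -φa r (-a) = φa r (-a) * -1 := by ring
    rw [e]
    exact h3
  have h2 : HasDerivAt (fun t : ℝ => φ r (-t)) (φa r a) a := by
    have e : (fun t : ℝ => φ r (-t)) = φ r := funext fun t => he r t hr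
    rw [e]
    exact hda r a hr
  rw [← h1.unique h2, abs_neg]

theorem nice_kapN_abs {k : ℝ} {m : ℕ} {φ φr φa : ℝ → ℝ → ℝ}
    (hdr : ∀ r a : ℝ, 0 < r → HasDerivAt (fun r => φ r a) (φr r a) r)
    (hda : ∀ r a : ℝ, 0 < r → HasDerivAt (φ r) (φa r a) a)
    (he : ∀ r a : ℝ, 0 < r → φ r (-a) = φ r a) {r : ℝ} (hr : 0 < r) (a b : ℝ) :
    kapN k m φ φr φa r |a| |b| = kapN k m φ φr φa r a b := by
  have e1 : φ r |a| = φ r a := nice_abs he hr a
  have e2 : φr r |a| = φr r a := nice_abs (nice_even_r hdr he) hr a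
  have e3 : |φa r (|a|)| = |φa r a| :=
    nice_abs (φ := fun r a => |φa r a|) (nice_even_a hda he) hr a
  unfold kapN
  rw [e1, e2, e3, abs_abs, sq_abs, sq_abs]

theorem nice_NN_abs {k : ℝ} {m : ℕ} {φ φr φa : ℝ → ℝ → ℝ} {lam : ℝ}
    (hdr : ∀ r a : ℝ, 0 < r → HasDerivAt (fun r => φ r a) (φr r a) r)
    (hda : ∀ r a : ℝ, 0 < r → HasDerivAt (φ r) (φa r a) a)
    (he : ∀ r a : ℝ, 0 < r → φ r (-a) = φ r a) {r : ℝ} (hr : 0 < r) (a b : ℝ) :
    NN k m φ φr φa lam r |a| |b| = NN k m φ φr φa lam r a b := by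
  unfold NN
  rw [nice_kapN_abs hdr hda he hr a b, nice_kapN_abs hdr hda he hr b a]

/-- PROOF: `χ` smooth, nondecreasing, `0` on `(-∞,δ/2]`, `1` on `[δ,∞)` (`Real.smoothTransition`),
`s δ ≤ ε`; `φ̃ = χ(r) φ(r,a)`, `Φ(x,y) = χ(√x) φ(√x, y/√x)/√x` for `x > 0`, `0` for `x ≤ 0`:
smooth on the plane. All conditions for `φ̃` follow, since `χ' φ ≥ 0`:
`K̃ = χ K + (1-χ) lam + ε + χ'(φ(r,a)(1-b²) + φ(r,b)(1-a²))/2`. For `c6`: the difference of the
right and left sides is at least `-(1-χ) s r + ε ≥ 0`. -/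
theorem good_of_nice {n : ℕ} (hn : 2 ≤ n) {k : ℝ} (hk : 0 ≤ k) {φ φr φa : ℝ → ℝ → ℝ}
    {lam H s : ℝ} {f : ℝ → ℝ} (hlam : 0 ≤ lam) (hH : 0 ≤ H) (hs : 0 ≤ s)
    (hf0 : ∀ a ∈ Icc (0 : ℝ) 1, 0 ≤ f a) (h : Nice n k φ φr φa lam H s f) :
    ∀ ε > 0, ∃ Φ : ℝ × ℝ → ℝ, Good n k Φ (lam + ε) H s (fun a => f a + ε) := by
  intro ε hε
  obtain ⟨δ, hδ, hsδ⟩ : ∃ δ > 0, s * δ ≤ ε := by
    refine ⟨ε / (s + 1), by positivity, ?_⟩
    rw [mul_div_assoc', div_le_iff₀ (by linarith)]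
    nlinarith
  have hφ0 : ∀ r a : ℝ, 0 < r → |a| ≤ 1 → 0 ≤ φ r a := by
    intro r a hr ha
    rw [← nice_abs h.even hr a]
    exact h.nonneg r |a| hr (abs_nonneg a) ha
  have hsq : ∀ a : ℝ, |a| ≤ 1 → a ^ 2 ≤ 1 := fun a ha => (sq_le_one_iff_abs_le_one a).2 ha
  refine ⟨nicePhi δ φ, ⟨1, one_pos, (nicePhi_contDiff hδ h.smooth).contDiffOn⟩, ?_, ?_, ?_, ?_, ?_⟩
  · -- nonneg
    intro r a hr ha
    rcases hr.eq_or_lt with h0 | h0
    · rw [← h0]
      rw [nicePhi_zero hδ φ (by simp; positivity)]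
    · rw [nicePhi_sq φ h0 a]
      exact div_nonneg (mul_nonneg (niceChi_nonneg δ r) (hφ0 r a h0 ha)) h0.le
  · -- c1
    intro r a b hr ha hb
    have hb0 := hφ0 r b hr hb
    have ha0 := hφ0 r a hr ha
    have h1 := h.c1 r |a| |b| hr (abs_nonneg a) ha (abs_nonneg b) hb
    rw [nice_NN_abs h.deriv_r h.deriv_a h.even hr a b, nice_abs h.even hr b] at h1
    have h2 := nice_rem hδ hlam (ε := ε) ha0 hb0 (hsq a ha) (hsq b hb)
    rw [nice_NH hδ hk h.smooth h.deriv_r h.deriv_a (n - 1) lam ε hr a b, nice_ph φ hr b]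
    have h3 : max a 0 ≤ |a| := max_le (le_abs_self a) (abs_nonneg a)
    have h4 : φ r b * max a 0 ≤ φ r b * |a| := mul_le_mul_of_nonneg_left h3 hb0
    have hc0 := niceChi_nonneg δ r
    have h5 : H / 2 * (φ r b * max a 0) ≤ NN k (n - 1) φ φr φa lam r a b :=
      le_trans (mul_le_mul_of_nonneg_left h4 (by linarith)) h1
    have h6 := mul_le_mul_of_nonneg_left h5 hc0
    have e : H / 2 * (niceChi δ r * φ r b * max a 0) =
      niceChi δ r * (H / 2 * (φ r b * max a 0)) := by ring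
    rw [e]
    linarith
  · -- c3
    intro a ha
    have hfun : Set.EqOn (fun r => ph (nicePhi δ φ) r a * sn k r ^ (n - 1))
        (fun r => niceChi δ r * φ r a * sn k r ^ (n - 1)) (Ioi 0) := by
      intro r hr
      simp only
      rw [nice_ph φ hr a]
    refine MonotoneOn.congr ?_ hfun.symm
    have hder : ∀ r ∈ Ioi (0 : ℝ), HasDerivAt (fun r => niceChi δ r * φ r a * sn k r ^ (n - 1))
        ((deriv (niceChi δ) r * φ r a + niceChi δ r * φr r a) * sn k r ^ (n - 1) +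
          niceChi δ r * φ r a * (((n - 1 : ℕ) : ℝ) * sn k r ^ (n - 1 - 1) * cs k r)) r := by
      intro r hr
      exact ((niceChi_hasDerivAt δ r).mul (h.deriv_r r a hr)).mul
        ((hasDerivAt_sn k r).pow (n - 1))
    refine monotoneOn_of_deriv_nonneg (convex_Ioi 0) ?_ ?_ ?_
    · intro r hr
      exact (hder r hr).continuousAt.continuousWithinAt
    · intro r hr
      rw [interior_Ioi] at hr
      exact (hder r hr).differentiableAt.differentiableWithinAt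
    · intro r hr
      rw [interior_Ioi] at hr
      rw [(hder r hr).deriv]
      have hr' : 0 < r := hr
      have hsn : 0 < sn k r := sn_pos hk hr'
      have ha0 := hφ0 r a hr' ha
      have h3 := h.c3 r |a| hr' (abs_nonneg a) ha
      rw [nice_abs h.even hr' a, nice_abs (nice_even_r h.deriv_r h.even) hr' a] at h3
      have hcast : ((n - 1 : ℕ) : ℝ) = (n : ℝ) - 1 := by
        rw [Nat.cast_sub (by omega)]
        simp
      have hpow : sn k r ^ (n - 1) = sn k r ^ (n - 1 - 1) * sn k r := by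
        rw [← pow_succ]
        congr 1
        omega
      have h4 : 0 ≤ deriv (niceChi δ) r * φ r a * sn k r ^ (n - 1) :=
        mul_nonneg (mul_nonneg (niceChi_deriv_nonneg hδ r) ha0) (pow_nonneg hsn.le _)
      have h5 : 0 ≤ niceChi δ r * sn k r ^ (n - 1) *
          (φr r a + ((n : ℝ) - 1) * (cs k r / sn k r) * φ r a) :=
        mul_nonneg (mul_nonneg (niceChi_nonneg δ r) (pow_nonneg hsn.le _)) h3
      have h6 : niceChi δ r * sn k r ^ (n - 1) *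
          (φr r a + ((n : ℝ) - 1) * (cs k r / sn k r) * φ r a) =
          niceChi δ r * φr r a * sn k r ^ (n - 1) +
          niceChi δ r * φ r a * (((n : ℝ) - 1) * sn k r ^ (n - 1 - 1) * cs k r) := by
        rw [hpow]
        field_simp
      rw [hcast]
      rw [h6] at h5
      linarith
  · -- c7
    intro r a b hr ha0 ha1 hb0 hb1
    have haa : |a| ≤ 1 := by rw [abs_of_nonneg ha0]; exact ha1
    have hbb : |b| ≤ 1 := by rw [abs_of_nonneg hb0]; exact hb1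
    have h1 := hφ0 r a hr haa
    have h2 := hφ0 r b hr hbb
    have h3 := h.c7 r a b hr ha0 ha1 hb0 hb1
    have h4 := nice_rem hδ hlam (ε := ε) h1 h2 (hsq a haa) (hsq b hbb)
    rw [nice_KH hδ hk h.smooth h.deriv_r h.deriv_a (n - 1) lam ε H hr a b, nice_ph φ hr a,
      nice_ph φ hr b]
    have hc0 := niceChi_nonneg δ r
    have e : √(niceChi δ r * φ r a * (niceChi δ r * φ r b)) =
        niceChi δ r * √(φ r a * φ r b) := by
      have : niceChi δ r * φ r a * (niceChi δ r * φ r b) =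
          niceChi δ r ^ 2 * (φ r a * φ r b) := by ring
      rw [this, Real.sqrt_mul (sq_nonneg _), Real.sqrt_sq hc0]
    rw [e]
    have h5 := mul_nonneg hc0 h3
    have e2 : a * b * (niceChi δ r * √(φ r a * φ r b)) / sn k r =
        niceChi δ r * (a * b * √(φ r a * φ r b) / sn k r) := by ring
    rw [e2]
    linarith
  · -- c6
    intro r a b hr ha0 ha1 hb0 hb1
    have haa : |a| ≤ 1 := by rw [abs_of_nonneg ha0]; exact ha1
    have hbb : |b| ≤ 1 := by rw [abs_of_nonneg hb0]; exact hb1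
    have h1 := hφ0 r a hr haa
    have h2 := hφ0 r b hr hbb
    have h3 := h.c6 r a b hr ha0 ha1 hb0 hb1
    have h4 := nice_rem hδ hlam (ε := ε) h1 h2 (hsq a haa) (hsq b hbb)
    rw [nice_KH hδ hk h.smooth h.deriv_r h.deriv_a (n - 1) lam ε H hr a b]
    set rem := (1 - niceChi δ r) * lam + ε +
        deriv (niceChi δ) r * (φ r a * (1 - b ^ 2) + φ r b * (1 - a ^ 2)) / 2 with hrem
    have hc0 := niceChi_nonneg δ r
    have hc1 := niceChi_le_one δ r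
    have hsn : 0 ≤ sn k r ^ (n - 1) := pow_nonneg (sn_pos hk hr).le _
    have hfa := hf0 a ⟨ha0, ha1⟩
    have hfb := hf0 b ⟨hb0, hb1⟩
    have hab : 0 ≤ a * b := mul_nonneg ha0 hb0
    have h5 := mul_le_mul_of_nonneg_left h3 hc0
    have h6 : 0 ≤ rem * sn k r ^ (n - 1) := mul_nonneg (by linarith) hsn
    -- the cut part
    have h7 : (1 - niceChi δ r) * (s * r) ≤ ε := by
      rcases le_or_gt δ r with hr1 | hr1
      · rw [niceChi_one hδ hr1]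
        simp [hε.le]
      · have h8 : s * r ≤ s * δ := mul_le_mul_of_nonneg_left hr1.le hs
        have h9 : 0 ≤ s * r := mul_nonneg hs hr.le
        nlinarith
    have h8 : 0 ≤ (1 - niceChi δ r) * ((f a + f b) / 2) :=
      mul_nonneg (by linarith) (by linarith)
    have h9 : 0 ≤ a * b * (ε - (1 - niceChi δ r) * (s * r) +
        (1 - niceChi δ r) * ((f a + f b) / 2)) := mul_nonneg hab (by linarith)
    have e : a * b * (s * r - (f a + ε + (f b + ε)) / 2) =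
        niceChi δ r * (a * b * (s * r - (f a + f b) / 2)) -
        a * b * (ε - (1 - niceChi δ r) * (s * r) +
        (1 - niceChi δ r) * ((f a + f b) / 2)) := by ring
    rw [e]
    have e2 : (niceChi δ r * KN k (n - 1) φ φr φa lam H r a b + rem) * sn k r ^ (n - 1) =
        niceChi δ r * (KN k (n - 1) φ φr φa lam H r a b * sn k r ^ (n - 1)) +
        rem * sn k r ^ (n - 1) := by ring
    rw [e2]
    linarith

end Vale.Agent.P219.TPH
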