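import Vale.Agent.P219.TP.Moments

/-! # Zonal integrals on the sphere of dimension 4 -/

open MeasureTheory Set Metric
open scoped ENNReal ContDiff

namespace Vale.Agent.P219.TPH

open Vale.Agent.P219.TP

/-- the defect of the formula -/
private noncomputable def zphi (e : E 5) (g : ℝ → ℝ) : ℝ :=
  (∫ u : sphere (0 : E 5) 1, g (max 0 (inner ℝ e (u : E 5))) * max 0 (inner ℝ e (u : E 5))
        ∂((volume : Measure (E 5)).toSphere)) -
      2 * Real.pi ^ 2 * ∫ t in (0 : ℝ)..1, g t * t * (1 - t ^ 2)

private theorem z_cont {g : ℝ → ℝ} (hg : Continuous g) (e : E 5) :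
    Continuous fun u : sphere (0 : E 5) 1 =>
      g (max 0 (inner ℝ e (u : E 5))) * max 0 (inner ℝ e (u : E 5)) := by
  fun_prop

private theorem z_int {g : ℝ → ℝ} (hg : Continuous g) (e : E 5) :
    Integrable (fun u : sphere (0 : E 5) 1 =>
      g (max 0 (inner ℝ e (u : E 5))) * max 0 (inner ℝ e (u : E 5)))
      ((volume : Measure (E 5)).toSphere) :=
  (z_cont hg e).integrable_of_hasCompactSupport (HasCompactSupport.of_compactSpace _)

private theorem z_int2 {g : ℝ → ℝ} (hg : Continuous g) :
    IntervalIntegrable (fun t => g t * t * (1 - t ^ 2)) volume 0 1 :=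
  (by fun_prop : Continuous fun t => g t * t * (1 - t ^ 2)).intervalIntegrable 0 1

private theorem zphi_add {f g : ℝ → ℝ} (hf : Continuous f) (hg : Continuous g) (e : E 5) :
    zphi e (fun t => f t + g t) = zphi e f + zphi e g := by
  unfold zphi
  have h1 : ∫ u : sphere (0 : E 5) 1, (f (max 0 (inner ℝ e (u : E 5))) +
      g (max 0 (inner ℝ e (u : E 5)))) * max 0 (inner ℝ e (u : E 5))
        ∂((volume : Measure (E 5)).toSphere) = (∫ u : sphere (0 : E 5) 1,
        f (max 0 (inner ℝ e (u : E 5))) * max 0 (inner ℝ e (u : E 5))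
        ∂((volume : Measure (E 5)).toSphere)) + ∫ u : sphere (0 : E 5) 1,
        g (max 0 (inner ℝ e (u : E 5))) * max 0 (inner ℝ e (u : E 5))
        ∂((volume : Measure (E 5)).toSphere) := by
    rw [← integral_add (z_int hf e) (z_int hg e)]
    exact integral_congr_ae (.of_forall fun u => by ring)
  have h2 : ∫ t in (0 : ℝ)..1, (f t + g t) * t * (1 - t ^ 2) =
      (∫ t in (0 : ℝ)..1, f t * t * (1 - t ^ 2)) + ∫ t in (0 : ℝ)..1, g t * t * (1 - t ^ 2) := by
    rw [← intervalIntegral.integral_add (z_int2 hf) (z_int2 hg)]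
    exact intervalIntegral.integral_congr fun t _ => by ring
  rw [h1, h2]
  ring

private theorem zphi_monomial {e : E 5} (he : ‖e‖ = 1) (m : ℕ) (a : ℝ) :
    zphi e (fun t => a * t ^ m) = 0 := by
  unfold zphi
  have h1 : ∫ u : sphere (0 : E 5) 1, (a * (max 0 (inner ℝ e (u : E 5))) ^ m) *
      max 0 (inner ℝ e (u : E 5)) ∂((volume : Measure (E 5)).toSphere) =
      a * ∫ u : sphere (0 : E 5) 1, max 0 (inner ℝ e (u : E 5)) ^ (m + 1)
      ∂((volume : Measure (E 5)).toSphere) := by
    rw [← integral_const_mul]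
    exact integral_congr_ae (.of_forall fun u => by ring)
  have h2 := sphere_moment (n := 5) (by norm_num) (k := m + 1) (by omega) he
  have h3 : Real.pi ^ ((((5 : ℕ) : ℝ) - 1) / 2) = Real.pi ^ 2 := by
    rw [← Real.rpow_natCast]
    norm_num
  have hm : (0 : ℝ) < ((m + 1 : ℕ) + 1) / 2 := by positivity
  have h4 : Real.Gamma ((((5 : ℕ) : ℝ) + (m + 1 : ℕ)) / 2) =
      ((((m + 1 : ℕ) : ℝ) + 1) / 2 + 1) * ((((m + 1 : ℕ) + 1) / 2) *
        Real.Gamma ((((m + 1 : ℕ) : ℝ) + 1) / 2)) := by
    rw [← Real.Gamma_add_one (by positivity), ← Real.Gamma_add_one (by positivity)]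
    congr 1
    push_cast
    ring
  have hG : 0 < Real.Gamma ((((m + 1 : ℕ) : ℝ) + 1) / 2) := Real.Gamma_pos_of_pos hm
  have h5 : ∫ t in (0 : ℝ)..1, (a * t ^ m) * t * (1 - t ^ 2) =
      a * (1 / ((m : ℝ) + 2) - 1 / ((m : ℝ) + 4)) := by
    have e1 : ∫ t in (0 : ℝ)..1, (a * t ^ m) * t * (1 - t ^ 2) =
        a * ((∫ t in (0 : ℝ)..1, t ^ (m + 1)) - ∫ t in (0 : ℝ)..1, t ^ (m + 3)) := by
      rw [← intervalIntegral.integral_sub ((continuous_pow _).intervalIntegrable _ _)
        ((continuous_pow _).intervalIntegrable _ _), ← intervalIntegral.integral_const_mul]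
      exact intervalIntegral.integral_congr fun t _ => by ring
    rw [e1, integral_pow, integral_pow]
    simp only [one_pow]
    push_cast
    rw [zero_pow (by omega), zero_pow (by omega)]
    congr 2
    · congr 1
      · ring
      · ring
    · congr 1
      · ring
      · ring
  rw [h1, h2, h3, h4, h5]
  have hm2 : (0 : ℝ) < (m : ℝ) + 2 := by positivity
  have hm4 : (0 : ℝ) < (m : ℝ) + 4 := by positivity
  push_cast
  field_simp
  ring

private theorem zphi_poly {e : E 5} (he : ‖e‖ = 1) (p : Polynomial ℝ) :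
    zphi e (fun t => p.eval t) = 0 := by
  induction p using Polynomial.induction_on' with
  | add p q hp hq =>
    simp only [Polynomial.eval_add]
    rw [zphi_add p.continuous q.continuous, hp, hq, add_zero]
  | monomial n a =>
    simp only [Polynomial.eval_monomial]
    exact zphi_monomial he n a

private theorem zphi_bound {e : E 5} (he : ‖e‖ = 1) {h : ℝ → ℝ} (hh : Continuous h) {ε : ℝ}
    (hε : 0 ≤ ε) (hb : ∀ t ∈ Icc (0 : ℝ) 1, |h t| ≤ ε) :
    |zphi e h| ≤ ε * (((volume : Measure (E 5)).toSphere).real univ + 2 * Real.pi ^ 2) := by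
  have hm : ∀ u : sphere (0 : E 5) 1, max 0 (inner ℝ e (u : E 5)) ∈ Icc (0 : ℝ) 1 := by
    intro u
    refine ⟨le_max_left _ _, max_le zero_le_one ?_⟩
    have h1 := real_inner_le_norm e (u : E 5)
    have h2 : ‖(u : E 5)‖ = 1 := by simp
    rw [he, h2, one_mul] at h1
    exact h1
  have h1 : |∫ u : sphere (0 : E 5) 1, h (max 0 (inner ℝ e (u : E 5))) *
      max 0 (inner ℝ e (u : E 5)) ∂((volume : Measure (E 5)).toSphere)| ≤
      ε * ((volume : Measure (E 5)).toSphere).real univ := by
    have := norm_integral_le_of_norm_le_const (μ := (volume : Measure (E 5)).toSphere)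
      (f := fun u : sphere (0 : E 5) 1 => h (max 0 (inner ℝ e (u : E 5))) *
      max 0 (inner ℝ e (u : E 5))) (C := ε) (.of_forall fun u => by
        rw [Real.norm_eq_abs, abs_mul, abs_of_nonneg (hm u).1]
        have h3 := hb _ (hm u)
        have h4 := (hm u).2
        have h5 := (hm u).1
        nlinarith [abs_nonneg (h (max 0 (inner ℝ e (u : E 5))))])
    simpa using this
  have h2 : |∫ t in (0 : ℝ)..1, h t * t * (1 - t ^ 2)| ≤ ε := by
    have := intervalIntegral.norm_integral_le_of_norm_le_const (a := (0 : ℝ)) (b := 1)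
      (f := fun t => h t * t * (1 - t ^ 2)) (C := ε) (fun t ht => by
        rw [uIoc_of_le zero_le_one] at ht
        have ht0 := ht.1
        have ht1 := ht.2
        have h3 := hb t ⟨ht0.le, ht1⟩
        have h6 : 0 ≤ 1 - t ^ 2 := by nlinarith
        rw [Real.norm_eq_abs, abs_mul, abs_mul, abs_of_pos ht0, abs_of_nonneg h6]
        have h7 : t * (1 - t ^ 2) ≤ 1 := by nlinarith [mul_nonneg ht0.le h6]
        have h8 : 0 ≤ t * (1 - t ^ 2) := mul_nonneg ht0.le h6
        rw [mul_assoc]
        nlinarith [abs_nonneg (h t)])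
    simpa using this
  unfold zphi
  refine (abs_sub _ _).trans ?_
  rw [abs_mul, abs_of_pos (by positivity : (0 : ℝ) < 2 * Real.pi ^ 2), mul_add]
  refine add_le_add h1 ?_
  rw [mul_comm ε]
  exact mul_le_mul_of_nonneg_left h2 (by positivity)

/-- PROOF: for monomials `g` by `sphere_moment` (all even and odd moments of `max 0 ⟨e,u⟩`, from the
Gamma function formula), then Weierstrass on `[0,1]`. (`2π²` is the area of the unit sphere
of `ℝ⁴`.) -/
theorem zonal_five {g : ℝ → ℝ} (hg : Continuous g) {e : E 5} (he : ‖e‖ = 1) :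
    ∫ u : sphere (0 : E 5) 1, g (max 0 (inner ℝ e (u : E 5))) * max 0 (inner ℝ e (u : E 5))
        ∂((volume : Measure (E 5)).toSphere) =
      2 * Real.pi ^ 2 * ∫ t in (0 : ℝ)..1, g t * t * (1 - t ^ 2) := by
  have key : ∀ ε : ℝ, 0 < ε → |zphi e g| ≤
      ε * (((volume : Measure (E 5)).toSphere).real univ + 2 * Real.pi ^ 2) := by
    intro ε hε
    obtain ⟨p, hp⟩ := exists_polynomial_near_of_continuousOn 0 1 g hg.continuousOn ε hε
    have h1 : zphi e g = zphi e (fun t => g t - p.eval t) := by
      have h2 := zphi_add (f := fun t => g t - p.eval t) (g := fun t => p.eval t)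
        (hg.sub p.continuous) p.continuous e
      rw [zphi_poly he p, add_zero] at h2
      rw [← h2]
      congr 1
      funext t
      ring
    rw [h1]
    refine zphi_bound he (hg.sub p.continuous) hε.le fun t ht => ?_
    show |g t - p.eval t| ≤ ε
    rw [abs_sub_comm]
    exact (hp t ht).le
  have h0 : zphi e g = 0 := by
    by_contra hne
    have hpos : 0 < |zphi e g| := abs_pos.2 hne
    set A := ((volume : Measure (E 5)).toSphere).real univ + 2 * Real.pi ^ 2 with hA
    have hApos : 0 < A := by positivity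
    have := key (|zphi e g| / (2 * A)) (by positivity)
    have h3 : |zphi e g| / (2 * A) * A = |zphi e g| / 2 := by field_simp
    rw [h3] at this
    linarith
  unfold zphi at h0
  linarith

end Vale.Agent.P219.TPH
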