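import Vale.Agent.P219.TP.Defs

/-! # P219, curvature `≤ -1`: the abstract geometry -/

open MeasureTheory Set Metric
open scoped ENNReal ContDiff

namespace Vale.Agent.P219.TP

variable {n : ℕ}

/-- The hyperbolic cotangent. -/
noncomputable def cth (r : ℝ) : ℝ := Real.cosh r / Real.sinh r

/-- `d/dr log (J / sinh^{n-1})` at `v`, `r = |v|`: the trace of the Hessian of the distance from
`x`, at `ex x v`, minus its value `(n-1) coth r` in curvature `-1`. -/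
noncomputable def Geo.tau (G : Geo n) (x v : E n) : ℝ :=
  fderiv ℝ (fun w => Real.log |(G.T x w).det|) v (‖v‖⁻¹ • v) +
    ((n : ℝ) - 1) / ‖v‖ - ((n : ℝ) - 1) * cth ‖v‖

/-- Abstract geometry of a complete metric on `ℝⁿ` with `Sec ≤ -1`. -/
structure GeoH (n : ℕ) extends Geo n where
  /-- Rauch comparison -/
  monoH : ∀ (x v z : E n) (s : ℝ), inner ℝ v z = 0 → 0 ≤ s → s ≤ 1 →
    s * Real.sinh ‖v‖ * ‖T x (s • v) z‖ ≤ Real.sinh (s * ‖v‖) * ‖T x v z‖
  /-- two-ended comparison -/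
  bonus : ∀ (x v : E n) (a b : ℝ), v ≠ 0 → 0 ≤ a → 0 ≤ b →
    2 * a * b / Real.sinh ‖v‖ * (1 - (Real.sinh ‖v‖ / ‖v‖) ^ (n - 1) / |(T x v).det|) ≤
      b ^ 2 * toGeo.tau x v + a ^ 2 * toGeo.tau (ex x v) (lg (ex x v) x)

end Vale.Agent.P219.TP
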