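import Vale.Agent.P219.TPH.Defs
import Vale.Agent.P219.TPH.GeoH

/-! # From `GeoH` to `Curv _ 1` (task H0) -/

open MeasureTheory Set Metric
open scoped ENNReal ContDiff

namespace Vale.Agent.P219.TPH

open Vale.Agent.P219.TP

variable {n : ℕ}

lemma bridge_sn (r : ℝ) : sn 1 r = Real.sinh r := by
  unfold sn
  rw [if_neg one_ne_zero, one_mul, div_one]

lemma bridge_cs (r : ℝ) : cs 1 r = Real.cosh r := by
  unfold cs
  rw [one_mul]

lemma bridge_rtau (G : Geo n) (x : E n) {v : E n} (hv : v ≠ 0) :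
    rtau G 1 x v = ‖v‖ * G.tau x v := by
  have hn : ‖v‖ ≠ 0 := norm_ne_zero_iff.2 hv
  have h1 : (fun w => Real.log |(G.T x w).det|) = fun w => Real.log (G.T x w).det := by
    funext w
    exact Real.log_abs _
  unfold rtau Geo.tau cth
  rw [h1, map_smul, bridge_sn, bridge_cs, smul_eq_mul]
  field_simp
  ring

lemma bridge_lg (G : Geo n) (x v : E n) : G.lg (G.ex x v) x = -(G.V 1 x v) := by
  have h1 := G.ex_flow 1 (-1) x v
  rw [one_smul, neg_smul, one_smul, add_neg_cancel, zero_smul, G.ex_zero] at h1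
  have h2 := G.lg_ex (G.ex x v) (-(G.V 1 x v))
  rw [h1] at h2
  exact h2

/-- PROOF: `sn 1 = sinh`, `cs 1 = cosh`, `rtau G 1 x v = ‖v‖ * G.tau x v` for `v ≠ 0`
(`Real.log_abs`); multiply `bonus` by `‖v‖ > 0`; the second point has `‖lg (ex x v) x‖ = ‖v‖`. -/
theorem curv_of_geoH (G : GeoH n) : Curv G.toGeo 1 := by
  refine ⟨?_, ?_⟩
  · intro x v z s hz h0 h1
    rw [bridge_sn, bridge_sn]
    exact G.monoH x v z s hz h0.le h1
  · intro x v a b hv ha hb
    have hn : 0 < ‖v‖ := norm_pos_iff.2 hv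
    have h2 : ‖G.lg (G.ex x v) x‖ = ‖v‖ := by rw [bridge_lg, norm_neg, G.norm_V]
    have h3 : G.lg (G.ex x v) x ≠ 0 := by
      rw [← norm_pos_iff, h2]
      exact hn
    rw [bridge_rtau G.toGeo x hv, bridge_rtau G.toGeo _ h3, h2, bridge_sn]
    have h4 := mul_le_mul_of_nonneg_left (G.bonus x v a b hv ha hb) hn.le
    calc 2 * a * b * (‖v‖ / Real.sinh ‖v‖) *
          (1 - (Real.sinh ‖v‖ / ‖v‖) ^ (n - 1) / |(G.T x v).det|)
        = ‖v‖ * (2 * a * b / Real.sinh ‖v‖ *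
          (1 - (Real.sinh ‖v‖ / ‖v‖) ^ (n - 1) / |(G.T x v).det|)) := by ring
      _ ≤ _ := h4
      _ = _ := by ring

end Vale.Agent.P219.TPH
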