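import Vale.Agent.P219.TPH.ZonalFive

/-! # Zonal integrals on the sphere, all dimensions -/

open MeasureTheory Set Metric
open scoped ENNReal ContDiff

namespace Vale.Agent.P219.TPH

open Vale.Agent.P219.TP

/-- The real Beta integral. -/
private theorem zg_beta {a b : ℝ} (ha : 0 ≤ a) (hb : 0 ≤ b) :
    ∫ x in (0 : ℝ)..1, x ^ a * (1 - x) ^ b =
      Real.Gamma (a + 1) * Real.Gamma (b + 1) / Real.Gamma (a + 1 + (b + 1)) := by
  have h1 := Complex.betaIntegral_eq_Gamma_mul_div ((a + 1 : ℝ) : ℂ) ((b + 1 : ℝ) : ℂ)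
    (by simpa using (by linarith : (0 : ℝ) < a + 1)) (by simpa using (by linarith : (0 : ℝ) < b + 1))
  rw [← Complex.ofReal_add, Complex.Gamma_ofReal, Complex.Gamma_ofReal, Complex.Gamma_ofReal,
    Complex.betaIntegral] at h1
  have h2 : ∫ x in (0 : ℝ)..1, (x : ℂ) ^ (((a + 1 : ℝ) : ℂ) - 1) *
      (1 - (x : ℂ)) ^ (((b + 1 : ℝ) : ℂ) - 1) =
      ∫ x in (0 : ℝ)..1, ((x ^ a * (1 - x) ^ b : ℝ) : ℂ) := by
    apply intervalIntegral.integral_congr
    intro x hx
    rw [uIcc_of_le zero_le_one] at hx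
    simp only
    rw [Complex.ofReal_mul, Complex.ofReal_cpow hx.1, Complex.ofReal_cpow (by linarith [hx.2])]
    push_cast
    congr 2
    · ring
    · ring
  rw [h2, intervalIntegral.integral_ofReal] at h1
  exact_mod_cast h1

/-- `∫_0^1 t^(m+1) (1-t²)^p dt`. -/
private theorem zg_beta2 (m : ℕ) {p : ℝ} (hp : 0 ≤ p) :
    ∫ t in (0 : ℝ)..1, t ^ m * t * (1 - t ^ 2) ^ p =
      Real.Gamma ((m : ℝ) / 2 + 1) * Real.Gamma (p + 1) /
        Real.Gamma ((m : ℝ) / 2 + 1 + (p + 1)) / 2 := by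
  have hm : (0 : ℝ) ≤ (m : ℝ) / 2 := by positivity
  rw [← zg_beta hm hp]
  have hc : Continuous fun x : ℝ => x ^ ((m : ℝ) / 2) * (1 - x) ^ p :=
    (Real.continuous_rpow_const hm).mul
      ((Real.continuous_rpow_const hp).comp (continuous_const.sub continuous_id))
  have h1 := intervalIntegral.integral_comp_mul_deriv (a := (0 : ℝ)) (b := 1)
    (f := fun t => t ^ 2) (f' := fun t => 2 * t)
    (g := fun x : ℝ => x ^ ((m : ℝ) / 2) * (1 - x) ^ p)
    (fun x _ => by simpa using hasDerivAt_pow 2 x) (by fun_prop) hc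
  norm_num at h1
  rw [← h1]
  rw [eq_div_iff (by norm_num : (2 : ℝ) ≠ 0), ← intervalIntegral.integral_mul_const]
  apply intervalIntegral.integral_congr
  intro t ht
  rw [uIcc_of_le zero_le_one] at ht
  simp only
  have h2 : (t ^ 2) ^ ((m : ℝ) / 2) = t ^ m := by
    rw [← Real.rpow_natCast t 2, ← Real.rpow_mul ht.1, ← Real.rpow_natCast t m]
    congr 1
    push_cast
    ring
  rw [h2]
  ring

/-- the defect of the formula -/
private noncomputable def gphi {n : ℕ} (e : E n) (g : ℝ → ℝ) : ℝ :=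
  (∫ u : sphere (0 : E n) 1, g (max 0 (inner ℝ e (u : E n))) * max 0 (inner ℝ e (u : E n))
        ∂((volume : Measure (E n)).toSphere)) -
      sig (n - 1) * ∫ t in (0 : ℝ)..1, g t * t * (1 - t ^ 2) ^ (((n : ℝ) - 3) / 2)

private theorem g_cont {n : ℕ} {g : ℝ → ℝ} (hg : Continuous g) (e : E n) :
    Continuous fun u : sphere (0 : E n) 1 =>
      g (max 0 (inner ℝ e (u : E n))) * max 0 (inner ℝ e (u : E n)) := by
  fun_prop

private theorem g_int {n : ℕ} {g : ℝ → ℝ} (hg : Continuous g) (e : E n) :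
    Integrable (fun u : sphere (0 : E n) 1 =>
      g (max 0 (inner ℝ e (u : E n))) * max 0 (inner ℝ e (u : E n)))
      ((volume : Measure (E n)).toSphere) :=
  (g_cont hg e).integrable_of_hasCompactSupport (HasCompactSupport.of_compactSpace _)

private theorem g_int2 {p : ℝ} (hp : 0 ≤ p) {g : ℝ → ℝ} (hg : Continuous g) :
    IntervalIntegrable (fun t => g t * t * (1 - t ^ 2) ^ p) volume 0 1 :=
  ((hg.mul continuous_id).mul
    ((Real.continuous_rpow_const hp).comp
      (continuous_const.sub (continuous_pow 2)))).intervalIntegrable 0 1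

private theorem gphi_add {n : ℕ} (hn : 3 ≤ n) {f g : ℝ → ℝ} (hf : Continuous f)
    (hg : Continuous g) (e : E n) :
    gphi e (fun t => f t + g t) = gphi e f + gphi e g := by
  have hp : (0 : ℝ) ≤ ((n : ℝ) - 3) / 2 := by
    have : (3 : ℝ) ≤ n := by exact_mod_cast hn
    linarith
  unfold gphi
  have h1 : ∫ u : sphere (0 : E n) 1, (f (max 0 (inner ℝ e (u : E n))) +
      g (max 0 (inner ℝ e (u : E n)))) * max 0 (inner ℝ e (u : E n))
        ∂((volume : Measure (E n)).toSphere) = (∫ u : sphere (0 : E n) 1,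
        f (max 0 (inner ℝ e (u : E n))) * max 0 (inner ℝ e (u : E n))
        ∂((volume : Measure (E n)).toSphere)) + ∫ u : sphere (0 : E n) 1,
        g (max 0 (inner ℝ e (u : E n))) * max 0 (inner ℝ e (u : E n))
        ∂((volume : Measure (E n)).toSphere) := by
    rw [← integral_add (g_int hf e) (g_int hg e)]
    exact integral_congr_ae (.of_forall fun u => by ring)
  have h2 : ∫ t in (0 : ℝ)..1, (f t + g t) * t * (1 - t ^ 2) ^ (((n : ℝ) - 3) / 2) =
      (∫ t in (0 : ℝ)..1, f t * t * (1 - t ^ 2) ^ (((n : ℝ) - 3) / 2)) +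
        ∫ t in (0 : ℝ)..1, g t * t * (1 - t ^ 2) ^ (((n : ℝ) - 3) / 2) := by
    rw [← intervalIntegral.integral_add (g_int2 hp hf) (g_int2 hp hg)]
    exact intervalIntegral.integral_congr fun t _ => by ring
  rw [h1, h2]
  ring

private theorem gphi_monomial {n : ℕ} (hn : 3 ≤ n) {e : E n} (he : ‖e‖ = 1) (m : ℕ) (a : ℝ) :
    gphi e (fun t => a * t ^ m) = 0 := by
  have hn3 : (3 : ℝ) ≤ n := by exact_mod_cast hn
  have hp : (0 : ℝ) ≤ ((n : ℝ) - 3) / 2 := by linarith
  unfold gphi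
  have h1 : ∫ u : sphere (0 : E n) 1, (a * (max 0 (inner ℝ e (u : E n))) ^ m) *
      max 0 (inner ℝ e (u : E n)) ∂((volume : Measure (E n)).toSphere) =
      a * ∫ u : sphere (0 : E n) 1, max 0 (inner ℝ e (u : E n)) ^ (m + 1)
      ∂((volume : Measure (E n)).toSphere) := by
    rw [← integral_const_mul]
    exact integral_congr_ae (.of_forall fun u => by ring)
  have h2 := sphere_moment (n := n) (by omega) (k := m + 1) (by omega) he
  have h5 : ∫ t in (0 : ℝ)..1, (a * t ^ m) * t * (1 - t ^ 2) ^ (((n : ℝ) - 3) / 2) =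
      a * ∫ t in (0 : ℝ)..1, t ^ m * t * (1 - t ^ 2) ^ (((n : ℝ) - 3) / 2) := by
    rw [← intervalIntegral.integral_const_mul]
    exact intervalIntegral.integral_congr fun t _ => by ring
  rw [h1, h2, h5, zg_beta2 m hp, sig_eq_gamma (n := n - 1) (by omega)]
  have hc : ((n - 1 : ℕ) : ℝ) = (n : ℝ) - 1 := by
    rw [Nat.cast_sub (by omega)]
    norm_num
  rw [hc]
  have e1 : (((m + 1 : ℕ) : ℝ) + 1) / 2 = (m : ℝ) / 2 + 1 := by push_cast; ring
  have e2 : ((n : ℝ) + ((m + 1 : ℕ) : ℝ)) / 2 =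
      (m : ℝ) / 2 + 1 + (((n : ℝ) - 3) / 2 + 1) := by push_cast; ring
  have e3 : ((n : ℝ) - 1) / 2 = ((n : ℝ) - 3) / 2 + 1 := by ring
  rw [e1, e2, e3]
  have hG1 : 0 < Real.Gamma ((m : ℝ) / 2 + 1) := Real.Gamma_pos_of_pos (by positivity)
  have hG2 : 0 < Real.Gamma (((n : ℝ) - 3) / 2 + 1) := Real.Gamma_pos_of_pos (by linarith)
  have hG3 : 0 < Real.Gamma ((m : ℝ) / 2 + 1 + (((n : ℝ) - 3) / 2 + 1)) := by
    exact Real.Gamma_pos_of_pos (by positivity)
  have hP : 0 < Real.pi ^ (((n : ℝ) - 3) / 2 + 1) := Real.rpow_pos_of_pos Real.pi_pos _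
  generalize Real.Gamma ((m : ℝ) / 2 + 1 + (((n : ℝ) - 3) / 2 + 1)) = G3 at *
  generalize Real.Gamma ((m : ℝ) / 2 + 1) = G1 at *
  generalize Real.Gamma (((n : ℝ) - 3) / 2 + 1) = G2 at *
  generalize Real.pi ^ (((n : ℝ) - 3) / 2 + 1) = P at *
  field_simp
  ring

private theorem gphi_poly {n : ℕ} (hn : 3 ≤ n) {e : E n} (he : ‖e‖ = 1) (p : Polynomial ℝ) :
    gphi e (fun t => p.eval t) = 0 := by
  induction p using Polynomial.induction_on' with
  | add p q hp hq =>
    simp only [Polynomial.eval_add]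
    rw [gphi_add hn p.continuous q.continuous, hp, hq, add_zero]
  | monomial k a =>
    simp only [Polynomial.eval_monomial]
    exact gphi_monomial hn he k a

private theorem gphi_bound {n : ℕ} (hn : 3 ≤ n) {e : E n} (he : ‖e‖ = 1) {h : ℝ → ℝ}
    {ε : ℝ}
    (hε : 0 ≤ ε) (hb : ∀ t ∈ Icc (0 : ℝ) 1, |h t| ≤ ε) :
    |gphi e h| ≤ ε * (((volume : Measure (E n)).toSphere).real univ + sig (n - 1)) := by
  have hn3 : (3 : ℝ) ≤ n := by exact_mod_cast hn
  have hp : (0 : ℝ) ≤ ((n : ℝ) - 3) / 2 := by linarith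
  have hs : 0 ≤ sig (n - 1) := by unfold sig; positivity
  have hm : ∀ u : sphere (0 : E n) 1, max 0 (inner ℝ e (u : E n)) ∈ Icc (0 : ℝ) 1 := by
    intro u
    refine ⟨le_max_left _ _, max_le zero_le_one ?_⟩
    have h1 := real_inner_le_norm e (u : E n)
    have h2 : ‖(u : E n)‖ = 1 := by simp
    rw [he, h2, one_mul] at h1
    exact h1
  have h1 : |∫ u : sphere (0 : E n) 1, h (max 0 (inner ℝ e (u : E n))) *
      max 0 (inner ℝ e (u : E n)) ∂((volume : Measure (E n)).toSphere)| ≤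
      ε * ((volume : Measure (E n)).toSphere).real univ := by
    have := norm_integral_le_of_norm_le_const (μ := (volume : Measure (E n)).toSphere)
      (f := fun u : sphere (0 : E n) 1 => h (max 0 (inner ℝ e (u : E n))) *
      max 0 (inner ℝ e (u : E n))) (C := ε) (.of_forall fun u => by
        rw [Real.norm_eq_abs, abs_mul, abs_of_nonneg (hm u).1]
        exact (mul_le_mul (hb _ (hm u)) (hm u).2 (hm u).1 hε).trans_eq (mul_one ε))
    simpa using this
  have h2 : |∫ t in (0 : ℝ)..1, h t * t * (1 - t ^ 2) ^ (((n : ℝ) - 3) / 2)| ≤ ε := by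
    have := intervalIntegral.norm_integral_le_of_norm_le_const (a := (0 : ℝ)) (b := 1)
      (f := fun t => h t * t * (1 - t ^ 2) ^ (((n : ℝ) - 3) / 2)) (C := ε) (fun t ht => by
        rw [uIoc_of_le zero_le_one] at ht
        have ht0 := ht.1
        have ht1 := ht.2
        have h3 := hb t ⟨ht0.le, ht1⟩
        have h6 : 0 ≤ 1 - t ^ 2 := by nlinarith
        have h7 : (1 - t ^ 2) ^ (((n : ℝ) - 3) / 2) ≤ 1 :=
          Real.rpow_le_one h6 (by nlinarith) hp
        have h8 : 0 ≤ (1 - t ^ 2) ^ (((n : ℝ) - 3) / 2) := Real.rpow_nonneg h6 _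
        rw [Real.norm_eq_abs, abs_mul, abs_mul, abs_of_pos ht0, abs_of_nonneg h8]
        have h9 : |h t| * t ≤ ε := (mul_le_mul h3 ht1 ht0.le hε).trans_eq (mul_one ε)
        exact (mul_le_mul h9 h7 h8 hε).trans_eq (mul_one ε))
    simpa using this
  unfold gphi
  refine (abs_sub _ _).trans ?_
  rw [abs_mul, abs_of_nonneg hs, mul_add]
  refine add_le_add h1 ?_
  rw [mul_comm ε]
  exact mul_le_mul_of_nonneg_left h2 hs

/-- PROOF: as `zonal_five` (ZonalFive.lean): for monomials `g` by `sphere_moment` and the Beta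
integral `∫_0^1 t^(k+1) (1-t²)^((n-3)/2) dt = B(k/2+1, (n-1)/2)/2`, then Weierstrass on `[0,1]`.
(`sig (n-1)` is the area of the unit sphere of `ℝ^(n-1)`, `sig_eq_gamma`.) -/
theorem zonal_gen {n : ℕ} (hn : 3 ≤ n) {g : ℝ → ℝ} (hg : Continuous g) {e : E n} (he : ‖e‖ = 1) :
    ∫ u : sphere (0 : E n) 1, g (max 0 (inner ℝ e (u : E n))) * max 0 (inner ℝ e (u : E n))
        ∂((volume : Measure (E n)).toSphere) =
      sig (n - 1) * ∫ t in (0 : ℝ)..1, g t * t * (1 - t ^ 2) ^ (((n : ℝ) - 3) / 2) := by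
  have hs : 0 ≤ sig (n - 1) := by unfold sig; positivity
  have key : ∀ ε : ℝ, 0 < ε → |gphi e g| ≤
      ε * (((volume : Measure (E n)).toSphere).real univ + sig (n - 1)) := by
    intro ε hε
    obtain ⟨p, hp⟩ := exists_polynomial_near_of_continuousOn 0 1 g hg.continuousOn ε hε
    have h1 : gphi e g = gphi e (fun t => g t - p.eval t) := by
      have h2 := gphi_add hn (f := fun t => g t - p.eval t) (g := fun t => p.eval t)
        (hg.sub p.continuous) p.continuous e
      rw [gphi_poly hn he p, add_zero] at h2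
      rw [← h2]
      congr 1
      funext t
      ring
    rw [h1]
    refine gphi_bound hn he hε.le fun t ht => ?_
    show |g t - p.eval t| ≤ ε
    rw [abs_sub_comm]
    exact (hp t ht).le
  have h0 : gphi e g = 0 := by
    by_contra hne
    have hpos : 0 < |gphi e g| := abs_pos.2 hne
    set A := ((volume : Measure (E n)).toSphere).real univ + sig (n - 1) + 1 with hA
    have hA0 : 0 ≤ ((volume : Measure (E n)).toSphere).real univ := measureReal_nonneg
    have hApos : 0 < A := by rw [hA]; linarith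
    have h4 := key (|gphi e g| / (2 * A)) (by positivity)
    have h5 : |gphi e g| / (2 * A) *
        (((volume : Measure (E n)).toSphere).real univ + sig (n - 1)) ≤
        |gphi e g| / (2 * A) * A :=
      mul_le_mul_of_nonneg_left (by rw [hA]; linarith) (by positivity)
    have h3 : |gphi e g| / (2 * A) * A = |gphi e g| / 2 := by field_simp
    rw [h3] at h5
    linarith
  unfold gphi at h0
  linarith

private theorem zg_gamma_three_half : Real.Gamma (3 / 2) = √Real.pi / 2 := by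
  rw [show (3 : ℝ) / 2 = 1 / 2 + 1 by norm_num, Real.Gamma_add_one (by norm_num),
    Real.Gamma_one_half_eq]
  ring

theorem zonal_four {g : ℝ → ℝ} (hg : Continuous g) {e : E 4} (he : ‖e‖ = 1) :
    ∫ u : sphere (0 : E 4) 1, g (max 0 (inner ℝ e (u : E 4))) * max 0 (inner ℝ e (u : E 4))
        ∂((volume : Measure (E 4)).toSphere) =
      4 * Real.pi * ∫ t in (0 : ℝ)..1, g t * t * √(1 - t ^ 2) := by
  rw [zonal_gen (by norm_num) hg he, sig_eq_gamma (by norm_num)]
  congr 1
  · have h1 : Real.Gamma (((4 - 1 : ℕ) : ℝ) / 2) = √Real.pi / 2 := by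
      rw [← zg_gamma_three_half]
      norm_num
    have h2 : Real.pi ^ (((4 - 1 : ℕ) : ℝ) / 2) = Real.pi * √Real.pi := by
      rw [Real.sqrt_eq_rpow]
      nth_rewrite 2 [← Real.rpow_one Real.pi]
      rw [← Real.rpow_add Real.pi_pos]
      norm_num
    rw [h1, h2]
    have : 0 < √Real.pi := Real.sqrt_pos.2 Real.pi_pos
    field_simp
    norm_num
  · apply intervalIntegral.integral_congr
    intro t _
    simp only
    rw [Real.sqrt_eq_rpow]
    norm_num

theorem zonal_six {g : ℝ → ℝ} (hg : Continuous g) {e : E 6} (he : ‖e‖ = 1) :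
    ∫ u : sphere (0 : E 6) 1, g (max 0 (inner ℝ e (u : E 6))) * max 0 (inner ℝ e (u : E 6))
        ∂((volume : Measure (E 6)).toSphere) =
      8 * Real.pi ^ 2 / 3 * ∫ t in (0 : ℝ)..1, g t * t * ((1 - t ^ 2) * √(1 - t ^ 2)) := by
  rw [zonal_gen (by norm_num) hg he, sig_eq_gamma (by norm_num)]
  congr 1
  · have h1 : Real.Gamma (((6 - 1 : ℕ) : ℝ) / 2) = 3 / 2 * (√Real.pi / 2) := by
      rw [← zg_gamma_three_half, ← Real.Gamma_add_one (by norm_num)]
      norm_num
    have h2 : Real.pi ^ (((6 - 1 : ℕ) : ℝ) / 2) = Real.pi ^ 2 * √Real.pi := by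
      rw [Real.sqrt_eq_rpow, ← Real.rpow_natCast Real.pi 2, ← Real.rpow_add Real.pi_pos]
      norm_num
    rw [h1, h2]
    have : 0 < √Real.pi := Real.sqrt_pos.2 Real.pi_pos
    field_simp
    norm_num
  · apply intervalIntegral.integral_congr
    intro t ht
    rw [uIcc_of_le zero_le_one] at ht
    have h6 : 0 ≤ 1 - t ^ 2 := by nlinarith [ht.1, ht.2]
    simp only
    congr 1
    rcases h6.eq_or_lt with h | h
    · rw [← h]
      norm_num
    · rw [Real.sqrt_eq_rpow]
      nth_rewrite 2 [← Real.rpow_one (1 - t ^ 2)]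
      rw [← Real.rpow_add h]
      norm_num

theorem zonal_seven {g : ℝ → ℝ} (hg : Continuous g) {e : E 7} (he : ‖e‖ = 1) :
    ∫ u : sphere (0 : E 7) 1, g (max 0 (inner ℝ e (u : E 7))) * max 0 (inner ℝ e (u : E 7))
        ∂((volume : Measure (E 7)).toSphere) =
      Real.pi ^ 3 * ∫ t in (0 : ℝ)..1, g t * t * (1 - t ^ 2) ^ 2 := by
  rw [zonal_gen (by norm_num) hg he, sig_eq_gamma (by norm_num)]
  congr 1
  · have h1 : Real.Gamma (((7 - 1 : ℕ) : ℝ) / 2) = 2 := by
      have := Real.Gamma_nat_eq_factorial 2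
      norm_num at this ⊢
    have h2 : Real.pi ^ (((7 - 1 : ℕ) : ℝ) / 2) = Real.pi ^ 3 := by
      rw [← Real.rpow_natCast Real.pi 3]
      norm_num
    rw [h1, h2]
    ring
  · apply intervalIntegral.integral_congr
    intro t _
    simp only
    congr 1
    rw [← Real.rpow_natCast (1 - t ^ 2) 2]
    norm_num

end Vale.Agent.P219.TPH
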