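import Vale.Agent.P219.TPH.BalFive

/-! # Chords of the ball in curvature `-1`, dimension 4 -/

open MeasureTheory Set Metric
open scoped ENNReal ContDiff

namespace Vale.Agent.P219.TPH

open Vale.Agent.P219.TP

theorem bo_sig : sig 4 = 2 * Real.pi ^ 2 := by
  rw [sig_eq_gamma (n := 4) (by norm_num)]
  have h1 : Real.Gamma ((4 : ℕ) / 2 : ℝ) = 1 := by
    have e1 : ((4 : ℕ) / 2 : ℝ) = 1 + 1 := by norm_num
    rw [e1, Real.Gamma_add_one (by norm_num), Real.Gamma_one]
    ring
  have h2 : Real.pi ^ (((4 : ℕ) : ℝ) / 2) = Real.pi ^ 2 := by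
    rw [show (((4 : ℕ) : ℝ) / 2) = ((2 : ℕ) : ℝ) by norm_num, Real.rpow_natCast]
  rw [h1, h2]
  ring

/-- the angular integral in closed form. -/
theorem bo_int {T e : ℝ} (h0 : 0 < T) (h1 : T < 1) (he : 0 < e) (he2 : e ^ 2 = 1 - T ^ 2) :
    ∫ t in (0 : ℝ)..1, Real.log ((1 + T * t) / (1 - T * t)) * t * √(1 - t ^ 2) =
      2 * T / 3 * (Real.pi / (4 * T ^ 2) - e ^ 2 / T ^ 4 * (Real.pi / 2 - e * (Real.pi / 2))) := by
  have hpos : ∀ t ∈ Icc (0 : ℝ) 1, 0 < 1 + T * t ∧ 0 < 1 - T * t := by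
    intro t ht
    have h2 : 0 ≤ T * t := mul_nonneg h0.le ht.1
    have h3 : T * t ≤ T * 1 := mul_le_mul_of_nonneg_left ht.2 h0.le
    constructor <;> linarith
  have hq : ∀ t ∈ Icc (0 : ℝ) 1, 0 < 1 - T ^ 2 * t ^ 2 := by
    intro t ht
    obtain ⟨h2, h3⟩ := hpos t ht
    nlinarith [mul_pos h2 h3]
  set F : ℝ → ℝ := fun t => -(Real.log ((1 + T * t) / (1 - T * t)) * √(1 - t ^ 2) ^ 3 / 3) +
    2 * T / 3 * ((t * √(1 - t ^ 2) + Real.arcsin t) / (2 * T ^ 2) -
      e ^ 2 / T ^ 4 * (Real.arcsin t - e * Real.arcsin (e * t / √(1 - T ^ 2 * t ^ 2)))) with hF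
  have hcont : ContinuousOn F (Icc 0 1) := by
    have c1 : ContinuousOn (fun t : ℝ => Real.log ((1 + T * t) / (1 - T * t))) (Icc 0 1) := by
      refine ContinuousOn.log (ContinuousOn.div (by fun_prop) (by fun_prop) ?_) ?_
      · exact fun t ht => (hpos t ht).2.ne'
      · exact fun t ht => (div_pos (hpos t ht).1 (hpos t ht).2).ne'
    have c2 : ContinuousOn (fun t : ℝ => √(1 - t ^ 2)) (Icc 0 1) := by fun_prop
    have c3 : ContinuousOn (fun t : ℝ => Real.arcsin t) (Icc 0 1) :=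
      Real.continuous_arcsin.continuousOn
    have c4 : ContinuousOn (fun t : ℝ => Real.arcsin (e * t / √(1 - T ^ 2 * t ^ 2))) (Icc 0 1) := by
      refine Real.continuous_arcsin.comp_continuousOn ?_
      refine ContinuousOn.div (by fun_prop) (by fun_prop) ?_
      exact fun t ht => (Real.sqrt_pos.2 (hq t ht)).ne'
    exact (((c1.mul (c2.pow 3)).div_const 3).neg).add
      (((((continuousOn_id.mul c2).add c3).div_const (2 * T ^ 2)).sub
        ((c3.sub (c4.const_smul e)).const_smul (e ^ 2 / T ^ 4))).const_smul (2 * T / 3))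
  have hder : ∀ t ∈ Ioo (0 : ℝ) 1, HasDerivAt F
      (Real.log ((1 + T * t) / (1 - T * t)) * t * √(1 - t ^ 2)) t := by
    intro t ht
    obtain ⟨h2, h3⟩ := hpos t ⟨ht.1.le, ht.2.le⟩
    have hq' := hq t ⟨ht.1.le, ht.2.le⟩
    have hw' : 0 < 1 - t ^ 2 := by nlinarith [ht.1, ht.2]
    have hw := Real.sqrt_pos.2 hw'
    have hqq := Real.sqrt_pos.2 hq'
    have sw := Real.sq_sqrt hw'.le
    have sq := Real.sq_sqrt hq'.le
    have d1 : HasDerivAt (fun t : ℝ => 1 + T * t) T t := by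
      simpa using ((hasDerivAt_id t).const_mul T).const_add 1
    have d2 : HasDerivAt (fun t : ℝ => 1 - T * t) (-T) t := by
      simpa using ((hasDerivAt_id t).const_mul T).const_sub 1
    have d3 := (d1.div d2 h3.ne').log (div_pos h2 h3).ne'
    have d4 : HasDerivAt (fun t : ℝ => √(1 - t ^ 2)) (-t / √(1 - t ^ 2)) t := by
      have e1 : HasDerivAt (fun t : ℝ => 1 - t ^ 2) (-(2 * t)) t := by
        simpa using ((hasDerivAt_pow 2 t).const_sub 1)
      refine (e1.sqrt hw'.ne').congr_deriv ?_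
      field_simp
    have d5 : HasDerivAt (fun t : ℝ => √(1 - T ^ 2 * t ^ 2))
        (-(T ^ 2 * t) / √(1 - T ^ 2 * t ^ 2)) t := by
      have e1 : HasDerivAt (fun t : ℝ => 1 - T ^ 2 * t ^ 2) (-(T ^ 2 * (2 * t))) t := by
        simpa using (((hasDerivAt_pow 2 t).const_mul (T ^ 2)).const_sub 1)
      refine (e1.sqrt hq'.ne').congr_deriv ?_
      field_simp
    have d6 : HasDerivAt Real.arcsin (1 / √(1 - t ^ 2)) t :=
      Real.hasDerivAt_arcsin (by linarith [ht.1]) (by linarith [ht.2])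
    have hg1 : 1 - (e * t / √(1 - T ^ 2 * t ^ 2)) ^ 2 =
        (√(1 - t ^ 2) / √(1 - T ^ 2 * t ^ 2)) ^ 2 := by
      rw [div_pow, div_pow, sw, sq, mul_pow, he2]
      field_simp
      ring
    have hgn : 0 ≤ e * t / √(1 - T ^ 2 * t ^ 2) := by
      have := ht.1
      positivity
    have hg2 : e * t / √(1 - T ^ 2 * t ^ 2) < 1 := by
      have h5 : 0 < 1 - (e * t / √(1 - T ^ 2 * t ^ 2)) ^ 2 := by
        rw [hg1]
        positivity
      nlinarith
    have d7 : HasDerivAt (fun t : ℝ => e * t / √(1 - T ^ 2 * t ^ 2))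
        (e / √(1 - T ^ 2 * t ^ 2) ^ 3) t := by
      have e1 : HasDerivAt (fun t : ℝ => e * t) e t := by
        simpa using (hasDerivAt_id t).const_mul e
      refine (e1.div d5 hqq.ne').congr_deriv ?_
      generalize √(1 - T ^ 2 * t ^ 2) = q at hqq sq
      field_simp
      linear_combination sq
    have d8 : HasDerivAt (fun t : ℝ => Real.arcsin (e * t / √(1 - T ^ 2 * t ^ 2)))
        (e / (√(1 - T ^ 2 * t ^ 2) ^ 2 * √(1 - t ^ 2))) t := by
      have e1 := (Real.hasDerivAt_arcsin (x := e * t / √(1 - T ^ 2 * t ^ 2))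
        (by linarith) (by linarith)).comp t d7
      refine e1.congr_deriv ?_
      rw [hg1, Real.sqrt_sq (by positivity)]
      field_simp
    have d9 := (((d3.mul (d4.pow 3)).div_const 3).neg).add
      (((((hasDerivAt_id t).mul d4).add d6).div_const (2 * T ^ 2)).sub
        ((d6.sub (d8.const_mul e)).const_mul (e ^ 2 / T ^ 4)) |>.const_mul (2 * T / 3))
    refine d9.congr_deriv ?_
    simp only [Pi.div_apply, Pi.pow_apply, id]
    generalize √(1 - T ^ 2 * t ^ 2) = q at hqq sq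
    generalize √(1 - t ^ 2) = w at hw sw
    generalize Real.log ((1 + T * t) / (1 - T * t)) = L
    have hq2 : q ^ 2 = e ^ 2 + T ^ 2 * w ^ 2 := by rw [sq, he2, sw]; ring
    have ht2 : t ^ 2 = 1 - w ^ 2 := by rw [sw]; ring
    have k1 : (T * (1 - T * t) - (1 + T * t) * -T) / (1 - T * t) ^ 2 /
        ((1 + T * t) / (1 - T * t)) = 2 * T / q ^ 2 := by
      have h7 : q ^ 2 = (1 + T * t) * (1 - T * t) := by rw [sq]; ring
      rw [h7]
      field_simp
      ring
    have k2 : 1 * w + t * (-t / w) + 1 / w = 2 * w := by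
      field_simp
      linear_combination -ht2
    have k3 : 1 / w - e * (e / (q ^ 2 * w)) = T ^ 2 * w / q ^ 2 := by
      field_simp
      linear_combination hq2
    rw [k1, k2, k3]
    field_simp
    linear_combination (2 * w ^ 2) * hq2
  have hint : IntervalIntegrable
      (fun t : ℝ => Real.log ((1 + T * t) / (1 - T * t)) * t * √(1 - t ^ 2)) volume 0 1 := by
    refine ContinuousOn.intervalIntegrable ?_
    rw [uIcc_of_le zero_le_one]
    refine ContinuousOn.mul (ContinuousOn.mul ?_ continuousOn_id) (by fun_prop)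
    refine ContinuousOn.log (ContinuousOn.div (by fun_prop) (by fun_prop) ?_) ?_
    · exact fun t ht => (hpos t ht).2.ne'
    · exact fun t ht => (div_pos (hpos t ht).1 (hpos t ht).2).ne'
  rw [intervalIntegral.integral_eq_sub_of_hasDerivAt_of_le zero_le_one hcont hder hint]
  have he3 : √(1 - T ^ 2) = e := by rw [← he2, Real.sqrt_sq he.le]
  simp only [hF, mul_one, one_pow, sub_self, Real.sqrt_zero, mul_zero, add_zero, sub_zero, div_one,
    Real.log_one, zero_mul, zero_div, Real.arcsin_one, Real.arcsin_zero, he3, div_self he.ne',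
    ne_eq, OfNat.ofNat_ne_zero, not_false_eq_true, zero_pow, neg_zero, zero_add]
  field_simp
  ring

theorem bo_sinh (R : ℝ) : ∫ r in (0 : ℝ)..R, Real.sinh r ^ 3 =
    Real.cosh R ^ 3 / 3 - Real.cosh R + 2 / 3 := by
  have hder : ∀ r ∈ uIcc (0 : ℝ) R, HasDerivAt (fun r : ℝ =>
      Real.cosh r ^ 3 / 3 - Real.cosh r) (Real.sinh r ^ 3) r := by
    intro r _
    have d1 := ((Real.hasDerivAt_cosh r).pow 3).div_const 3
    refine (d1.sub (Real.hasDerivAt_cosh r)).congr_deriv ?_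
    have h := Real.cosh_sq r
    norm_num
    rw [h]
    ring
  rw [intervalIntegral.integral_eq_sub_of_hasDerivAt hder
    (Continuous.intervalIntegrable (by fun_prop) _ _)]
  simp
  ring

/-- PROOF: closed forms, as in BalFive.lean. `T = tanh R`, `e = √(1-T²) = 1/cosh R`. Integration by
parts with `t √(1-t²) = -((1-t²)^(3/2)/3)'`, then `∫_0^1 (1-t²)^(3/2)/(1-T²t²) dt` (substitution
`t = sin θ` or an explicit antiderivative with arcsin, arctan); `∫_0^R sinh³ = cosh³R/3 - cosh R + 2/3`,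
`sig 4 = 2 π²`. -/
theorem bal_four {R : ℝ} (hR : 0 < R) :
    4 * Real.pi * (∫ t in (0 : ℝ)..1,
        Real.log ((1 + Real.tanh R * t) / (1 - Real.tanh R * t)) * t * √(1 - t ^ 2)) * AR 4 1 R =
      sig 4 * VR 4 1 R := by
  have hsn : ∀ r : ℝ, sn 1 r = Real.sinh r := fun r => by simp [sn]
  have hs : 0 < Real.sinh R := Real.sinh_pos_iff.2 hR
  have hc := Real.cosh_pos R
  obtain ⟨hT0, hT1⟩ := bf_tanh hR
  have h := Real.cosh_sq R
  have he2 : (1 / Real.cosh R) ^ 2 = 1 - Real.tanh R ^ 2 := by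
    rw [Real.tanh_eq_sinh_div_cosh]
    field_simp
    linarith
  rw [bo_int hT0 hT1 (by positivity) he2, AR, VR, bo_sig]
  simp only [hsn]
  norm_num
  rw [bo_sinh, Real.tanh_eq_sinh_div_cosh]
  field_simp
  rw [h]
  ring

end Vale.Agent.P219.TPH
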