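import Vale.Agent.P219.TPH.BalFive

/-! # Chords of the ball in curvature `-1`, dimension 6 -/

open MeasureTheory Set Metric
open scoped ENNReal ContDiff

namespace Vale.Agent.P219.TPH

open Vale.Agent.P219.TP

theorem bs_sig : sig 6 = Real.pi ^ 3 := by
  rw [sig_eq_gamma (n := 6) (by norm_num)]
  have h1 : Real.Gamma ((6 : ℕ) / 2 : ℝ) = 2 := by
    have e1 : ((6 : ℕ) / 2 : ℝ) = (2 : ℕ) + 1 := by norm_num
    rw [e1, Real.Gamma_nat_eq_factorial]
    norm_num
  have h2 : Real.pi ^ (((6 : ℕ) : ℝ) / 2) = Real.pi ^ 3 := by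
    rw [show (((6 : ℕ) : ℝ) / 2) = ((3 : ℕ) : ℝ) by norm_num, Real.rpow_natCast]
  rw [h1, h2]
  ring

/-- the angular integral in closed form. -/
theorem bs_int {T : ℝ} (h0 : 0 < T) (h1 : T < 1) :
    ∫ t in (0 : ℝ)..1, Real.log ((1 + T * t) / (1 - T * t)) * t * ((1 - t ^ 2) * √(1 - t ^ 2)) =
      2 * T / 5 * (3 / (8 * T ^ 2) * (Real.pi / 2) - (1 - T ^ 2) / (2 * T ^ 4) * (Real.pi / 2) +
        (1 - T ^ 2) ^ 2 / T ^ 6 * (Real.pi / 2) -
        (1 - T ^ 2) ^ 2 / T ^ 6 * √(1 - T ^ 2) * (Real.pi / 2)) := by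
  have hpos : ∀ t ∈ Icc (0 : ℝ) 1, 0 < 1 + T * t ∧ 0 < 1 - T * t := by
    intro t ht
    have h2 : 0 ≤ T * t := mul_nonneg h0.le ht.1
    have h3 : T * t ≤ T * 1 := mul_le_mul_of_nonneg_left ht.2 h0.le
    constructor <;> linarith
  have hq : ∀ t ∈ Icc (0 : ℝ) 1, 0 < 1 - T ^ 2 * t ^ 2 := by
    intro t ht
    obtain ⟨h2, h3⟩ := hpos t ht
    have := mul_pos h2 h3
    have e : (1 + T * t) * (1 - T * t) = 1 - T ^ 2 * t ^ 2 := by ring
    rwa [e] at this
  have hc : 0 < 1 - T ^ 2 := by have := hq 1 ⟨zero_le_one, le_rfl⟩; simpa using this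
  have he : 0 < √(1 - T ^ 2) := Real.sqrt_pos.2 hc
  have he2 : √(1 - T ^ 2) ^ 2 = 1 - T ^ 2 := Real.sq_sqrt hc.le
  have hlogc : ContinuousOn (fun t : ℝ => Real.log ((1 + T * t) / (1 - T * t))) (Icc 0 1) := by
    refine ContinuousOn.log (ContinuousOn.div (by fun_prop) (by fun_prop) ?_) ?_
    · exact fun t ht => (hpos t ht).2.ne'
    · exact fun t ht => (div_pos (hpos t ht).1 (hpos t ht).2).ne'
  have hcont : ContinuousOn (fun t : ℝ =>
      Real.log ((1 + T * t) / (1 - T * t)) * (-(1 / 5) * ((1 - t ^ 2) ^ 2 * √(1 - t ^ 2))) +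
      2 * T / 5 * (1 / T ^ 2 * (t * ((1 - t ^ 2) * √(1 - t ^ 2)) / 4 +
          3 / 8 * (t * √(1 - t ^ 2) + Real.arcsin t)) -
        (1 - T ^ 2) / T ^ 4 * ((t * √(1 - t ^ 2) + Real.arcsin t) / 2) +
        (1 - T ^ 2) ^ 2 / T ^ 6 * Real.arcsin t -
        (1 - T ^ 2) ^ 2 / T ^ 6 * √(1 - T ^ 2) *
          Real.arcsin (√(1 - T ^ 2) * t / √(1 - T ^ 2 * t ^ 2)))) (Icc 0 1) := by
    have ha : ContinuousOn (fun t : ℝ => Real.arcsin t) (Icc 0 1) :=
      Real.continuous_arcsin.continuousOn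
    have hx : ContinuousOn (fun t : ℝ =>
        Real.arcsin (√(1 - T ^ 2) * t / √(1 - T ^ 2 * t ^ 2))) (Icc 0 1) := by
      refine Real.continuous_arcsin.comp_continuousOn
        (ContinuousOn.div (by fun_prop) (by fun_prop) ?_)
      exact fun t ht => (Real.sqrt_pos.2 (hq t ht)).ne'
    have hw : ContinuousOn (fun t : ℝ => √(1 - t ^ 2)) (Icc 0 1) := by fun_prop
    fun_prop
  have hder : ∀ t ∈ Ioo (0 : ℝ) 1, HasDerivAt (fun t : ℝ =>
      Real.log ((1 + T * t) / (1 - T * t)) * (-(1 / 5) * ((1 - t ^ 2) ^ 2 * √(1 - t ^ 2))) +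
      2 * T / 5 * (1 / T ^ 2 * (t * ((1 - t ^ 2) * √(1 - t ^ 2)) / 4 +
          3 / 8 * (t * √(1 - t ^ 2) + Real.arcsin t)) -
        (1 - T ^ 2) / T ^ 4 * ((t * √(1 - t ^ 2) + Real.arcsin t) / 2) +
        (1 - T ^ 2) ^ 2 / T ^ 6 * Real.arcsin t -
        (1 - T ^ 2) ^ 2 / T ^ 6 * √(1 - T ^ 2) *
          Real.arcsin (√(1 - T ^ 2) * t / √(1 - T ^ 2 * t ^ 2))))
      (Real.log ((1 + T * t) / (1 - T * t)) * t * ((1 - t ^ 2) * √(1 - t ^ 2))) t := by
    intro t ht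
    have htI : t ∈ Icc (0 : ℝ) 1 := ⟨ht.1.le, ht.2.le⟩
    obtain ⟨h2, h3⟩ := hpos t htI
    have hqt := hq t htI
    have hu : 0 < 1 - t ^ 2 := by nlinarith [ht.1, ht.2]
    obtain ⟨w, hw⟩ : ∃ w, w = √(1 - t ^ 2) := ⟨_, rfl⟩
    have hw0 : 0 < w := by rw [hw]; exact Real.sqrt_pos.2 hu
    have hw2 : w ^ 2 = 1 - t ^ 2 := by rw [hw]; exact Real.sq_sqrt hu.le
    obtain ⟨q, hqd⟩ : ∃ q, q = √(1 - T ^ 2 * t ^ 2) := ⟨_, rfl⟩
    have hq0 : 0 < q := by rw [hqd]; exact Real.sqrt_pos.2 hqt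
    have hq2 : q ^ 2 = 1 - T ^ 2 * t ^ 2 := by rw [hqd]; exact Real.sq_sqrt hqt.le
    obtain ⟨e, hed⟩ : ∃ e, e = √(1 - T ^ 2) := ⟨_, rfl⟩
    rw [← hed] at he he2 ⊢
    -- basic derivatives
    have d1 : HasDerivAt (fun t : ℝ => 1 + T * t) T t := by
      simpa using ((hasDerivAt_id t).const_mul T).const_add 1
    have d2 : HasDerivAt (fun t : ℝ => 1 - T * t) (-T) t := by
      simpa using ((hasDerivAt_id t).const_mul T).const_sub 1
    have d3 : HasDerivAt (fun t : ℝ => Real.log ((1 + T * t) / (1 - T * t))) (2 * T / q ^ 2) t := by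
      refine ((d1.div d2 h3.ne').log (div_pos h2 h3).ne').congr_deriv ?_
      simp only [Pi.div_apply]
      rw [hq2]
      have e1 : 1 - T ^ 2 * t ^ 2 = (1 + T * t) * (1 - T * t) := by ring
      rw [e1]
      field_simp
      ring
    have du : HasDerivAt (fun t : ℝ => 1 - t ^ 2) (-(2 * t)) t := by
      refine ((hasDerivAt_pow 2 t).const_sub 1).congr_deriv ?_
      push_cast
      ring
    have dw : HasDerivAt (fun t : ℝ => √(1 - t ^ 2)) (-t / w) t := by
      refine (du.sqrt hu.ne').congr_deriv ?_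
      rw [← hw]
      field_simp
    have dq : HasDerivAt (fun t : ℝ => √(1 - T ^ 2 * t ^ 2)) (-(T ^ 2 * t) / q) t := by
      have e0 : HasDerivAt (fun t : ℝ => 1 - T ^ 2 * t ^ 2) (-(T ^ 2 * (2 * t))) t := by
        refine (((hasDerivAt_pow 2 t).const_mul (T ^ 2)).const_sub 1).congr_deriv ?_
        push_cast
        ring
      refine (e0.sqrt hqt.ne').congr_deriv ?_
      rw [← hqd]
      field_simp
    have da : HasDerivAt (fun t : ℝ => Real.arcsin t) (1 / w) t := by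
      rw [hw]
      exact Real.hasDerivAt_arcsin (by linarith [ht.1]) (by linarith [ht.2])
    have hx1 : 1 - (e * t / q) ^ 2 = (w / q) ^ 2 := by
      have k : e ^ 2 * t ^ 2 + w ^ 2 = q ^ 2 := by rw [he2, hw2, hq2]; ring
      rw [div_pow, div_pow, mul_pow]
      field_simp
      linarith
    have hx2 : 0 < 1 - (e * t / q) ^ 2 := by rw [hx1]; positivity
    have dx : HasDerivAt (fun t : ℝ => e * t / √(1 - T ^ 2 * t ^ 2)) (e / q ^ 3) t := by
      refine ((((hasDerivAt_id t).const_mul e).div dq (by rw [← hqd]; exact hq0.ne'))).congr_deriv ?_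
      simp only [id, ← hqd]
      have k : q ^ 2 + T ^ 2 * t ^ 2 = 1 := by rw [hq2]; ring
      field_simp
      linear_combination k
    have dax : HasDerivAt (fun t : ℝ => Real.arcsin (e * t / √(1 - T ^ 2 * t ^ 2)))
        (e / (q ^ 2 * w)) t := by
      have hne1 : e * t / √(1 - T ^ 2 * t ^ 2) ≠ -1 := by
        rw [← hqd]; intro h; rw [h] at hx2; norm_num at hx2
      have hne2 : e * t / √(1 - T ^ 2 * t ^ 2) ≠ 1 := by
        rw [← hqd]; intro h; rw [h] at hx2; norm_num at hx2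
      refine ((Real.hasDerivAt_arcsin hne1 hne2).comp t dx).congr_deriv ?_
      rw [← hqd, hx1, Real.sqrt_sq (by positivity)]
      field_simp
    have dU2 : HasDerivAt (fun t : ℝ => (1 - t ^ 2) ^ 2 * √(1 - t ^ 2)) (-(5 * t * w ^ 3)) t := by
      refine ((du.pow 2).mul dw).congr_deriv ?_
      simp only [Pi.pow_apply, ← hw]
      rw [← hw2]
      push_cast
      field_simp
      ring
    have dU1 : HasDerivAt (fun t : ℝ => (1 - t ^ 2) * √(1 - t ^ 2)) (-(3 * t * w)) t := by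
      refine (du.mul dw).congr_deriv ?_
      simp only [← hw]
      rw [← hw2]
      field_simp
      ring
    have dA := d3.mul (dU2.const_mul (-(1 / 5)))
    have dg1 : HasDerivAt (fun t : ℝ => t * √(1 - t ^ 2) + Real.arcsin t) (2 * w) t := by
      refine (((hasDerivAt_id t).mul dw).add da).congr_deriv ?_
      simp only [id, ← hw]
      field_simp
      linear_combination -hw2
    have dg2 : HasDerivAt (fun t : ℝ => t * ((1 - t ^ 2) * √(1 - t ^ 2)) / 4 +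
        3 / 8 * (t * √(1 - t ^ 2) + Real.arcsin t)) (w ^ 3) t := by
      refine ((((hasDerivAt_id t).mul dU1).div_const 4).add (dg1.const_mul (3 / 8))).congr_deriv ?_
      simp only [id, ← hw]
      have e3 : w ^ 3 = w * (1 - t ^ 2) := by rw [← hw2]; ring
      rw [e3]
      ring
    have dG := ((((dg2.const_mul (1 / T ^ 2)).sub ((dg1.div_const 2).const_mul
      ((1 - T ^ 2) / T ^ 4))).add (da.const_mul ((1 - T ^ 2) ^ 2 / T ^ 6))).sub
      (dax.const_mul ((1 - T ^ 2) ^ 2 / T ^ 6 * e))).const_mul (2 * T / 5)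
    refine (dA.add dG).congr_deriv ?_
    simp only [← hw]
    have k1 : 1 - t ^ 2 = w ^ 2 := hw2.symm
    have k2 : q ^ 2 = (1 - T ^ 2) + T ^ 2 * w ^ 2 := by rw [hq2, hw2]; ring
    have k3 : e * (e / (q ^ 2 * w)) = (1 - T ^ 2) / (q ^ 2 * w) := by rw [← he2]; ring
    rw [k1]
    have key : 1 / T ^ 2 * w ^ 3 - (1 - T ^ 2) / T ^ 4 * (2 * w / 2) +
        (1 - T ^ 2) ^ 2 / T ^ 6 * (1 / w) -
        (1 - T ^ 2) ^ 2 / T ^ 6 * e * (e / (q ^ 2 * w)) = w ^ 5 / q ^ 2 := by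
      rw [mul_assoc ((1 - T ^ 2) ^ 2 / T ^ 6) e, k3]
      have hq2' : (1 - T ^ 2) + T ^ 2 * w ^ 2 ≠ 0 := by rw [← k2]; positivity
      rw [k2]
      field_simp
      ring
    rw [key]
    field_simp
    ring
  have hint : IntervalIntegrable (fun t : ℝ =>
      Real.log ((1 + T * t) / (1 - T * t)) * t * ((1 - t ^ 2) * √(1 - t ^ 2))) volume 0 1 := by
    refine ContinuousOn.intervalIntegrable ?_
    rw [uIcc_of_le zero_le_one]
    exact (hlogc.mul continuousOn_id).mul (by fun_prop)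
  rw [intervalIntegral.integral_eq_sub_of_hasDerivAt_of_le zero_le_one hcont hder hint]
  have e1 : √(1 - T ^ 2) * 1 / √(1 - T ^ 2 * 1 ^ 2) = 1 := by
    rw [one_pow, mul_one, mul_one, div_self he.ne']
  have e2 : (1 : ℝ) - 1 ^ 2 = 0 := by norm_num
  rw [e1, e2, Real.arcsin_one, Real.arcsin_zero, Real.sqrt_zero]
  simp only [mul_zero, zero_div, Real.arcsin_zero, zero_mul, add_zero, zero_add, sub_zero,
    div_one, Real.log_one, sub_self, zero_pow, ne_eq, OfNat.ofNat_ne_zero, not_false_eq_true]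
  ring

theorem bs_sinh (R : ℝ) : ∫ r in (0 : ℝ)..R, Real.sinh r ^ 5 =
    Real.cosh R * Real.sinh R ^ 4 / 5 - 4 / 15 * (Real.cosh R * Real.sinh R ^ 2) +
      8 / 15 * Real.cosh R - 8 / 15 := by
  have hder : ∀ r ∈ uIcc (0 : ℝ) R, HasDerivAt (fun r : ℝ =>
      Real.cosh r * Real.sinh r ^ 4 / 5 - 4 / 15 * (Real.cosh r * Real.sinh r ^ 2) +
        8 / 15 * Real.cosh r) (Real.sinh r ^ 5) r := by
    intro r _
    have d1 := ((Real.hasDerivAt_cosh r).mul ((Real.hasDerivAt_sinh r).pow 4)).div_const 5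
    have d2 := ((Real.hasDerivAt_cosh r).mul ((Real.hasDerivAt_sinh r).pow 2)).const_mul (4 / 15)
    have d3 := (Real.hasDerivAt_cosh r).const_mul (8 / 15)
    refine ((d1.sub d2).add d3).congr_deriv ?_
    have h := Real.cosh_sq r
    simp only [Pi.pow_apply]
    norm_num
    ring_nf
    rw [h]
    ring
  rw [intervalIntegral.integral_eq_sub_of_hasDerivAt hder
    (Continuous.intervalIntegrable (by fun_prop) _ _)]
  simp

/-- PROOF: closed forms, as in BalFive.lean; see BalFour.lean. `sig 6 = π³`. -/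
theorem bal_six {R : ℝ} (hR : 0 < R) :
    8 * Real.pi ^ 2 / 3 * (∫ t in (0 : ℝ)..1,
        Real.log ((1 + Real.tanh R * t) / (1 - Real.tanh R * t)) * t *
          ((1 - t ^ 2) * √(1 - t ^ 2))) * AR 6 1 R =
      sig 6 * VR 6 1 R := by
  have hsn : ∀ r : ℝ, sn 1 r = Real.sinh r := fun r => by simp [sn]
  have hs : 0 < Real.sinh R := Real.sinh_pos_iff.2 hR
  have hc := Real.cosh_pos R
  obtain ⟨hT0, hT1⟩ := bf_tanh hR
  have h := Real.cosh_sq R
  have hc2 : 1 - Real.tanh R ^ 2 = (1 / Real.cosh R) ^ 2 := by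
    rw [Real.tanh_eq_sinh_div_cosh]
    field_simp
    rw [h]
    ring
  rw [bs_int hT0 hT1, AR, VR, bs_sig, hc2, Real.sqrt_sq (by positivity)]
  simp only [hsn]
  norm_num
  rw [bs_sinh, Real.tanh_eq_sinh_div_cosh]
  field_simp
  ring

end Vale.Agent.P219.TPH
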