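import Vale.Agent.P219.TPH.Sn
import Vale.Agent.P219.TP.Basic
import Vale.Agent.P219.TP.Sq
import Vale.Agent.P219.TP.PairGe
import Vale.Agent.P219.TP.LinAlg

/-! # Consequences of the curvature bound (task H2) -/

open MeasureTheory Set Metric
open scoped ENNReal ContDiff

namespace Vale.Agent.P219.TPH

open Vale.Agent.P219.TP

variable {n : ℕ} {G : Geo n} {k : ℝ}

/-! ### Auxiliary lemmas -/

/-- Comparison of determinants. -/
theorem curvh_det_le (hn : 1 ≤ n) {B C : E n →L[ℝ] E n} (hC : C.det ≠ 0)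
    (hBC : ∀ ξ, ‖B ξ‖ ≤ ‖C ξ‖) : |B.det| ≤ |C.det| := by
  set e := C.toContinuousLinearEquivOfDetNeZero hC with he
  have heC : ∀ ξ, e ξ = C ξ := fun ξ => rfl
  set M : E n →L[ℝ] E n := B.comp (e.symm : E n →L[ℝ] E n) with hM
  have hMC : ∀ ξ, M (C ξ) = B ξ := by
    intro ξ
    rw [hM, ContinuousLinearMap.comp_apply, ← heC]
    congr 1
    exact e.symm_apply_apply ξ
  have hMle : ∀ ξ, ‖M ξ‖ ≤ ‖ξ‖ := by
    intro ξ
    have h1 : ξ = C (e.symm ξ) := by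
      rw [← heC]
      exact (e.apply_symm_apply ξ).symm
    rw [h1, hMC]
    exact hBC _
  have hdet : B.det = M.det * C.det := by
    have h1 : (B : E n →ₗ[ℝ] E n) = (M : E n →ₗ[ℝ] E n) ∘ₗ (C : E n →ₗ[ℝ] E n) := by
      ext1 ξ
      exact (hMC ξ).symm
    have h2 : LinearMap.det (B : E n →ₗ[ℝ] E n) =
        LinearMap.det (M : E n →ₗ[ℝ] E n) * LinearMap.det (C : E n →ₗ[ℝ] E n) := by
      rw [h1, LinearMap.det_comp]
    exact h2
  have hMd : |M.det| ≤ 1 := by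
    set y : E n := EuclideanSpace.single (⟨0, hn⟩ : Fin n) (1 : ℝ) with hy
    have hy1 : ‖y‖ = 1 := by rw [hy, PiLp.norm_single, norm_one]
    have h1 := linAlg_hadamard M hMle y
    have h2 := hMle y
    rw [hy1] at h1 h2
    rw [mul_one] at h1
    exact h1.trans h2
  rw [hdet, abs_mul]
  exact mul_le_of_le_one_left (abs_nonneg _) hMd

/-- The map which is the identity along `e` and `β` on the complement of `e`. -/
noncomputable def curvhL (e : E n) (β : ℝ) : E n →L[ℝ] E n := linAlgC e 0 1 β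

theorem curvhL_det (hn : 1 ≤ n) {e : E n} {β : ℝ} (he : ‖e‖ = 1) (hβ : 0 < β) :
    (curvhL e β).det = β ^ (n - 1) := by
  have h1 : (curvhL e β).det = LinearMap.det (β • LinearMap.transvection
      (β⁻¹ • ((1 - β) • (innerₗ (E n) e) - innerₗ (E n) 0) : Module.Dual ℝ (E n)) e) := rfl
  have h2 : (β⁻¹ • ((1 - β) • (innerₗ (E n) e) - innerₗ (E n) 0) : Module.Dual ℝ (E n)) e =
      β⁻¹ * ((1 - β) * inner ℝ e e - inner ℝ (0 : E n) e) := rfl
  rw [h1, LinearMap.det_smul, LinearMap.transvection.det, h2, real_inner_self_eq_norm_sq, he,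
    inner_zero_left]
  have h3 : Module.finrank ℝ (E n) = n := by simp
  rw [h3]
  obtain ⟨m, rfl⟩ : ∃ m, n = m + 1 := ⟨n - 1, by omega⟩
  rw [Nat.add_sub_cancel, pow_succ]
  field_simp
  ring

/-- Decomposition along `v`. -/
theorem curvh_decomp {v : E n} (hv : v ≠ 0) (β : ℝ) (hβ : 0 < β) (ξ : E n) :
    ∃ (c : ℝ) (z : E n), inner ℝ v z = 0 ∧ ξ = c • v + z ∧
      curvhL (‖v‖⁻¹ • v) β ξ = c • v + β • z := by
  have hv0 : ‖v‖ ≠ 0 := norm_ne_zero_iff.2 hv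
  refine ⟨‖v‖⁻¹ * inner ℝ (‖v‖⁻¹ • v) ξ, ξ - (‖v‖⁻¹ * inner ℝ (‖v‖⁻¹ • v) ξ) • v, ?_, ?_, ?_⟩
  · rw [inner_sub_right, real_inner_smul_right, real_inner_smul_left, real_inner_self_eq_norm_sq]
    field_simp
    ring
  · abel
  · rw [curvhL, linAlgC_apply _ _ _ hβ, inner_zero_left, sub_zero, one_mul, smul_smul, mul_comm]

theorem curvh_norm_add {v z a : E n} (c : ℝ) (ha : ‖a‖ = ‖v‖) (hz : inner ℝ a z = 0) :
    ‖c • a + z‖ ^ 2 = c ^ 2 * ‖v‖ ^ 2 + ‖z‖ ^ 2 := by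
  rw [← ha, ← real_inner_self_eq_norm_sq, inner_add_left, inner_add_right, inner_add_right,
    real_inner_smul_left, real_inner_smul_right, real_inner_smul_left, real_inner_smul_right, hz,
    real_inner_comm a z, hz, real_inner_self_eq_norm_sq, real_inner_self_eq_norm_sq]
  ring

theorem curvh_norm_T_smul (x v : E n) {s : ℝ} (hs : 0 < s) : ‖G.T x (s • v) v‖ = ‖v‖ := by
  have h := G.gauss x (s • v) (s • v)
  rw [real_inner_self_eq_norm_sq, real_inner_self_eq_norm_sq, map_smul, norm_smul, norm_smul,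
    mul_pow, mul_pow] at h
  have h1 : ‖s‖ ^ 2 ≠ 0 := pow_ne_zero 2 (norm_ne_zero_iff.2 hs.ne')
  have h2 := mul_left_cancel₀ h1 h
  exact (pow_left_inj₀ (norm_nonneg _) (norm_nonneg _) two_ne_zero).1 h2

theorem curvh_inner_T_smul (x : E n) {v z : E n} (hz : inner ℝ v z = 0) {s : ℝ} (hs : 0 < s) :
    inner ℝ (G.T x (s • v) v) (G.T x (s • v) z) = 0 := by
  have h := G.gauss x (s • v) z
  rw [map_smul, real_inner_smul_left, real_inner_smul_left, hz, mul_zero] at h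
  exact (mul_eq_zero.1 h).resolve_left hs.ne'

theorem rtau_nonneg (hG : Curv G k) {v : E n} (hv : v ≠ 0) (x : E n) : 0 ≤ rtau G k x v := by
  have h := hG.bonus x v 0 1 hv le_rfl zero_le_one
  simpa using h

/-- PROOF: `mono_sn` and `s → 0` (`T x 0 z = z`, `T_smooth`, `sn k (s r)/s → r`). -/
theorem norm_T_sn (hk : 0 ≤ k) (hG : Curv G k) {x v z : E n} (hv : v ≠ 0)
    (hz : inner ℝ v z = 0) : sn k ‖v‖ * ‖z‖ ≤ ‖v‖ * ‖G.T x v z‖ := by
  have _ := hk
  have _ := hv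
  have h1 : Filter.Tendsto (fun s : ℝ => sn k ‖v‖ * ‖G.T x (s • v) z‖) (nhdsWithin 0 (Ioi 0))
      (nhds (sn k ‖v‖ * ‖z‖)) := by
    have hc : Continuous fun s : ℝ => sn k ‖v‖ * ‖G.T x (s • v) z‖ := by
      have hT : Continuous fun s : ℝ => G.T x (s • v) :=
        G.T_smooth.continuous.comp (continuous_const.prodMk (continuous_id.smul continuous_const))
      exact continuous_const.mul (hT.clm_apply continuous_const).norm
    have h2 := hc.tendsto 0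
    simp only [zero_smul, G.T_zero] at h2
    exact h2.mono_left nhdsWithin_le_nhds
  have h2 : Filter.Tendsto (fun s : ℝ => (sn k (s * ‖v‖) / s) * ‖G.T x v z‖)
      (nhdsWithin 0 (Ioi 0)) (nhds (‖v‖ * ‖G.T x v z‖)) := by
    refine Filter.Tendsto.mul_const _ ?_
    have h30 : HasDerivAt (fun s : ℝ => s * ‖v‖) (1 * ‖v‖) 0 := (hasDerivAt_id' 0).mul_const ‖v‖
    have h3 : HasDerivAt (fun s : ℝ => sn k (s * ‖v‖)) (cs k (0 * ‖v‖) * (1 * ‖v‖)) 0 :=
      HasDerivAt.comp (h₂ := sn k) (h := fun s : ℝ => s * ‖v‖) 0 (hasDerivAt_sn k (0 * ‖v‖)) h30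
    rw [zero_mul, cs_zero, one_mul, one_mul, hasDerivAt_iff_tendsto_slope] at h3
    have h4 := h3.mono_left (nhdsWithin_mono (0 : ℝ) (fun s (hs : s ∈ Ioi (0 : ℝ)) =>
      (ne_of_gt hs : s ∈ ({0}ᶜ : Set ℝ))))
    refine h4.congr' ?_
    filter_upwards [self_mem_nhdsWithin] with s _
    rw [slope_def_field, zero_mul, sn_zero, sub_zero, sub_zero]
  refine le_of_tendsto_of_tendsto h1 h2 ?_
  have h5 : Ioc (0 : ℝ) 1 ∈ nhdsWithin (0 : ℝ) (Ioi 0) := Ioc_mem_nhdsGT zero_lt_one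
  filter_upwards [h5] with s hs
  have h6 := hG.mono_sn x v z s hz hs.1 hs.2
  rw [div_mul_eq_mul_div, le_div_iff₀ hs.1]
  linarith

/-- Monotonicity of the Jacobian, Bishop type. PROOF: `S = T x (s v)`, `T = T x v`; the linear map
`Q` with `Q (T v) = S v` and `Q (T z) = (s sn r / sn (s r)) S z` for `z ⟂ v` does not increase norms
(Gauss lemma: `T z ⟂ T v`, `S z ⟂ S v`), so `|det Q| ≤ 1`, and
`det Q = (s sn r / sn (s r))^(n-1) det S / det T`. -/
theorem jac_ratio (hn : 1 ≤ n) (hk : 0 ≤ k) (hG : Curv G k) {x v : E n} (hv : v ≠ 0) {s : ℝ}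
    (h0 : 0 < s) (h1 : s ≤ 1) :
    |(G.T x (s • v)).det| * (s * sn k ‖v‖) ^ (n - 1) ≤
      |(G.T x v).det| * sn k (s * ‖v‖) ^ (n - 1) := by
  have hv0 : 0 < ‖v‖ := norm_pos_iff.2 hv
  have hsn : 0 < sn k ‖v‖ := sn_pos hk hv0
  have hsns : 0 < sn k (s * ‖v‖) := sn_pos hk (mul_pos h0 hv0)
  set β : ℝ := s * sn k ‖v‖ / sn k (s * ‖v‖) with hβ
  have hβ0 : 0 < β := div_pos (mul_pos h0 hsn) hsns
  have he : ‖‖v‖⁻¹ • v‖ = 1 := by
    rw [norm_smul, norm_inv, norm_norm, inv_mul_cancel₀ hv0.ne']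
  have h2 := curvh_det_le hn (B := (G.T x (s • v)).comp (curvhL (‖v‖⁻¹ • v) β)) (C := G.T x v)
    (G.det_T_ne x v) (by
      intro ξ
      obtain ⟨c, z, hz, hξ, hL⟩ := curvh_decomp hv β hβ0 ξ
      rw [ContinuousLinearMap.comp_apply, hL, hξ, map_add, map_add, map_smul, map_smul, map_smul]
      have h3 : ‖c • G.T x (s • v) v + β • G.T x (s • v) z‖ ^ 2 =
          c ^ 2 * ‖v‖ ^ 2 + ‖β • G.T x (s • v) z‖ ^ 2 :=
        curvh_norm_add c (curvh_norm_T_smul x v h0) (by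
          rw [real_inner_smul_right, curvh_inner_T_smul x hz h0, mul_zero])
      have h4 : ‖c • G.T x v v + G.T x v z‖ ^ 2 = c ^ 2 * ‖v‖ ^ 2 + ‖G.T x v z‖ ^ 2 := by
        have e1 := curvh_norm_T_smul (G := G) x v one_pos
        have e2 := curvh_inner_T_smul (G := G) x hz one_pos
        rw [one_smul] at e1 e2
        exact curvh_norm_add c e1 e2
      have h5 : ‖β • G.T x (s • v) z‖ ≤ ‖G.T x v z‖ := by
        rw [norm_smul, Real.norm_eq_abs, abs_of_pos hβ0, hβ, div_mul_eq_mul_div, div_le_iff₀ hsns]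
        have := hG.mono_sn x v z s hz h0 h1
        linarith
      have h6 := pow_le_pow_left₀ (norm_nonneg _) h5 2
      exact le_of_sq_le_sq (by rw [h3, h4]; linarith) (norm_nonneg _))
  have h3 : ((G.T x (s • v)).comp (curvhL (‖v‖⁻¹ • v) β)).det =
      (G.T x (s • v)).det * β ^ (n - 1) := by
    rw [← curvhL_det hn he hβ0]
    unfold ContinuousLinearMap.det
    rw [ContinuousLinearMap.toLinearMap_comp, LinearMap.det_comp]
  rw [h3, abs_mul, abs_of_pos (pow_pos hβ0 _), hβ, div_pow, mul_div_assoc',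
    div_le_iff₀ (pow_pos hsns _)] at h2
  exact h2

theorem sn_le_J (hn : 1 ≤ n) (hk : 0 ≤ k) (hG : Curv G k) {x v : E n} (hv : v ≠ 0) :
    sn k ‖v‖ ^ (n - 1) ≤ ‖v‖ ^ (n - 1) * |(G.T x v).det| := by
  have hv0 : 0 < ‖v‖ := norm_pos_iff.2 hv
  have hsn : 0 < sn k ‖v‖ := sn_pos hk hv0
  set β : ℝ := sn k ‖v‖ / ‖v‖ with hβ
  have hβ0 : 0 < β := div_pos hsn hv0
  have he : ‖‖v‖⁻¹ • v‖ = 1 := by
    rw [norm_smul, norm_inv, norm_norm, inv_mul_cancel₀ hv0.ne']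
  have h2 := curvh_det_le hn (B := curvhL (‖v‖⁻¹ • v) β) (C := G.T x v)
    (G.det_T_ne x v) (by
      intro ξ
      obtain ⟨c, z, hz, hξ, hL⟩ := curvh_decomp hv β hβ0 ξ
      rw [hL, hξ, map_add, map_smul]
      have h3 : ‖c • v + β • z‖ ^ 2 = c ^ 2 * ‖v‖ ^ 2 + ‖β • z‖ ^ 2 :=
        curvh_norm_add c rfl (by rw [real_inner_smul_right, hz, mul_zero])
      have h4 : ‖c • G.T x v v + G.T x v z‖ ^ 2 = c ^ 2 * ‖v‖ ^ 2 + ‖G.T x v z‖ ^ 2 := by
        have e1 := curvh_norm_T_smul (G := G) x v one_pos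
        have e2 := curvh_inner_T_smul (G := G) x hz one_pos
        rw [one_smul] at e1 e2
        exact curvh_norm_add c e1 e2
      have h5 : ‖β • z‖ ≤ ‖G.T x v z‖ := by
        rw [norm_smul, Real.norm_eq_abs, abs_of_pos hβ0, hβ, div_mul_eq_mul_div, div_le_iff₀ hv0]
        have := norm_T_sn (x := x) hk hG hv hz
        linarith
      have h6 := pow_le_pow_left₀ (norm_nonneg _) h5 2
      exact le_of_sq_le_sq (by rw [h3, h4]; linarith) (norm_nonneg _))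
  rw [curvhL_det hn he hβ0, abs_of_pos (pow_pos hβ0 _), hβ, div_pow,
    div_le_iff₀ (pow_pos hv0 _)] at h2
  linarith

/-- `det T > 0`. PROOF: continuous, nowhere zero, `= 1` at `v = 0`. -/
theorem det_T_pos (G : Geo n) (x v : E n) : 0 < (G.T x v).det := by
  have hc : Continuous fun t : ℝ => (G.T x (t • v)).det := by
    have hT : Continuous fun s : ℝ => G.T x (s • v) :=
      G.T_smooth.continuous.comp (continuous_const.prodMk (continuous_id.smul continuous_const))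
    exact ContinuousLinearMap.continuous_det.comp hT
  have h0 : (G.T x ((0 : ℝ) • v)).det = 1 := by
    have h1 : G.T x ((0 : ℝ) • v) = ContinuousLinearMap.id ℝ (E n) := by
      ext1 z
      rw [zero_smul, G.T_zero, ContinuousLinearMap.id_apply]
    rw [h1]
    exact LinearMap.det_id
  by_contra hcon
  have h1 : (G.T x ((1 : ℝ) • v)).det ≤ 0 := by
    rw [one_smul]
    exact not_lt.1 hcon
  have h2 : (0 : ℝ) ∈ (fun t : ℝ => (G.T x (t • v)).det) '' Icc 0 1 := by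
    refine intermediate_value_Icc' zero_le_one hc.continuousOn ⟨h1, ?_⟩
    show (0 : ℝ) ≤ (G.T x ((0 : ℝ) • v)).det
    rw [h0]
    exact zero_le_one
  obtain ⟨t, _, ht⟩ := h2
  exact G.det_T_ne x (t • v) ht

theorem jac_nonneg (x u : E n) {σ τ : ℝ} (h : σ ≤ τ) : 0 ≤ jac G x u σ τ :=
  mul_nonneg (abs_nonneg _) (pow_nonneg (sub_nonneg.2 h) _)

theorem jac_symm (x : E n) {u : E n} {σ τ : ℝ} (h : σ < τ) :
    jac G x u σ τ = |(G.T (G.ex x (τ • u)) ((σ - τ) • G.V τ x u)).det| * (τ - σ) ^ (n - 1) := by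
  have _ := h
  unfold jac
  rw [← PairGe.lg_geod, ← PairGe.lg_geod, G.J_symm]

/-- Monotonicity of the Jacobian along a ray. -/
theorem curvh_ray (hn : 1 ≤ n) (hk : 0 ≤ k) (hG : Curv G k) (p : E n) {w : E n}
    (hw : ‖w‖ = 1) {a b : ℝ} (ha : 0 < a) (hab : a ≤ b) :
    |(G.T p (a • w)).det| * a ^ (n - 1) * sn k b ^ (n - 1) ≤
      |(G.T p (b • w)).det| * b ^ (n - 1) * sn k a ^ (n - 1) := by
  have hb : 0 < b := ha.trans_le hab
  have hw0 : w ≠ 0 := by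
    intro h
    rw [h, norm_zero] at hw
    exact zero_ne_one hw
  have h1 := jac_ratio hn hk hG (x := p) (v := b • w) (smul_ne_zero hb.ne' hw0)
    (s := a / b) (div_pos ha hb) ((div_le_one hb).2 hab)
  rw [smul_smul, div_mul_cancel₀ _ hb.ne', norm_smul, hw, mul_one, Real.norm_eq_abs,
    abs_of_pos hb, div_mul_cancel₀ _ hb.ne'] at h1
  have h2 := mul_le_mul_of_nonneg_right h1 (pow_nonneg hb.le (n - 1))
  calc |(G.T p (a • w)).det| * a ^ (n - 1) * sn k b ^ (n - 1)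
      = |(G.T p (a • w)).det| * (a / b * sn k b) ^ (n - 1) * b ^ (n - 1) := by
        rw [mul_assoc, mul_assoc, ← mul_pow, ← mul_pow]
        congr 2
        field_simp
    _ ≤ _ := h2
    _ = _ := by ring

theorem jac_mono_right (hn : 1 ≤ n) (hk : 0 ≤ k) (hG : Curv G k) (x : E n) {u : E n}
    (hu : ‖u‖ = 1) {σ τ τ' : ℝ} (h : σ < τ) (h' : τ ≤ τ') :
    jac G x u σ τ * sn k (τ' - σ) ^ (n - 1) ≤ jac G x u σ τ' * sn k (τ - σ) ^ (n - 1) :=
  curvh_ray hn hk hG _ (by rw [G.norm_V, hu]) (sub_pos.2 h) (sub_le_sub_right h' σ)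

theorem jac_mono_left (hn : 1 ≤ n) (hk : 0 ≤ k) (hG : Curv G k) (x : E n) {u : E n}
    (hu : ‖u‖ = 1) {σ' σ τ : ℝ} (h : σ < τ) (h' : σ' ≤ σ) :
    jac G x u σ τ * sn k (τ - σ') ^ (n - 1) ≤ jac G x u σ' τ * sn k (τ - σ) ^ (n - 1) := by
  rw [jac_symm x h, jac_symm x (h'.trans_lt h)]
  have h1 := curvh_ray hn hk hG (G.ex x (τ • u)) (w := -G.V τ x u)
    (by rw [norm_neg, G.norm_V, hu]) (sub_pos.2 h) (sub_le_sub_left h' τ)
  rwa [smul_neg, smul_neg, ← neg_smul, ← neg_smul, neg_sub, neg_sub] at h1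

theorem sn_le_jac (hn : 1 ≤ n) (hk : 0 ≤ k) (hG : Curv G k) (x : E n) {u : E n} (hu : ‖u‖ = 1)
    {σ τ : ℝ} (h : σ < τ) : sn k (τ - σ) ^ (n - 1) ≤ jac G x u σ τ := by
  have hts : 0 < τ - σ := sub_pos.2 h
  have hn1 : ‖(τ - σ) • G.V σ x u‖ = τ - σ := by
    rw [norm_smul, G.norm_V, hu, mul_one, Real.norm_eq_abs, abs_of_pos hts]
  have h1 := sn_le_J hn hk hG (x := G.ex x (σ • u)) (v := (τ - σ) • G.V σ x u)
    (norm_ne_zero_iff.1 (by rw [hn1]; exact hts.ne'))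
  rw [hn1] at h1
  unfold jac
  linarith

/-- The bonus along a geodesic. -/
theorem bonus_line (hk : 0 ≤ k) (hG : Curv G k) (x : E n) {u : E n} (hu : ‖u‖ = 1) {σ τ a b : ℝ}
    (h : σ < τ) (ha : 0 ≤ a) (hb : 0 ≤ b) :
    2 * a * b / sn k (τ - σ) * (jac G x u σ τ - sn k (τ - σ) ^ (n - 1)) ≤
      (b ^ 2 * rtau G k (G.ex x (σ • u)) (G.lg (G.ex x (σ • u)) (G.ex x (τ • u))) +
        a ^ 2 * rtau G k (G.ex x (τ • u)) (G.lg (G.ex x (τ • u)) (G.ex x (σ • u)))) /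
        (τ - σ) * jac G x u σ τ := by
  have hts : 0 < τ - σ := sub_pos.2 h
  have hsn : 0 < sn k (τ - σ) := sn_pos hk hts
  have hn1 : ‖G.lg (G.ex x (σ • u)) (G.ex x (τ • u))‖ = τ - σ := by
    rw [PairGe.lg_geod, norm_smul, G.norm_V, hu, mul_one, Real.norm_eq_abs, abs_of_pos hts]
  have h1 := hG.bonus (G.ex x (σ • u)) (G.lg (G.ex x (σ • u)) (G.ex x (τ • u))) a b
    (norm_ne_zero_iff.1 (by rw [hn1]; exact hts.ne')) ha hb
  rw [hn1, G.ex_lg] at h1
  set R : ℝ := b ^ 2 * rtau G k (G.ex x (σ • u)) (G.lg (G.ex x (σ • u)) (G.ex x (τ • u))) +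
        a ^ 2 * rtau G k (G.ex x (τ • u)) (G.lg (G.ex x (τ • u)) (G.ex x (σ • u))) with hR
  set J : ℝ := |(G.T (G.ex x (σ • u)) (G.lg (G.ex x (σ • u)) (G.ex x (τ • u)))).det| with hJ
  have hJ0 : 0 < J := abs_pos.2 (G.det_T_ne _ _)
  have hjac : jac G x u σ τ = J * (τ - σ) ^ (n - 1) := by
    rw [hJ, PairGe.lg_geod]
    rfl
  have hP : 0 < (τ - σ) ^ (n - 1) := pow_pos hts _
  have h2 := mul_le_mul_of_nonneg_right h1 (div_nonneg (mul_nonneg hJ0.le hP.le) hts.le)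
  rw [hjac]
  calc 2 * a * b / sn k (τ - σ) * (J * (τ - σ) ^ (n - 1) - sn k (τ - σ) ^ (n - 1))
      = 2 * a * b * ((τ - σ) / sn k (τ - σ)) * (1 - (sn k (τ - σ) / (τ - σ)) ^ (n - 1) / J) *
          (J * (τ - σ) ^ (n - 1) / (τ - σ)) := by
        rw [div_pow]
        field_simp
    _ ≤ _ := h2
    _ = _ := by ring

end Vale.Agent.P219.TPH
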