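import Vale.Agent.P219.TPH.CurvH
import Vale.Agent.P219.TP.Taylor
import Vale.Agent.P219.TP.VolExp
import Vale.Agent.P219.TP.Conv

/-! # Uniform expansion of the Jacobian determinant (task H5) -/

open MeasureTheory Set Metric
open scoped ENNReal ContDiff

namespace Vale.Agent.P219.TPH

open Vale.Agent.P219.TP

variable {n : ℕ}

/-! ### Auxiliary lemmas -/

theorem detExp_smooth (G : Geo n) :
    ContDiff ℝ ∞ (fun z : E n × E n => (G.T z.1 z.2).det) :=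
  volExp_contDiff_det.comp G.T_smooth

theorem detExp_log_smooth (G : Geo n) :
    ContDiff ℝ ∞ (fun z : E n × E n => Real.log (G.T z.1 z.2).det) :=
  (detExp_smooth G).log fun z => (det_T_pos G z.1 z.2).ne'

theorem detExp_log_diff (G : Geo n) (x v : E n) :
    HasFDerivAt (fun u : E n => Real.log (G.T x u).det)
      (fderiv ℝ (fun u : E n => Real.log (G.T x u).det) v) v := by
  have h1 : ContDiff ℝ ∞ (fun u : E n => Real.log (G.T x u).det) :=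
    (detExp_log_smooth G).comp (contDiff_const.prodMk contDiff_id)
  exact (h1.differentiable (by simp) v).hasFDerivAt

theorem detExp_slice (G : Geo n) (x v : E n) :
    fderiv ℝ (fun u : E n => Real.log (G.T x u).det) v v =
      fderiv ℝ (fun z : E n × E n => Real.log (G.T z.1 z.2).det) (x, v) (0, v) := by
  have h1 := ((detExp_log_smooth G).differentiable (by simp) (x, v)).hasFDerivAt
  have h2 : HasFDerivAt (fun u : E n => ((x, u) : E n × E n))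
      (ContinuousLinearMap.inr ℝ (E n) (E n)) v := hasFDerivAt_prodMk_right x v
  have h3 : HasFDerivAt (fun u : E n => Real.log (G.T x u).det)
      ((fderiv ℝ (fun z : E n × E n => Real.log (G.T z.1 z.2).det) (x, v)).comp
        (ContinuousLinearMap.inr ℝ (E n) (E n))) v := h1.comp v h2
  rw [h3.fderiv]
  rfl

theorem detExp_slice_cont (G : Geo n) :
    Continuous fun z : E n × E n =>
      fderiv ℝ (fun u : E n => Real.log (G.T z.1 u).det) z.2 z.2 := by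
  have e : (fun z : E n × E n => fderiv ℝ (fun u : E n => Real.log (G.T z.1 u).det) z.2 z.2) =
      fun z : E n × E n =>
        fderiv ℝ (fun z : E n × E n => Real.log (G.T z.1 z.2).det) z (0, z.2) := by
    funext z
    exact detExp_slice G z.1 z.2
  rw [e]
  exact ((detExp_log_smooth G).continuous_fderiv (by simp)).clm_apply
    (continuous_const.prodMk continuous_snd)

/-- the argument of `Φ` is always in the domain of smoothness -/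
theorem detExp_th_smooth (G : Geo n) {Φ : ℝ × ℝ → ℝ} {δ : ℝ} (hδ : 0 < δ)
    (hΦ : ContDiffOn ℝ ∞ Φ {p | -δ < p.1}) :
    ContDiff ℝ ∞ (fun z : E n × E n × E n => th Φ 1 z.2.1 (G.lg z.1 z.2.2)) := by
  have hlg : ContDiff ℝ ∞ (fun z : E n × E n × E n => G.lg z.1 z.2.2) :=
    G.lg_smooth.comp (contDiff_fst.prodMk (contDiff_snd.comp contDiff_snd))
  have hν : ContDiff ℝ ∞ (fun z : E n × E n × E n => z.2.1) := contDiff_fst.comp contDiff_snd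
  have ha : ContDiff ℝ ∞ (fun z : E n × E n × E n => ‖G.lg z.1 z.2.2‖ ^ 2 / (1 : ℝ) ^ 2) :=
    (hlg.norm_sq ℝ).div_const _
  have hb : ContDiff ℝ ∞ (fun z : E n × E n × E n => inner ℝ (G.lg z.1 z.2.2) z.2.1 / (1 : ℝ)) :=
    (hlg.inner ℝ hν).div_const _
  unfold th
  refine contDiff_const.mul ?_
  rw [← contDiffOn_univ]
  refine hΦ.comp (ha.prodMk hb).contDiffOn fun z _ => ?_
  change -δ < ‖G.lg z.1 z.2.2‖ ^ 2 / (1 : ℝ) ^ 2
  have : 0 ≤ ‖G.lg z.1 z.2.2‖ ^ 2 / (1 : ℝ) ^ 2 := by positivity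
  linarith

/-- The quotient of determinants. -/
noncomputable def detExpf (G : Geo n) (Φ : ℝ × ℝ → ℝ) (q : ℝ × (E n × E n × E n)) : ℝ :=
  (G.T q.2.1 ((1 - q.1 * th Φ 1 q.2.2.1 (G.lg q.2.1 q.2.2.2)) • G.lg q.2.1 q.2.2.2)).det /
    (G.T q.2.1 (G.lg q.2.1 q.2.2.2)).det

theorem detExpf_smooth (G : Geo n) {Φ : ℝ × ℝ → ℝ} {δ : ℝ} (hδ : 0 < δ)
    (hΦ : ContDiffOn ℝ ∞ Φ {p | -δ < p.1}) : ContDiff ℝ ∞ (detExpf G Φ) := by
  have hp : ContDiff ℝ ∞ (fun q : ℝ × (E n × E n × E n) => q.2.1) :=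
    contDiff_fst.comp contDiff_snd
  have hx : ContDiff ℝ ∞ (fun q : ℝ × (E n × E n × E n) => q.2.2.2) :=
    contDiff_snd.comp (contDiff_snd.comp contDiff_snd)
  have hlg : ContDiff ℝ ∞ (fun q : ℝ × (E n × E n × E n) => G.lg q.2.1 q.2.2.2) :=
    G.lg_smooth.comp (hp.prodMk hx)
  have hth : ContDiff ℝ ∞ (fun q : ℝ × (E n × E n × E n) =>
      th Φ 1 q.2.2.1 (G.lg q.2.1 q.2.2.2)) := (detExp_th_smooth G hδ hΦ).comp contDiff_snd
  have harg : ContDiff ℝ ∞ (fun q : ℝ × (E n × E n × E n) =>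
      (1 - q.1 * th Φ 1 q.2.2.1 (G.lg q.2.1 q.2.2.2)) • G.lg q.2.1 q.2.2.2) :=
    (contDiff_const.sub (contDiff_fst.mul hth)).smul hlg
  have h1 := (detExp_smooth G).comp (hp.prodMk harg)
  have h2 := (detExp_smooth G).comp (hp.prodMk hlg)
  exact h1.div h2 fun q => (det_T_pos G _ _).ne'

theorem detExpf_zero (G : Geo n) (Φ : ℝ × ℝ → ℝ) (z : E n × E n × E n) :
    detExpf G Φ (0, z) = 1 := by
  have h : (G.T z.1 (G.lg z.1 z.2.2)).det ≠ 0 := (det_T_pos G _ _).ne'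
  simp [detExpf, h]

theorem detExpf_deriv (G : Geo n) {Φ : ℝ × ℝ → ℝ} {δ : ℝ} (hδ : 0 < δ)
    (hΦ : ContDiffOn ℝ ∞ Φ {p | -δ < p.1}) (p ν x : E n) :
    fderiv ℝ (detExpf G Φ) (0, (p, ν, x)) (1, 0) =
      -(th Φ 1 ν (G.lg p x) *
          fderiv ℝ (fun u => Real.log (G.T p u).det) (G.lg p x) (G.lg p x)) := by
  obtain ⟨θ, hθ⟩ : ∃ θ, θ = th Φ 1 ν (G.lg p x) := ⟨_, rfl⟩
  obtain ⟨v, hv⟩ : ∃ v, v = G.lg p x := ⟨_, rfl⟩
  rw [← hθ, ← hv]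
  have h1 : HasDerivAt (fun t : ℝ => (1 - t * θ) • v) ((-θ) • v) 0 := by
    have h := (((hasDerivAt_id (0 : ℝ)).mul_const θ).const_sub 1).smul_const v
    simpa using h
  have h2 : HasDerivAt (fun t : ℝ => Real.log (G.T p ((1 - t * θ) • v)).det)
      (fderiv ℝ (fun u => Real.log (G.T p u).det) v ((-θ) • v)) 0 := by
    have h := detExp_log_diff G p v
    exact HasFDerivAt.comp_hasDerivAt_of_eq (0 : ℝ) h h1 (by simp)
  have h3 : HasDerivAt (fun t : ℝ => detExpf G Φ (t, (p, ν, x)))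
      (fderiv ℝ (fun u => Real.log (G.T p u).det) v ((-θ) • v)) 0 := by
    have h := (h2.sub_const (Real.log (G.T p v).det)).exp
    have e : (fun t : ℝ => detExpf G Φ (t, (p, ν, x))) = fun t : ℝ =>
        Real.exp (Real.log (G.T p ((1 - t * θ) • v)).det - Real.log (G.T p v).det) := by
      funext t
      rw [Real.exp_sub, Real.exp_log (det_T_pos G _ _), Real.exp_log (det_T_pos G _ _), hθ, hv]
      rfl
    rw [e]
    simpa using h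
  have hd : HasFDerivAt (detExpf G Φ) (fderiv ℝ (detExpf G Φ) (0, (p, ν, x)))
      (0, (p, ν, x)) :=
    ((detExpf_smooth G hδ hΦ).differentiable (by simp) _).hasFDerivAt
  have h4 : HasDerivAt (fun t : ℝ => ((t, (p, ν, x)) : ℝ × (E n × E n × E n))) (1, 0) 0 :=
    (hasDerivAt_id (0 : ℝ)).prodMk (hasDerivAt_const _ _)
  have h5 := hd.comp_hasDerivAt (0 : ℝ) h4
  have h6 := h5.unique h3
  rw [h6, map_smul, smul_eq_mul]
  ring

/-- The compact set of parameters. -/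
theorem detExp_compact (G : Geo n) (o : E n) (ρ : ℝ) :
    IsCompact ({p | ‖G.lg o p‖ ≤ ρ} ×ˢ (sphere (0 : E n) 1 ×ˢ
      {x | ‖G.lg o x‖ ≤ ρ}) : Set (E n × E n × E n)) :=
  (G.isCompact_gball o ρ).prod ((isCompact_sphere 0 1).prod (G.isCompact_gball o ρ))

/-- PROOF: `taylor_uniform` for `f(t,(p,ν,x)) = log det T(p,(1-tθ)v) - log det T(p,v)`,
`v = lg p x`, `θ = th Φ 1 ν v` (or for the quotient), smooth near `{0} × compact`. -/
theorem det_exp (G : Geo n) (o : E n) (ρ : ℝ) {Φ : ℝ × ℝ → ℝ} {δ : ℝ} (hδ : 0 < δ)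
    (hΦ : ContDiffOn ℝ ∞ Φ {p | -δ < p.1}) :
    ∃ C t₀ : ℝ, 0 ≤ C ∧ 0 < t₀ ∧ ∀ p ν x t, ‖G.lg o p‖ ≤ ρ → ‖ν‖ = 1 → ‖G.lg o x‖ ≤ ρ →
      0 ≤ t → t ≤ t₀ →
      |(G.T p ((1 - t * th Φ 1 ν (G.lg p x)) • G.lg p x)).det| / |(G.T p (G.lg p x)).det| ≤
        1 - t * (th Φ 1 ν (G.lg p x) *
          fderiv ℝ (fun u => Real.log (G.T p u).det) (G.lg p x) (G.lg p x)) + C * t ^ 2 := by
  obtain ⟨C, t₀, hC, ht₀, h⟩ := taylor_uniform isOpen_univ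
    (detExpf_smooth G hδ hΦ).contDiffOn (detExp_compact G o ρ) (fun z _ => mem_univ _)
  refine ⟨C, t₀, hC, ht₀, fun p ν x t hp hν hx h0 h1 => ?_⟩
  have h2 := h (p, ν, x) ⟨hp, by simpa using hν, hx⟩ t ⟨h0, h1⟩
  rw [detExpf_zero, detExpf_deriv G hδ hΦ p ν x] at h2
  have h3 := (abs_le.1 h2).2
  rw [abs_of_pos (det_T_pos G _ _), abs_of_pos (det_T_pos G _ _)]
  have h4 : detExpf G Φ (t, (p, ν, x)) =
      (G.T p ((1 - t * th Φ 1 ν (G.lg p x)) • G.lg p x)).det / (G.T p (G.lg p x)).det := rfl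
  rw [← h4]
  linarith

/-- Local boundedness of `rtau`. PROOF: `u ↦ log det T(x,u)` is smooth in `(x,u)`; `ctr_bounds`. -/
theorem rtau_bound (G : Geo n) {k : ℝ} (hk : 0 ≤ k) {K : Set (E n)} (hK : IsCompact K) (L : ℝ) :
    ∃ C : ℝ, 0 ≤ C ∧ ∀ x ∈ K, ∀ v, ‖v‖ ≤ L → |rtau G k x v| ≤ C := by
  obtain ⟨C, hC⟩ := (hK.prod (isCompact_closedBall (0 : E n) L)).exists_bound_of_continuousOn
    (detExp_slice_cont G).continuousOn
  refine ⟨|C| + |(n : ℝ) - 1| * (1 + cs k L), ?_, fun x hx v hv => ?_⟩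
  · have := one_le_cs k L
    positivity
  have h1 : |fderiv ℝ (fun u : E n => Real.log (G.T x u).det) v v| ≤ |C| :=
    (hC (x, v) ⟨hx, by simpa using hv⟩).trans (le_abs_self C)
  have hL := one_le_cs k L
  have h2 : |1 - ‖v‖ * cs k ‖v‖ / sn k ‖v‖| ≤ 1 + cs k L := by
    rcases eq_or_ne v 0 with rfl | hv0
    · simp only [norm_zero, zero_mul, zero_div, sub_zero, abs_one]
      linarith
    · have hr : 0 < ‖v‖ := norm_pos_iff.2 hv0
      obtain ⟨h3, h4⟩ := ctr_bounds hk hr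
      have h5 : cs k ‖v‖ ≤ cs k L := cs_mono hk hr.le hv
      rw [abs_le]
      constructor <;> linarith
  unfold rtau
  refine (abs_add_le _ _).trans (add_le_add h1 ?_)
  rw [abs_mul]
  exact mul_le_mul_of_nonneg_left h2 (abs_nonneg _)

/-! ### Products of expansions -/

theorem detExp_mul {x y t a b A B C D : ℝ} (ht : 0 ≤ t) (ht1 : t ≤ 1) (hx : 0 ≤ x) (hy : 0 ≤ y)
    (hC : 0 ≤ C) (hD : 0 ≤ D) (hA : |a| ≤ A) (hB : |b| ≤ B) (h1 : x ≤ 1 + t * a + C * t ^ 2)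
    (h2 : y ≤ 1 + t * b + D * t ^ 2) :
    x * y ≤ 1 + t * (a + b) + (A * B + C + D + A * D + B * C + C * D) * t ^ 2 := by
  have hA0 : 0 ≤ A := (abs_nonneg a).trans hA
  have hB0 : 0 ≤ B := (abs_nonneg b).trans hB
  have h3 : x * y ≤ (1 + t * a + C * t ^ 2) * (1 + t * b + D * t ^ 2) :=
    mul_le_mul h1 h2 hy (hx.trans h1)
  have e : (1 + t * a + C * t ^ 2) * (1 + t * b + D * t ^ 2) = 1 + t * (a + b) +
      (a * b + C + D) * t ^ 2 + (t * (a * D)) * t ^ 2 + (t * (b * C)) * t ^ 2 +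
        (t ^ 2 * (C * D)) * t ^ 2 := by ring
  have i1 : a * b ≤ A * B := by
    refine (le_abs_self _).trans ?_
    rw [abs_mul]
    exact mul_le_mul hA hB (abs_nonneg _) hA0
  have i2 : t * (a * D) ≤ A * D := by
    have j1 : a * D ≤ A * D := mul_le_mul_of_nonneg_right ((le_abs_self a).trans hA) hD
    have j2 : 0 ≤ A * D := mul_nonneg hA0 hD
    calc t * (a * D) ≤ t * (A * D) := mul_le_mul_of_nonneg_left j1 ht
      _ ≤ 1 * (A * D) := mul_le_mul_of_nonneg_right ht1 j2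
      _ = A * D := one_mul _
  have i3 : t * (b * C) ≤ B * C := by
    have j1 : b * C ≤ B * C := mul_le_mul_of_nonneg_right ((le_abs_self b).trans hB) hC
    have j2 : 0 ≤ B * C := mul_nonneg hB0 hC
    calc t * (b * C) ≤ t * (B * C) := mul_le_mul_of_nonneg_left j1 ht
      _ ≤ 1 * (B * C) := mul_le_mul_of_nonneg_right ht1 j2
      _ = B * C := one_mul _
  have i4 : t ^ 2 * (C * D) ≤ C * D := by
    have j2 : 0 ≤ C * D := mul_nonneg hC hD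
    have j3 : t ^ 2 ≤ 1 := pow_le_one₀ ht ht1
    calc t ^ 2 * (C * D) ≤ 1 * (C * D) := mul_le_mul_of_nonneg_right j3 j2
      _ = C * D := one_mul _
  have ht2 : 0 ≤ t ^ 2 := sq_nonneg t
  have i5 : (a * b + C + D + t * (a * D) + t * (b * C) + t ^ 2 * (C * D)) * t ^ 2 ≤
      (A * B + C + D + A * D + B * C + C * D) * t ^ 2 :=
    mul_le_mul_of_nonneg_right (by linarith) ht2
  calc x * y ≤ _ := h3
    _ = 1 + t * (a + b) +
        (a * b + C + D + t * (a * D) + t * (b * C) + t ^ 2 * (C * D)) * t ^ 2 := by rw [e]; ring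
    _ ≤ _ := by linarith

theorem detExp_pow (m : ℕ) (A C : ℝ) (hA0 : 0 ≤ A) (hC : 0 ≤ C) : ∃ D : ℝ, 0 ≤ D ∧
    ∀ x t a : ℝ, 0 ≤ t → t ≤ 1 → 0 ≤ x → |a| ≤ A → x ≤ 1 + t * a + C * t ^ 2 →
      x ^ m ≤ 1 + t * ((m : ℝ) * a) + D * t ^ 2 := by
  induction m with
  | zero =>
    refine ⟨0, le_rfl, fun x t a _ _ _ _ _ => ?_⟩
    simp
  | succ m ih =>
    obtain ⟨D, hD, ih⟩ := ih
    refine ⟨(m * A) * A + D + C + (m * A) * C + A * D + D * C, by positivity,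
      fun x t a h0 h1 hx ha hxa => ?_⟩
    have h2 := ih x t a h0 h1 hx ha hxa
    have h3 : |(m : ℝ) * a| ≤ m * A := by
      rw [abs_mul, abs_of_nonneg (Nat.cast_nonneg m)]
      exact mul_le_mul_of_nonneg_left ha (Nat.cast_nonneg m)
    have h4 := detExp_mul h0 h1 (pow_nonneg hx m) hx hD hC h3 ha h2 hxa
    rw [pow_succ]
    refine h4.trans (le_of_eq ?_)
    push_cast
    ring

/-- Combination of the three expansions. -/
theorem detExp_comb (m : ℕ) (M A B Cq Cd : ℝ) (hM : 0 ≤ M) (hA : 0 ≤ A) (hCq : 0 ≤ Cq)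
    (hCd : 0 ≤ Cd) : ∃ C : ℝ, 0 ≤ C ∧ ∀ t θ a b q D : ℝ, 0 ≤ t → t ≤ 1 → |θ| ≤ M → |a| ≤ A →
      |b| ≤ B → t * θ ≤ 1 → 0 ≤ q → 0 ≤ D → q ≤ 1 + t * a + Cq * t ^ 2 →
      D ≤ 1 + t * b + Cd * t ^ 2 →
      (1 - t * θ) * q ^ m * D ≤ 1 + t * (-θ + (m : ℝ) * a + b) + C * t ^ 2 := by
  obtain ⟨E1, hE1, h1⟩ := detExp_pow m A Cq hA hCq
  refine ⟨max 0 ((M + m * A) * B + (M * (m * A) + 0 + E1 + M * E1 + (m * A) * 0 + 0 * E1) + Cd +
    (M + m * A) * Cd + B * (M * (m * A) + 0 + E1 + M * E1 + (m * A) * 0 + 0 * E1) +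
    (M * (m * A) + 0 + E1 + M * E1 + (m * A) * 0 + 0 * E1) * Cd), le_max_left _ _,
    fun t θ a b q D h0 ht1 hθ ha hb htθ hq hD hq1 hD1 => ?_⟩
  have h2 := h1 q t a h0 ht1 hq ha hq1
  have h3 : |(m : ℝ) * a| ≤ m * A := by
    rw [abs_mul, abs_of_nonneg (Nat.cast_nonneg m)]
    exact mul_le_mul_of_nonneg_left ha (Nat.cast_nonneg m)
  have h4 : |(-θ)| ≤ M := by rwa [abs_neg]
  have h5 := detExp_mul (x := 1 - t * θ) (y := q ^ m) h0 ht1 (by linarith) (pow_nonneg hq m)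
    le_rfl hE1 h4 h3 (by linarith) h2
  have h6 : |(-θ) + (m : ℝ) * a| ≤ M + m * A := (abs_add_le _ _).trans (add_le_add h4 h3)
  have hx : 0 ≤ (1 - t * θ) * q ^ m := mul_nonneg (by linarith) (pow_nonneg hq m)
  have h7 := detExp_mul h0 ht1 hx hD (by positivity) hCd h6 hb h5 hD1
  refine h7.trans ?_
  have ht2 : 0 ≤ t ^ 2 := sq_nonneg t
  have h8 := mul_le_mul_of_nonneg_right (le_max_right 0 ((M + m * A) * B +
    (M * (m * A) + 0 + E1 + M * E1 + (m * A) * 0 + 0 * E1) + Cd +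
    (M + m * A) * Cd + B * (M * (m * A) + 0 + E1 + M * E1 + (m * A) * 0 + 0 * E1) +
    (M * (m * A) + 0 + E1 + M * E1 + (m * A) * 0 + 0 * E1) * Cd)) ht2
  linarith

theorem detExp_theta_nonneg {Φ : ℝ × ℝ → ℝ}
    (hΦ0 : ∀ r a : ℝ, 0 ≤ r → |a| ≤ 1 → 0 ≤ Φ (r ^ 2, r * a)) {v ν : E n} (hv : v ≠ 0)
    (hν : ‖ν‖ = 1) : 0 ≤ th Φ 1 ν v := by
  have hr : 0 < ‖v‖ := norm_pos_iff.2 hv
  have h1 : |inner ℝ v ν / ‖v‖| ≤ 1 := by
    rw [abs_div, abs_norm, div_le_one hr]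
    have := abs_real_inner_le_norm v ν
    rwa [hν, mul_one] at this
  have h2 := hΦ0 ‖v‖ (inner ℝ v ν / ‖v‖) hr.le h1
  rw [mul_div_cancel₀ _ hr.ne'] at h2
  simpa [th] using h2

theorem detExp_tri (G : Geo n) {o p x : E n} {ρ : ℝ} (hp : ‖G.lg o p‖ ≤ ρ)
    (hx : ‖G.lg o x‖ ≤ ρ) : ‖G.lg p x‖ ≤ 2 * ρ := by
  have h1 := G.lg_nonexp p x o
  have h2 := norm_le_norm_add_norm_sub' (G.lg p x) (G.lg p o)
  rw [G.norm_lg_comm x o] at h1
  rw [G.norm_lg_comm p o] at h2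
  linarith

/-- Scalar bounds for `bh`. -/
theorem detExp_bh {k : ℝ} (hk : 0 ≤ k) {L C₁ M t θ r : ℝ} (hC₁ : 0 ≤ C₁)
    (h1 : ∀ r u : ℝ, 0 < r → r ≤ L → 0 ≤ u → u ≤ 1 / 2 →
      sn k ((1 - u) * r) / sn k r ≤ 1 - u * (r * cs k r / sn k r) + C₁ * u ^ 2)
    (hr : 0 < r) (hrL : r ≤ L) (ht : 0 ≤ t) (hθ : 0 ≤ θ) (hθM : θ ≤ M) (hu : t * θ ≤ 1 / 2) :
    0 < sn k ((1 - t * θ) * r) / sn k r ∧
    sn k ((1 - t * θ) * r) / sn k r ≤ 1 - t * (θ * (r * cs k r / sn k r)) +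
      (C₁ * M ^ 2) * t ^ 2 := by
  constructor
  · exact div_pos (sn_pos hk (mul_pos (by linarith) hr)) (sn_pos hk hr)
  · refine (h1 r (t * θ) hr hrL (mul_nonneg ht hθ) hu).trans ?_
    have h2 : (t * θ) ^ 2 ≤ M ^ 2 * t ^ 2 := by
      rw [mul_pow, mul_comm]
      exact mul_le_mul_of_nonneg_right (pow_le_pow_left₀ hθ hθM 2) (sq_nonneg t)
    have h3 := mul_le_mul_of_nonneg_left h2 hC₁
    linarith

/-- Scalar bounds for `q = (1-u)/bh`. -/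
theorem detExp_q {k : ℝ} (hk : 0 ≤ k) {L C₂ u₀ M t θ r : ℝ} (hC₂ : 0 ≤ C₂)
    (h1 : ∀ r u : ℝ, 0 < r → r ≤ L → 0 ≤ u → u ≤ u₀ →
      (1 - u) * sn k r / sn k ((1 - u) * r) ≤ 1 - u * (1 - r * cs k r / sn k r) + C₂ * u ^ 2)
    (hr : 0 < r) (hrL : r ≤ L) (ht : 0 ≤ t) (hθ : 0 ≤ θ) (hθM : θ ≤ M) (hu : t * θ ≤ 1 / 2)
    (hu0 : t * θ ≤ u₀) :
    0 ≤ (1 - t * θ) / (sn k ((1 - t * θ) * r) / sn k r) ∧
    (1 - t * θ) / (sn k ((1 - t * θ) * r) / sn k r) ≤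
      1 + t * (θ * (r * cs k r / sn k r - 1)) + (C₂ * M ^ 2) * t ^ 2 := by
  have hs1 : 0 < sn k ((1 - t * θ) * r) := sn_pos hk (mul_pos (by linarith) hr)
  have hs2 : 0 < sn k r := sn_pos hk hr
  have e : (1 - t * θ) / (sn k ((1 - t * θ) * r) / sn k r) =
      (1 - t * θ) * sn k r / sn k ((1 - t * θ) * r) := by
    field_simp
  rw [e]
  constructor
  · exact div_nonneg (mul_nonneg (by linarith) hs2.le) hs1.le
  · refine (h1 r (t * θ) hr hrL (mul_nonneg ht hθ) hu0).trans ?_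
    have h2 : (t * θ) ^ 2 ≤ M ^ 2 * t ^ 2 := by
      rw [mul_pow, mul_comm]
      exact mul_le_mul_of_nonneg_right (pow_le_pow_left₀ hθ hθM 2) (sq_nonneg t)
    have h3 := mul_le_mul_of_nonneg_left h2 hC₂
    linarith

theorem detExp_alg {m : ℕ} {bh a D : ℝ} (hbh : bh ≠ 0) :
    bh * ((a / bh) ^ (m + 1) * D) = a * (a / bh) ^ m * D := by
  rw [pow_succ]
  field_simp

/-- The two expansions needed for the area element: `u = t θ(v)`,
`x₁ = β_h = sn((1-u)r)/sn(r)` and `x₂ = β_h d = (1-u) ((1-u)/β_h)^(n-2) D`. -/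
theorem bh_d_exp (hn : 2 ≤ n) (G : Geo n) {k : ℝ} (hk : 0 ≤ k) (o : E n) (ρ : ℝ) {Φ : ℝ × ℝ → ℝ}
    {δ : ℝ} (hδ : 0 < δ) (hΦ : ContDiffOn ℝ ∞ Φ {p | -δ < p.1})
    (hΦ0 : ∀ r a : ℝ, 0 ≤ r → |a| ≤ 1 → 0 ≤ Φ (r ^ 2, r * a)) :
    ∃ C t₀ : ℝ, 0 ≤ C ∧ 0 < t₀ ∧ ∀ p ν x t, ‖G.lg o p‖ ≤ ρ → ‖ν‖ = 1 → ‖G.lg o x‖ ≤ ρ → x ≠ p →
      0 ≤ t → t ≤ t₀ → ∀ bh d : ℝ,
      bh = sn k ((1 - t * th Φ 1 ν (G.lg p x)) * ‖G.lg p x‖) / sn k ‖G.lg p x‖ →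
      d = ((1 - t * th Φ 1 ν (G.lg p x)) / bh) ^ (n - 1) *
        (|(G.T p ((1 - t * th Φ 1 ν (G.lg p x)) • G.lg p x)).det| / |(G.T p (G.lg p x)).det|) →
      0 ≤ bh ∧ 0 ≤ bh * d ∧
      bh ≤ 1 - t * (th Φ 1 ν (G.lg p x) * (‖G.lg p x‖ * cs k ‖G.lg p x‖ / sn k ‖G.lg p x‖)) +
        C * t ^ 2 ∧
      bh * d ≤ 1 - t * (th Φ 1 ν (G.lg p x) *
        (‖G.lg p x‖ * cs k ‖G.lg p x‖ / sn k ‖G.lg p x‖ + rtau G k p (G.lg p x))) + C * t ^ 2 := by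
  obtain ⟨m, rfl⟩ : ∃ m, n = m + 2 := ⟨n - 2, by omega⟩
  obtain ⟨C₁, hC₁, hb⟩ := bh_expand hk (2 * ρ)
  obtain ⟨C₂, u₀, hC₂, hu₀, hq⟩ := ratio_expand hk (2 * ρ)
  obtain ⟨C₃, t₁, hC₃, ht₁, hd⟩ := det_exp G o ρ hδ hΦ
  obtain ⟨C₄, hC₄, hr⟩ := rtau_bound G hk (G.isCompact_gball o ρ) (2 * ρ)
  obtain ⟨M', hM'⟩ := (detExp_compact G o ρ).exists_bound_of_continuousOn
    (detExp_th_smooth G hδ hΦ).continuous.continuousOn
  obtain ⟨M, hMdef⟩ : ∃ M, M = |M'| := ⟨_, rfl⟩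
  have hM : 0 ≤ M := hMdef ▸ abs_nonneg _
  have hcL := one_le_cs k (2 * ρ)
  obtain ⟨C₅, hC₅, hcomb⟩ := detExp_comb m M (M * cs k (2 * ρ))
    (M * (C₄ + (m + 1) * cs k (2 * ρ))) (C₂ * M ^ 2) C₃ hM (by positivity) (by positivity) hC₃
  refine ⟨max (C₁ * M ^ 2) C₅, min (min 1 t₁) (min (u₀ / (M + 1)) (1 / (2 * (M + 1)))),
    le_max_of_le_right hC₅, ?_, ?_⟩
  · have : 0 < M + 1 := by linarith
    positivity
  intro p ν x t hp hν hx hxp ht htt bh d hbh hdd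
  obtain ⟨θ, hθ⟩ : ∃ θ, θ = th Φ 1 ν (G.lg p x) := ⟨_, rfl⟩
  obtain ⟨r, hrr⟩ : ∃ r, r = ‖G.lg p x‖ := ⟨_, rfl⟩
  obtain ⟨Q, hQ⟩ : ∃ Q, Q = |(G.T p ((1 - t * th Φ 1 ν (G.lg p x)) • G.lg p x)).det| /
    |(G.T p (G.lg p x)).det| := ⟨_, rfl⟩
  obtain ⟨L, hL⟩ : ∃ L, L = fderiv ℝ (fun u => Real.log (G.T p u).det) (G.lg p x) (G.lg p x) :=
    ⟨_, rfl⟩
  have ht1 : t ≤ 1 := htt.trans ((min_le_left _ _).trans (min_le_left _ _))
  have htt1 : t ≤ t₁ := htt.trans ((min_le_left _ _).trans (min_le_right _ _))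
  have hv : G.lg p x ≠ 0 := fun h => hxp (G.lg_eq_zero.1 h).symm
  have hr0 : 0 < r := hrr ▸ norm_pos_iff.2 hv
  have hrL : r ≤ 2 * ρ := hrr ▸ detExp_tri G hp hx
  have hθ0 : 0 ≤ θ := hθ ▸ detExp_theta_nonneg hΦ0 hv hν
  have hθM : θ ≤ M := by
    have h := hM' (p, ν, x) ⟨hp, by simpa using hν, hx⟩
    rw [hθ, hMdef]
    exact (le_abs_self _).trans (h.trans (le_abs_self _))
  have hM1 : 0 < M + 1 := by linarith
  have hu2 : t * θ ≤ 1 / 2 := by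
    have h1 : t ≤ 1 / (2 * (M + 1)) := htt.trans ((min_le_right _ _).trans (min_le_right _ _))
    calc t * θ ≤ t * (M + 1) := mul_le_mul_of_nonneg_left (by linarith) ht
      _ ≤ 1 / (2 * (M + 1)) * (M + 1) := mul_le_mul_of_nonneg_right h1 hM1.le
      _ = 1 / 2 := by field_simp
  have hu0 : t * θ ≤ u₀ := by
    have h1 : t ≤ u₀ / (M + 1) := htt.trans ((min_le_right _ _).trans (min_le_left _ _))
    calc t * θ ≤ t * (M + 1) := mul_le_mul_of_nonneg_left (by linarith) ht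
      _ ≤ u₀ / (M + 1) * (M + 1) := mul_le_mul_of_nonneg_right h1 hM1.le
      _ = u₀ := by field_simp
  have hdet := hd p ν x t hp hν hx ht htt1
  have hrt := hr p hp (G.lg p x) (by rw [← hrr]; exact hrL)
  obtain ⟨τ, hτ⟩ : ∃ τ, τ = rtau G k p (G.lg p x) := ⟨_, rfl⟩
  have hτL : τ = L + ((m : ℝ) + 1) * (1 - r * cs k r / sn k r) := by
    rw [hτ, hL, hrr]
    unfold rtau
    push_cast
    ring
  rw [← hτ] at hrt
  rw [← hθ, ← hL] at hdet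
  rw [← hθ] at hbh hdd hQ
  rw [← hQ] at hdd
  rw [← hQ] at hdet
  rw [← hrr] at hbh
  rw [← hθ, ← hrr, ← hτ]
  have hQ0 : 0 ≤ Q := by rw [hQ]; positivity
  obtain ⟨b1, b2⟩ := detExp_bh hk hC₁ hb hr0 hrL ht hθ0 hθM hu2
  obtain ⟨q1, q2⟩ := detExp_q hk hC₂ hq hr0 hrL ht hθ0 hθM hu2 hu0
  rw [← hbh] at b1 b2 q1 q2
  obtain ⟨c, hc⟩ : ∃ c, c = r * cs k r / sn k r := ⟨_, rfl⟩
  obtain ⟨c1, c2⟩ := ctr_bounds hk hr0
  have c3 : cs k r ≤ cs k (2 * ρ) := cs_mono hk hr0.le hrL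
  rw [← hc] at b2 q2 hτL c1 c2 ⊢
  have ht2 : 0 ≤ t ^ 2 := sq_nonneg t
  have hd0 : 0 ≤ d := by
    rw [hdd]
    exact mul_nonneg (pow_nonneg q1 _) hQ0
  refine ⟨b1.le, mul_nonneg b1.le hd0, ?_, ?_⟩
  · refine b2.trans ?_
    have := mul_le_mul_of_nonneg_right (le_max_left (C₁ * M ^ 2) C₅) ht2
    linarith
  · have e1 : bh * d = (1 - t * θ) * ((1 - t * θ) / bh) ^ m * Q := by
      rw [hdd]
      exact detExp_alg b1.ne'
    rw [e1]
    have ha : |θ * (c - 1)| ≤ M * cs k (2 * ρ) := by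
      rw [abs_mul, abs_of_nonneg hθ0, abs_of_nonneg (by linarith)]
      exact mul_le_mul hθM (by linarith) (by linarith) hM
    have hLb : |L| ≤ C₄ + (m + 1) * cs k (2 * ρ) := by
      have hLe : L = τ + ((m : ℝ) + 1) * (c - 1) := by rw [hτL]; ring
      rw [hLe]
      refine (abs_add_le _ _).trans (add_le_add hrt ?_)
      rw [abs_mul, abs_of_nonneg (by positivity : (0 : ℝ) ≤ (m : ℝ) + 1),
        abs_of_nonneg (by linarith : (0 : ℝ) ≤ c - 1)]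
      exact mul_le_mul_of_nonneg_left (by linarith) (by positivity)
    have hb2 : |-(θ * L)| ≤ M * (C₄ + (m + 1) * cs k (2 * ρ)) := by
      rw [abs_neg, abs_mul, abs_of_nonneg hθ0]
      exact mul_le_mul hθM hLb (abs_nonneg _) hM
    have key := hcomb t θ (θ * (c - 1)) (-(θ * L)) ((1 - t * θ) / bh) Q ht ht1
      (by rw [abs_of_nonneg hθ0]; exact hθM) ha hb2 (by linarith) q1 hQ0 q2 (by linarith)
    refine key.trans ?_
    have h9 := mul_le_mul_of_nonneg_right (le_max_right (C₁ * M ^ 2) C₅) ht2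
    have e2 : t * (-θ + (m : ℝ) * (θ * (c - 1)) + -(θ * L)) = -(t * (θ * (c + τ))) := by
      rw [hτL]; ring
    rw [e2]
    linarith

end Vale.Agent.P219.TPH
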