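import Vale.Agent.P219.TPH.Defs

/-! # The functions `sn`, `cs` (task H1) -/

open MeasureTheory Set Metric
open scoped ENNReal ContDiff

namespace Vale.Agent.P219.TPH

theorem sn_zero (k : ℝ) : sn k 0 = 0 := by
  unfold sn
  split_ifs <;> simp

theorem cs_zero (k : ℝ) : cs k 0 = 1 := by
  simp [cs]

theorem h1_sn_z : sn 0 = fun r => r := by
  funext r
  simp [sn]

theorem h1_sn_nz {k : ℝ} (hk : k ≠ 0) : sn k = fun r => Real.sinh (k * r) / k := by
  funext r
  simp [sn, hk]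

theorem hasDerivAt_sn (k r : ℝ) : HasDerivAt (sn k) (cs k r) r := by
  by_cases hk : k = 0
  · subst hk
    rw [h1_sn_z]
    have h : cs 0 r = 1 := by simp [cs]
    rw [h]
    exact hasDerivAt_id r
  · rw [h1_sn_nz hk]
    have h1 : HasDerivAt (fun r : ℝ => k * r) k r := by
      simpa using (hasDerivAt_id r).const_mul k
    have h2 := ((Real.hasDerivAt_sinh (k * r)).comp r h1).div_const k
    refine h2.congr_deriv ?_
    unfold cs
    field_simp

theorem hasDerivAt_cs (k r : ℝ) : HasDerivAt (cs k) (k ^ 2 * sn k r) r := by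
  have h1 : HasDerivAt (fun r : ℝ => k * r) k r := by
    simpa using (hasDerivAt_id r).const_mul k
  have h2 := (Real.hasDerivAt_cosh (k * r)).comp r h1
  have h3 : HasDerivAt (cs k) (Real.sinh (k * r) * k) r := h2
  refine h3.congr_deriv ?_
  by_cases hk : k = 0
  · subst hk
    simp
  · rw [h1_sn_nz hk]
    field_simp

theorem contDiff_sn (k : ℝ) : ContDiff ℝ ∞ (sn k) := by
  by_cases hk : k = 0
  · subst hk
    rw [h1_sn_z]
    exact contDiff_id
  · rw [h1_sn_nz hk]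
    exact (Real.contDiff_sinh.comp (contDiff_const.mul contDiff_id)).div_const k

theorem contDiff_cs (k : ℝ) : ContDiff ℝ ∞ (cs k) :=
  Real.contDiff_cosh.comp (contDiff_const.mul contDiff_id)

theorem h1_sinh (k r : ℝ) : k * sn k r = Real.sinh (k * r) := by
  by_cases hk : k = 0
  · subst hk
    simp
  · rw [h1_sn_nz hk]
    field_simp

theorem cs_sq (k r : ℝ) : cs k r ^ 2 = 1 + k ^ 2 * sn k r ^ 2 := by
  rw [← mul_pow, h1_sinh, cs, Real.cosh_sq]
  ring

theorem one_le_cs (k r : ℝ) : 1 ≤ cs k r := Real.one_le_cosh _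

theorem cs_mono {k r r' : ℝ} (hk : 0 ≤ k) (hr : 0 ≤ r) (h : r ≤ r') : cs k r ≤ cs k r' := by
  unfold cs
  rw [Real.cosh_le_cosh, abs_of_nonneg (mul_nonneg hk hr),
    abs_of_nonneg (mul_nonneg hk (hr.trans h))]
  exact mul_le_mul_of_nonneg_left h hk

/-- upper bound of the increments -/
theorem h1_up {k x y : ℝ} (hk : 0 ≤ k) (hx : 0 ≤ x) (h : x ≤ y) :
    sn k y - sn k x ≤ cs k y * (y - x) := by
  refine (convex_Icc x y).image_sub_le_mul_sub_of_deriv_le (f := sn k)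
    (fun t _ => (hasDerivAt_sn k t).continuousAt.continuousWithinAt)
    (fun t _ => (hasDerivAt_sn k t).differentiableAt.differentiableWithinAt) ?_ x
    (left_mem_Icc.2 h) y (right_mem_Icc.2 h) h
  intro t ht
  rw [interior_Icc] at ht
  rw [(hasDerivAt_sn k t).deriv]
  exact cs_mono hk (hx.trans ht.1.le) ht.2.le

/-- lower bound of the increments -/
theorem h1_low {k x y : ℝ} (hk : 0 ≤ k) (hx : 0 ≤ x) (h : x ≤ y) :
    cs k x * (y - x) ≤ sn k y - sn k x := by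
  refine (convex_Icc x y).mul_sub_le_image_sub_of_le_deriv (f := sn k)
    (fun t _ => (hasDerivAt_sn k t).continuousAt.continuousWithinAt)
    (fun t _ => (hasDerivAt_sn k t).differentiableAt.differentiableWithinAt) ?_ x
    (left_mem_Icc.2 h) y (right_mem_Icc.2 h) h
  intro t ht
  rw [interior_Icc] at ht
  rw [(hasDerivAt_sn k t).deriv]
  exact cs_mono hk hx ht.1.le

theorem le_sn {k r : ℝ} (hk : 0 ≤ k) (hr : 0 ≤ r) : r ≤ sn k r := by
  have h := h1_low hk le_rfl hr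
  rw [cs_zero, sn_zero] at h
  linarith

theorem sn_pos {k r : ℝ} (hk : 0 ≤ k) (hr : 0 < r) : 0 < sn k r :=
  hr.trans_le (le_sn hk hr.le)

theorem sn_strictMono {k : ℝ} (hk : 0 ≤ k) : StrictMono (sn k) := by
  refine strictMono_of_deriv_pos fun r => ?_
  rw [(hasDerivAt_sn k r).deriv]
  exact one_pos.trans_le (one_le_cs k r)

/-- convexity of `sn` on `[0,∞)` -/
theorem sn_mul_le {k s r : ℝ} (hk : 0 ≤ k) (h0 : 0 ≤ s) (h1 : s ≤ 1) (hr : 0 ≤ r) :
    sn k (s * r) ≤ s * sn k r := by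
  have hsr : s * r ≤ r := by nlinarith
  have h2 := h1_up hk le_rfl (mul_nonneg h0 hr)
  have h3 := h1_low hk (mul_nonneg h0 hr) hsr
  rw [sn_zero, sub_zero, sub_zero] at h2
  have h4 := mul_le_mul_of_nonneg_left h2 (sub_nonneg.2 h1)
  have h5 := mul_le_mul_of_nonneg_left h3 h0
  nlinarith

theorem h1_sn_le {k r : ℝ} (hk : 0 ≤ k) (hr : 0 ≤ r) : sn k r ≤ r * cs k r := by
  have h := h1_up hk le_rfl hr
  rw [sn_zero, sub_zero, sub_zero] at h
  linarith

theorem ctr_bounds {k r : ℝ} (hk : 0 ≤ k) (hr : 0 < r) :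
    1 ≤ r * cs k r / sn k r ∧ r * cs k r / sn k r ≤ cs k r := by
  have hp := sn_pos hk hr
  constructor
  · rw [le_div_iff₀ hp, one_mul]
    exact h1_sn_le hk hr.le
  · rw [div_le_iff₀ hp, mul_comm]
    exact mul_le_mul_of_nonneg_left (le_sn hk hr.le) (zero_le_one.trans (one_le_cs k r))

theorem h1_sub (k r t : ℝ) : sn k (r - t) = sn k r * cs k t - cs k r * sn k t := by
  by_cases hk : k = 0
  · subst hk
    simp [h1_sn_z, cs]
  · rw [h1_sn_nz hk, cs, cs]
    simp only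
    rw [mul_sub, Real.sinh_sub]
    field_simp

theorem h1_cs_half (k t : ℝ) : cs k t = 1 + 2 * (k ^ 2 * sn k (t / 2) ^ 2) := by
  rw [← mul_pow, h1_sinh, cs]
  have h := Real.cosh_two_mul (k * (t / 2))
  rw [show 2 * (k * (t / 2)) = k * t by ring, Real.cosh_sq] at h
  rw [h]
  ring

/-- `sn((1-u)r)/sn(r)`, upper Taylor bound in `u`, uniform for `0 < r ≤ L`. PROOF: the function
`u ↦ sn((1-u)r)` has second derivative `r²k² sn((1-u)r) ≤ r²k² sn(r)`. -/
theorem bh_expand {k : ℝ} (hk : 0 ≤ k) (L : ℝ) : ∃ C : ℝ, 0 ≤ C ∧ ∀ r u : ℝ, 0 < r → r ≤ L →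
    0 ≤ u → u ≤ 1 / 2 → sn k ((1 - u) * r) / sn k r ≤ 1 - u * (r * cs k r / sn k r) + C * u ^ 2 := by
  refine ⟨k ^ 2 * L ^ 2 * cs k L ^ 2 / 2, by positivity, fun r u hr hrL hu hu2 => ?_⟩
  have hp := sn_pos hk hr
  have hL : 0 < L := hr.trans_le hrL
  have hur : 0 ≤ u * r := mul_nonneg hu hr.le
  have e1 : sn k ((1 - u) * r) / sn k r = cs k (u * r) - cs k r / sn k r * sn k (u * r) := by
    rw [show (1 - u) * r = r - u * r by ring, h1_sub]
    field_simp
  have h1 : u * r ≤ sn k (u * r) := le_sn hk hur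
  have h2 : cs k (u * r) ≤ 1 + k ^ 2 * L ^ 2 * cs k L ^ 2 / 2 * u ^ 2 := by
    rw [h1_cs_half]
    have h3 : 0 ≤ u * r / 2 := by linarith
    have h4 : sn k (u * r / 2) ≤ (u * r / 2) * cs k (u * r / 2) := h1_sn_le hk h3
    have h5 : u * r / 2 ≤ L := by nlinarith
    have h6 : cs k (u * r / 2) ≤ cs k L := cs_mono hk h3 h5
    have h7 : 0 ≤ sn k (u * r / 2) := h3.trans (le_sn hk h3)
    have h8 : sn k (u * r / 2) ≤ (u * L / 2) * cs k L := by
      refine h4.trans (mul_le_mul ?_ h6 (zero_le_one.trans (one_le_cs k _)) ?_)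
      · nlinarith
      · positivity
    have h9 : sn k (u * r / 2) ^ 2 ≤ ((u * L / 2) * cs k L) ^ 2 := pow_le_pow_left₀ h7 h8 2
    have h10 := mul_le_mul_of_nonneg_left h9 (sq_nonneg k)
    nlinarith
  have h3 : 0 ≤ cs k r / sn k r := div_nonneg (zero_le_one.trans (one_le_cs k r)) hp.le
  have h4 : cs k r / sn k r * (u * r) ≤ cs k r / sn k r * sn k (u * r) :=
    mul_le_mul_of_nonneg_left h1 h3
  have e2 : u * (r * cs k r / sn k r) = cs k r / sn k r * (u * r) := by ring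
  rw [e1, e2]
  linarith

/-- `(1-u) sn(r)/sn((1-u)r)`, upper Taylor bound in `u`, uniform for `0 < r ≤ L`. PROOF: write
`q(u) = sn((1-u)r)/((1-u) sn r) ∈ (0,1]`; lower bound `q ≥ 1 + u (1 - r ct r) - C u²` from
`sn((1-u)r)/sn r ≥ 1 - u r ct r` (convexity of `u ↦ sn((1-u)r)`) and `1/(1-u) ≥ 1 + u`; then
`1/q ≤ 1 - (q - 1) + (q-1)²/q`, `q ≥ 1/2` for `u` small. Alternatively bound the second derivative
of the logarithm. -/
theorem ratio_expand {k : ℝ} (hk : 0 ≤ k) (L : ℝ) : ∃ C u₀ : ℝ, 0 ≤ C ∧ 0 < u₀ ∧ ∀ r u : ℝ, 0 < r →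
    r ≤ L → 0 ≤ u → u ≤ u₀ →
    (1 - u) * sn k r / sn k ((1 - u) * r) ≤ 1 - u * (1 - r * cs k r / sn k r) + C * u ^ 2 := by
  set M := cs k L with hM
  have hM1 : 1 ≤ M := one_le_cs k L
  refine ⟨2 * M ^ 2, 1 / (2 * M), by positivity, by positivity, fun r u hr hrL hu hu2 => ?_⟩
  have hp := sn_pos hk hr
  obtain ⟨hc1, hc2⟩ := ctr_bounds hk hr
  set c := r * cs k r / sn k r with hc
  have hcM : c ≤ M := hc2.trans (cs_mono hk hr.le hrL)
  have huM : u * M ≤ 1 / 2 := by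
    rw [le_div_iff₀ (by positivity)] at hu2
    linarith
  have hu1 : u ≤ 1 / 2 := by nlinarith
  have hucM : u * c ≤ 1 / 2 := (mul_le_mul_of_nonneg_left hcM hu).trans huM
  have h1u : 0 < (1 - u) * r := mul_pos (by linarith) hr
  have hp2 := sn_pos hk h1u
  have h1 := h1_up hk h1u.le (show (1 - u) * r ≤ r by nlinarith)
  have h2 : sn k r * (1 - u * c) ≤ sn k ((1 - u) * r) := by
    have e : sn k r * (u * c) = cs k r * (u * r) := by
      rw [hc]
      field_simp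
    have e2 : r - (1 - u) * r = u * r := by ring
    rw [e2] at h1
    linarith
  rw [div_le_iff₀ hp2]
  have h3 : 0 ≤ 1 - u * (1 - c) + 2 * M ^ 2 * u ^ 2 := by nlinarith [sq_nonneg (M * u)]
  have h4 := mul_le_mul_of_nonneg_left h2 h3
  refine le_trans ?_ h4
  have h5 : (1 - u) ≤ (1 - u * (1 - c) + 2 * M ^ 2 * u ^ 2) * (1 - u * c) := by
    have h6 : c ^ 2 ≤ M ^ 2 := pow_le_pow_left₀ (by linarith) hcM 2
    have h7 : 0 ≤ u ^ 2 * (2 * M ^ 2 * (1 - u * c) + c - c ^ 2) := by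
      refine mul_nonneg (sq_nonneg _) ?_
      nlinarith [mul_le_mul_of_nonneg_left hucM (sq_nonneg M)]
    nlinarith
  have h6 := mul_le_mul_of_nonneg_right h5 hp.le
  linarith

end Vale.Agent.P219.TPH
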