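import Vale.Agent.P219.TPH.CurvH
import Vale.Agent.P219.TP.AreaElem
import Vale.Agent.P219.TP.LinAlg

/-! # Area element of a radial contraction, exact Jacobian (task H3) -/

open MeasureTheory Set Metric
open scoped ENNReal ContDiff

namespace Vale.Agent.P219.TPH

open Vale.Agent.P219.TP

variable {n : ℕ}

theorem arh_adj_norm {Q : E n →L[ℝ] E n} (hQ : ∀ ξ, ‖Q ξ‖ ≤ ‖ξ‖) (ξ : E n) :
    ‖ContinuousLinearMap.adjoint Q ξ‖ ≤ ‖ξ‖ := by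
  have h1 : ‖ContinuousLinearMap.adjoint Q‖ ≤ 1 := by
    rw [LinearIsometryEquiv.norm_map]
    exact Q.opNorm_le_bound zero_le_one fun ξ => by rw [one_mul]; exact hQ ξ
  calc ‖ContinuousLinearMap.adjoint Q ξ‖ ≤ ‖ContinuousLinearMap.adjoint Q‖ * ‖ξ‖ :=
        (ContinuousLinearMap.adjoint Q).le_opNorm ξ
    _ ≤ 1 * ‖ξ‖ := mul_le_mul_of_nonneg_right h1 (norm_nonneg _)
    _ = ‖ξ‖ := one_mul _

theorem arh_norm_perp {e y : E n} (he : ‖e‖ = 1) :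
    ‖y - inner ℝ e y • e‖ ^ 2 = ‖y‖ ^ 2 - inner ℝ e y ^ 2 := by
  rw [norm_sub_sq_real, real_inner_smul_right, norm_smul, he, real_inner_comm e y, mul_one,
    Real.norm_eq_abs, sq_abs]
  ring

/-- Linear algebra. `Q` does not increase norms, `Q e = e'`, `Q` maps `e^⊥` to `e'^⊥`. PROOF:
`z = Qᵀ y`; `Qᵀ e' = e`; with `y = y_e e' + y_⊥` one has `z_e = y_e`, `Qᵀ y_⊥ = z_⊥`, and
`linAlg_hadamard` (for `Qᵀ`) gives `|det Q| ‖y_⊥‖ ≤ ‖z_⊥‖`. -/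
theorem hadamard_split {Q : E n →L[ℝ] E n} (hQ : ∀ ξ, ‖Q ξ‖ ≤ ‖ξ‖) {e e' : E n} (he : ‖e‖ = 1)
    (he' : ‖e'‖ = 1) (hQe : Q e = e') (hQp : ∀ ξ, inner ℝ e ξ = 0 → inner ℝ e' (Q ξ) = 0)
    {y z : E n} (hyz : ∀ ξ, inner ℝ y (Q ξ) = inner ℝ z ξ) :
    (|Q.det| * ‖y‖) ^ 2 ≤ Q.det ^ 2 * inner ℝ e z ^ 2 + (‖z‖ ^ 2 - inner ℝ e z ^ 2) := by
  have hee : inner ℝ e e = (1 : ℝ) := by rw [real_inner_self_eq_norm_sq, he, one_pow]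
  have hee' : inner ℝ e' e' = (1 : ℝ) := by rw [real_inner_self_eq_norm_sq, he', one_pow]
  have hy : ContinuousLinearMap.adjoint Q y = z :=
    ext_inner_right ℝ fun ξ => by rw [ContinuousLinearMap.adjoint_inner_left, hyz]
  have hte : ContinuousLinearMap.adjoint Q e' = e := by
    refine ext_inner_right ℝ fun ξ => ?_
    rw [ContinuousLinearMap.adjoint_inner_left]
    have h1 := hQp (ξ - inner ℝ e ξ • e) (by
      rw [inner_sub_right, real_inner_smul_right, hee, mul_one, sub_self])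
    rw [map_sub, map_smul, hQe, inner_sub_right, real_inner_smul_right, hee', mul_one] at h1
    linarith
  have hze : inner ℝ e z = inner ℝ e' y := by
    rw [real_inner_comm, ← hyz, hQe, real_inner_comm]
  have h1 := linAlg_hadamard _ (arh_adj_norm hQ) (y - inner ℝ e' y • e')
  rw [linAlg_det_adjoint, map_sub, map_smul, hy, hte, ← hze] at h1
  have h2 := pow_le_pow_left₀ (by positivity) h1 2
  rw [arh_norm_perp he, mul_pow, sq_abs, hze, arh_norm_perp he'] at h2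
  rw [mul_pow, sq_abs, hze]
  linarith

theorem arh_vec {e ζ N : E n} {α β : ℝ} (he : ‖e‖ = 1) (hζ : inner ℝ e ζ = 0)
    (hα : 0 < α) (hβ : 0 < β) : ∃ z : E n, (∀ ξ, inner ℝ z (linAlgC e ζ α β ξ) = inner ℝ N ξ) ∧
      α * inner ℝ e z = inner ℝ e N ∧
      α * β * √(‖z‖ ^ 2 - inner ℝ e z ^ 2) ≤
        α * √(‖N‖ ^ 2 - inner ℝ e N ^ 2) + |inner ℝ e N| * ‖ζ‖ := by
  have hee : inner ℝ e e = (1 : ℝ) := by rw [real_inner_self_eq_norm_sq, he, one_pow]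
  have hζe : inner ℝ ζ e = (0 : ℝ) := by rw [real_inner_comm]; exact hζ
  set Ne := inner ℝ e N with hNe
  set Np : E n := N - Ne • e with hNp
  have heNp : inner ℝ e Np = (0 : ℝ) := by
    rw [hNp, inner_sub_right, real_inner_smul_right, hee, mul_one, sub_self]
  have hNpe : inner ℝ Np e = (0 : ℝ) := by rw [real_inner_comm]; exact heNp
  have hze : inner ℝ e ((Ne / α) • e + β⁻¹ • (Np + (Ne / α) • ζ)) = Ne / α := by
    simp only [inner_add_right, real_inner_smul_right, hee, hζ, heNp]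
    ring
  refine ⟨(Ne / α) • e + β⁻¹ • (Np + (Ne / α) • ζ), fun ξ => ?_, ?_, ?_⟩
  · rw [linAlgC_apply e ζ α hβ]
    have h1 : inner ℝ N ξ = Ne * inner ℝ e ξ + inner ℝ Np ξ := by
      rw [hNp, inner_sub_left, real_inner_smul_left]
      ring
    rw [h1]
    simp only [inner_add_left, inner_add_right, inner_sub_right,
      real_inner_smul_left, real_inner_smul_right, hee, hζe, hNpe]
    field_simp
    ring
  · rw [hze]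
    field_simp
  · rw [← arh_norm_perp he, hze, Real.sqrt_sq (norm_nonneg _), ← arh_norm_perp he,
      Real.sqrt_sq (norm_nonneg _), ← hNe, ← hNp, add_sub_cancel_left, norm_smul,
      norm_inv, Real.norm_eq_abs, abs_of_pos hβ]
    have h2 : α * β * (β⁻¹ * ‖Np + (Ne / α) • ζ‖) = α * ‖Np + (Ne / α) • ζ‖ := by
      field_simp
    rw [h2]
    have h3 : α * (‖Np‖ + ‖(Ne / α) • ζ‖) = α * ‖Np‖ + |Ne| * ‖ζ‖ := by
      rw [norm_smul, Real.norm_eq_abs, abs_div, abs_of_pos hα]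
      field_simp
    rw [← h3]
    exact mul_le_mul_of_nonneg_left (norm_add_le _ _) hα.le

/-- The factor of area. `B ξ = α ⟨e,ξ⟩ e' - ⟨ζ,ξ⟩ e' + β Q ξ_⊥`. PROOF: `B = Q ∘ C`,
`C = linAlgC e ζ α β`, `det C = α β^(n-1)` (`linAlgC_det`); `z` with `⟨z, C ξ⟩ = ⟨N, ξ⟩`:
`α z_e = N_e`, `β z_⊥ = N_⊥ + z_e ζ`; use `hadamard_split`. -/
theorem area_linear_H (hn : 2 ≤ n) {B Q : E n →L[ℝ] E n} (hQ : ∀ ξ, ‖Q ξ‖ ≤ ‖ξ‖) {e e' ζ N y : E n}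
    {α β : ℝ} (he : ‖e‖ = 1) (he' : ‖e'‖ = 1) (hQe : Q e = e')
    (hQp : ∀ ξ, inner ℝ e ξ = 0 → inner ℝ e' (Q ξ) = 0) (hQd : Q.det ≠ 0) (hζ : inner ℝ e ζ = 0)
    (hα : 0 < α) (hβ : 0 < β)
    (hB : ∀ ξ, B ξ = (α * inner ℝ e ξ - inner ℝ ζ ξ) • e' + β • Q (ξ - inner ℝ e ξ • e))
    (hy : ∀ ξ, inner ℝ y (B ξ) = inner ℝ N ξ) :
    |B.det| * ‖y‖ ≤ β ^ (n - 2) * √((β * Q.det) ^ 2 * inner ℝ e N ^ 2 +
      (α * √(‖N‖ ^ 2 - inner ℝ e N ^ 2) + |inner ℝ e N| * ‖ζ‖) ^ 2) := by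
  have _ := hQd
  have hBC : ∀ ξ, B ξ = Q (linAlgC e ζ α β ξ) := fun ξ => by
    rw [hB, linAlgC_apply e ζ α hβ, map_add, map_smul, map_smul, hQe]
  have hCd : (linAlgC e ζ α β).det = α * β ^ (n - 1) := linAlgC_det hn he hζ hβ
  have hBd : B.det = Q.det * (α * β ^ (n - 1)) := by
    have h1 : (B : E n →ₗ[ℝ] E n) =
        (Q : E n →ₗ[ℝ] E n) ∘ₗ (linAlgC e ζ α β : E n →ₗ[ℝ] E n) := by
      ext1 ξ
      exact hBC ξ
    have h2 : LinearMap.det (B : E n →ₗ[ℝ] E n) =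
        LinearMap.det (Q : E n →ₗ[ℝ] E n) *
          LinearMap.det (linAlgC e ζ α β : E n →ₗ[ℝ] E n) := by
      rw [h1, LinearMap.det_comp]
    rw [← hCd]
    exact h2
  obtain ⟨z, hz1, hz2, hz3⟩ := arh_vec (N := N) he hζ hα hβ
  have hC0 : (linAlgC e ζ α β).det ≠ 0 := by rw [hCd]; positivity
  have hyz : ∀ ξ, inner ℝ y (Q ξ) = inner ℝ z ξ := fun ξ => by
    have h1 : ξ = linAlgC e ζ α β
        (((linAlgC e ζ α β).toContinuousLinearEquivOfDetNeZero hC0).symm ξ) :=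
      (((linAlgC e ζ α β).toContinuousLinearEquivOfDetNeZero hC0).apply_symm_apply ξ).symm
    rw [h1, ← hBC, hy, hz1]
  have hmain := hadamard_split hQ he he' hQe hQp hyz
  have hnn : 0 ≤ ‖z‖ ^ 2 - inner ℝ e z ^ 2 := by
    rw [← arh_norm_perp he]
    positivity
  have h4 := pow_le_pow_left₀ (by positivity) hz3 2
  rw [mul_pow, Real.sq_sqrt hnn] at h4
  have hfin : α * β * (|Q.det| * ‖y‖) ≤ √((β * Q.det) ^ 2 * inner ℝ e N ^ 2 +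
      (α * √(‖N‖ ^ 2 - inner ℝ e N ^ 2) + |inner ℝ e N| * ‖ζ‖) ^ 2) := by
    apply Real.le_sqrt_of_sq_le
    rw [← hz2, mul_pow]
    rw [← hz2] at h4
    calc (α * β) ^ 2 * (|Q.det| * ‖y‖) ^ 2
        ≤ (α * β) ^ 2 * (Q.det ^ 2 * inner ℝ e z ^ 2 + (‖z‖ ^ 2 - inner ℝ e z ^ 2)) :=
          mul_le_mul_of_nonneg_left hmain (by positivity)
      _ = (β * Q.det) ^ 2 * (α * inner ℝ e z) ^ 2 +
          (α * β) ^ 2 * (‖z‖ ^ 2 - inner ℝ e z ^ 2) := by ring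
      _ ≤ _ := by gcongr
  rw [hBd, abs_mul, abs_of_pos (by positivity : 0 < α * β ^ (n - 1))]
  obtain ⟨m, rfl⟩ : ∃ m, n = m + 2 := ⟨n - 2, by omega⟩
  have e1 : m + 2 - 1 = m + 1 := by omega
  have e2 : m + 2 - 2 = m := by omega
  rw [e1, e2, pow_succ]
  calc |Q.det| * (α * (β ^ m * β)) * ‖y‖ = β ^ m * (α * β * (|Q.det| * ‖y‖)) := by ring
    _ ≤ _ := mul_le_mul_of_nonneg_left hfin (by positivity)

/-! ### The comparison map -/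

theorem arh_perp (v z : E n) (hv : v ≠ 0) :
    inner ℝ v (z - (inner ℝ v z / ‖v‖ ^ 2) • v) = 0 := by
  have hr : ‖v‖ ≠ 0 := norm_ne_zero_iff.2 hv
  rw [inner_sub_right, real_inner_smul_right, real_inner_self_eq_norm_sq]
  field_simp
  ring

theorem arh_L {v : E n} (hv : v ≠ 0) {c : ℝ} (hc : 0 < c) (z : E n) :
    linAlgC (‖v‖⁻¹ • v) 0 1 c z =
      (inner ℝ v z / ‖v‖ ^ 2) • v + c • (z - (inner ℝ v z / ‖v‖ ^ 2) • v) := by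
  have hr : ‖v‖ ≠ 0 := norm_ne_zero_iff.2 hv
  rw [linAlgC_apply _ _ _ hc, inner_zero_left, sub_zero, one_mul, real_inner_smul_left, smul_smul]
  have h1 : ‖v‖⁻¹ * inner ℝ v z * ‖v‖⁻¹ = inner ℝ v z / ‖v‖ ^ 2 := by
    field_simp
  rw [h1]

theorem arh_L_det (hn : 2 ≤ n) {v : E n} (hv : v ≠ 0) {c : ℝ} (hc : 0 < c) :
    (linAlgC (‖v‖⁻¹ • v) 0 1 c).det = c ^ (n - 1) := by
  have hr : ‖v‖ ≠ 0 := norm_ne_zero_iff.2 hv
  rw [linAlgC_det hn _ _ hc, one_mul]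
  · rw [norm_smul, norm_inv, norm_norm, inv_mul_cancel₀ hr]
  · rw [inner_zero_right]

/-- the comparison map `Q` -/
noncomputable def arhQ (G : Geo n) (p v : E n) (β c : ℝ) (Ti : E n →L[ℝ] E n) : E n →L[ℝ] E n :=
  (G.T p (β • v)).comp ((linAlgC (‖v‖⁻¹ • v) 0 1 c).comp Ti)

theorem arhQ_apply (G : Geo n) {p v : E n} (hv : v ≠ 0) {β c : ℝ} (hc : 0 < c)
    (Ti : E n →L[ℝ] E n) (ξ : E n) :
    arhQ G p v β c Ti ξ = (inner ℝ v (Ti ξ) / ‖v‖ ^ 2) • G.T p (β • v) v +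
      c • G.T p (β • v) (Ti ξ - (inner ℝ v (Ti ξ) / ‖v‖ ^ 2) • v) := by
  have h1 : arhQ G p v β c Ti ξ = G.T p (β • v) (linAlgC (‖v‖⁻¹ • v) 0 1 c (Ti ξ)) := rfl
  rw [h1, arh_L hv hc, map_add, map_smul, map_smul]

theorem arhQ_det (hn : 2 ≤ n) (G : Geo n) {p v : E n} (hv : v ≠ 0) {β c : ℝ} (hc : 0 < c)
    {Ti : E n →L[ℝ] E n} (hTi : ∀ z, Ti (G.T p v z) = z) :
    (arhQ G p v β c Ti).det * (G.T p v).det = c ^ (n - 1) * (G.T p (β • v)).det := by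
  have h1 : ((arhQ G p v β c Ti).comp (G.T p v) : E n →L[ℝ] E n) =
      (G.T p (β • v)).comp (linAlgC (‖v‖⁻¹ • v) 0 1 c) := by
    ext1 ξ
    show G.T p (β • v) (linAlgC (‖v‖⁻¹ • v) 0 1 c (Ti (G.T p v ξ))) =
      G.T p (β • v) (linAlgC (‖v‖⁻¹ • v) 0 1 c ξ)
    rw [hTi]
  have h2 := congrArg ContinuousLinearMap.det h1
  have h3 : ∀ X Y : E n →L[ℝ] E n, (X.comp Y).det = X.det * Y.det := fun X Y => by
    unfold ContinuousLinearMap.det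
    rw [ContinuousLinearMap.toLinearMap_comp, LinearMap.det_comp]
  rw [h3, h3, arh_L_det hn hv hc] at h2
  rw [h2, mul_comm]

theorem arh_T_smul_norm (G : Geo n) {p v : E n} {β : ℝ} (hβ : β ≠ 0) :
    ‖G.T p (β • v) v‖ = ‖v‖ := by
  have h1 : ‖G.T p (β • v) v‖ ^ 2 = ‖v‖ ^ 2 := by
    rw [← real_inner_self_eq_norm_sq, G.gauss_smul hβ, real_inner_self_eq_norm_sq]
  exact (pow_left_inj₀ (norm_nonneg _) (norm_nonneg _) two_ne_zero).1 h1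

theorem arhQ_norm {G : Geo n} {k : ℝ} (hk : 0 ≤ k) (hG : Curv G k) {p v : E n} (hv : v ≠ 0)
    {β bh : ℝ} (hβ : 0 < β) (hβ1 : β ≤ 1) (hbh : bh = sn k (β * ‖v‖) / sn k ‖v‖)
    {Ti : E n →L[ℝ] E n} (hTi : ∀ ξ, G.T p v (Ti ξ) = ξ) (ξ : E n) :
    ‖arhQ G p v β (β / bh) Ti ξ‖ ≤ ‖ξ‖ := by
  have hr : 0 < ‖v‖ := norm_pos_iff.2 hv
  have hsr := sn_pos hk hr
  have hsb := sn_pos hk (mul_pos hβ hr)
  have hbh0 : 0 < bh := by rw [hbh]; positivity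
  have hc : 0 < β / bh := by positivity
  have hp := arh_perp v (Ti ξ) hv
  have h1 : ‖ξ‖ ^ 2 = (inner ℝ v (Ti ξ) / ‖v‖) ^ 2 +
      ‖G.T p v (Ti ξ - (inner ℝ v (Ti ξ) / ‖v‖ ^ 2) • v)‖ ^ 2 := by
    have := G.pyth (p := p) (z := Ti ξ) hv
    rwa [hTi] at this
  have h2 : β / bh * ‖G.T p (β • v) (Ti ξ - (inner ℝ v (Ti ξ) / ‖v‖ ^ 2) • v)‖ ≤
      ‖G.T p v (Ti ξ - (inner ℝ v (Ti ξ) / ‖v‖ ^ 2) • v)‖ := by
    have h3 := hG.mono_sn p v _ β hp hβ hβ1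
    have h4 : β / bh = β * sn k ‖v‖ / sn k (β * ‖v‖) := by
      rw [hbh]
      field_simp
    rw [h4, div_mul_eq_mul_div, div_le_iff₀ hsb]
    linarith
  have h5 : ‖arhQ G p v β (β / bh) Ti ξ‖ ^ 2 = (inner ℝ v (Ti ξ) / ‖v‖) ^ 2 +
      (β / bh * ‖G.T p (β • v) (Ti ξ - (inner ℝ v (Ti ξ) / ‖v‖ ^ 2) • v)‖) ^ 2 := by
    rw [arhQ_apply G hv hc, norm_add_sq_real, real_inner_smul_left,
      real_inner_smul_right, G.gauss_smul hβ.ne', hp, norm_smul, norm_smul,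
      arh_T_smul_norm G hβ.ne', Real.norm_eq_abs, Real.norm_eq_abs, abs_of_pos hc, mul_pow, sq_abs]
    field_simp
    ring
  have h6 := pow_le_pow_left₀ (by positivity) h2 2
  exact le_of_sq_le_sq (by rw [h5, h1]; linarith) (norm_nonneg _)

/-! ### The vectors -/

/-- the covector `ζ` -/
theorem arh_zeta {G : Geo n} {k : ℝ} (hk : 0 ≤ k) (hG : Curv G k) {p v : E n} (hv : v ≠ 0)
    {D : E n →L[ℝ] ℝ} {t τ : ℝ} (ht : 0 ≤ t) (hτ : 0 ≤ τ)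
    (hτ' : ∀ z, inner ℝ v z = 0 → |D z| ≤ τ * ‖z‖) {Ti : E n →L[ℝ] E n}
    (hTi1 : ∀ z, Ti (G.T p v z) = z) (hTi2 : ∀ ξ, G.T p v (Ti ξ) = ξ) :
    ∃ ζ : E n, (∀ ξ, inner ℝ ζ ξ = t * ‖v‖ * D (Ti ξ - (inner ℝ v (Ti ξ) / ‖v‖ ^ 2) • v)) ∧
      inner ℝ (‖v‖⁻¹ • G.T p v v) ζ = 0 ∧ ‖ζ‖ ≤ t * (‖v‖ ^ 2 / sn k ‖v‖ * τ) := by
  have hr : 0 < ‖v‖ := norm_pos_iff.2 hv
  have hsr := sn_pos hk hr
  set l : E n →L[ℝ] ℝ := (t * ‖v‖) • D.comp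
    (Ti - ((‖v‖ ^ 2)⁻¹ • (innerSL ℝ v).comp Ti).smulRight v) with hl
  have hlapp : ∀ ξ, l ξ = t * ‖v‖ *
      D (Ti ξ - (inner ℝ v (Ti ξ) / ‖v‖ ^ 2) • v) := fun ξ => by
    rw [hl]
    simp only [smul_apply, ContinuousLinearMap.comp_apply, sub_apply,
      ContinuousLinearMap.smulRight_apply, innerSL_apply_apply, smul_eq_mul]
    rw [div_eq_inv_mul]
  have hζξ : ∀ ξ, inner ℝ ((InnerProductSpace.toDual ℝ (E n)).symm l) ξ = l ξ := fun ξ => by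
    rw [InnerProductSpace.toDual_symm_apply]
  refine ⟨(InnerProductSpace.toDual ℝ (E n)).symm l, fun ξ => ?_, ?_, ?_⟩
  · rw [hζξ, hlapp]
  · rw [real_inner_comm, hζξ, hlapp, map_smul, hTi1, real_inner_smul_right,
      real_inner_self_eq_norm_sq]
    have h2 : ‖v‖⁻¹ • v - (‖v‖⁻¹ * ‖v‖ ^ 2 / ‖v‖ ^ 2) • v = 0 := by
      rw [mul_div_assoc, div_self (pow_ne_zero 2 hr.ne'), mul_one, sub_self]
    rw [h2, map_zero, mul_zero]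
  · rw [LinearIsometryEquiv.norm_map]
    refine ContinuousLinearMap.opNorm_le_bound _ (by positivity) fun ξ => ?_
    rw [hlapp, Real.norm_eq_abs, abs_mul, abs_of_nonneg (by positivity : 0 ≤ t * ‖v‖)]
    have hp := arh_perp v (Ti ξ) hv
    have h1 := hτ' _ hp
    have h2 := norm_T_sn (x := p) hk hG hv hp
    have h3 : ‖G.T p v (Ti ξ - (inner ℝ v (Ti ξ) / ‖v‖ ^ 2) • v)‖ ≤ ‖ξ‖ := by
      have h4 := G.pyth (p := p) (z := Ti ξ) hv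
      rw [hTi2] at h4
      have h5 := sq_nonneg (inner ℝ v (Ti ξ) / ‖v‖)
      exact le_of_sq_le_sq (by linarith) (norm_nonneg _)
    have h4 : ‖Ti ξ - (inner ℝ v (Ti ξ) / ‖v‖ ^ 2) • v‖ ≤ ‖v‖ / sn k ‖v‖ * ‖ξ‖ := by
      rw [div_mul_eq_mul_div, le_div_iff₀ hsr]
      calc ‖Ti ξ - (inner ℝ v (Ti ξ) / ‖v‖ ^ 2) • v‖ * sn k ‖v‖
          = sn k ‖v‖ * ‖Ti ξ - (inner ℝ v (Ti ξ) / ‖v‖ ^ 2) • v‖ := mul_comm _ _
        _ ≤ ‖v‖ * ‖G.T p v (Ti ξ - (inner ℝ v (Ti ξ) / ‖v‖ ^ 2) • v)‖ := h2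
        _ ≤ ‖v‖ * ‖ξ‖ := mul_le_mul_of_nonneg_left h3 hr.le
    calc t * ‖v‖ * |D (Ti ξ - (inner ℝ v (Ti ξ) / ‖v‖ ^ 2) • v)|
        ≤ t * ‖v‖ * (τ * ‖Ti ξ - (inner ℝ v (Ti ξ) / ‖v‖ ^ 2) • v‖) := by gcongr
      _ ≤ t * ‖v‖ * (τ * (‖v‖ / sn k ‖v‖ * ‖ξ‖)) := by gcongr
      _ = t * (‖v‖ ^ 2 / sn k ‖v‖ * τ) * ‖ξ‖ := by ring

theorem arh_radF (θ : E n → ℝ) (t a : ℝ) (v z : E n) :
    radF θ t v (z + a • v) = (1 - t * θ v) • z +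
      (a * (1 - t * θ v) - t * (fderiv ℝ θ v z + a * fderiv ℝ θ v v)) • v := by
  rw [radF_apply, map_add, map_smul, smul_eq_mul, smul_add, smul_smul, sub_smul (a * _),
    mul_comm (1 - t * θ v) a, add_sub_assoc]

/-- the formula for `B` -/
theorem arh_B (G : Geo n) {θ : E n → ℝ} {p v : E n} {t bh : ℝ} (hv : v ≠ 0)
    (hβ : 0 < 1 - t * θ v) (hbh : 0 < bh) {Ti : E n →L[ℝ] E n}
    (hTi1 : ∀ z, Ti (G.T p v z) = z) (hTi2 : ∀ ξ, G.T p v (Ti ξ) = ξ) {ζ : E n}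
    (hζ : ∀ ξ, inner ℝ ζ ξ =
      t * ‖v‖ * fderiv ℝ θ v (Ti ξ - (inner ℝ v (Ti ξ) / ‖v‖ ^ 2) • v)) (ξ : E n) :
    G.radB θ p t v Ti ξ =
      ((1 - t * (θ v + fderiv ℝ θ v v)) * inner ℝ (‖v‖⁻¹ • G.T p v v) ξ - inner ℝ ζ ξ) •
        (‖v‖⁻¹ • G.T p ((1 - t * θ v) • v) v) +
      bh • arhQ G p v (1 - t * θ v) ((1 - t * θ v) / bh) Ti
        (ξ - inner ℝ (‖v‖⁻¹ • G.T p v v) ξ • (‖v‖⁻¹ • G.T p v v)) := by
  have hr : ‖v‖ ≠ 0 := norm_ne_zero_iff.2 hv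
  have hc : 0 < (1 - t * θ v) / bh := by positivity
  have heξ : inner ℝ (‖v‖⁻¹ • G.T p v v) ξ = inner ℝ v (Ti ξ) / ‖v‖ := by
    rw [real_inner_smul_left, ← G.gauss p v (Ti ξ), hTi2]
    field_simp
  set z : E n := Ti ξ with hz
  have hp := arh_perp v z hv
  have h1 : Ti (ξ - inner ℝ (‖v‖⁻¹ • G.T p v v) ξ • (‖v‖⁻¹ • G.T p v v)) =
      z - (inner ℝ v z / ‖v‖ ^ 2) • v := by
    rw [map_sub, map_smul, map_smul, hTi1, heξ, smul_smul, ← hz]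
    congr 2
    field_simp
  rw [arhQ_apply G hv hc, h1, hp, zero_div, zero_smul, zero_smul, zero_add, sub_zero, heξ, hζ,
    ← hz]
  set z' : E n := z - (inner ℝ v z / ‖v‖ ^ 2) • v with hz'
  have hz2 : z = z' + (inner ℝ v z / ‖v‖ ^ 2) • v := by rw [hz']; abel
  have h2 : G.radB θ p t v Ti ξ = G.T p ((1 - t * θ v) • v) (radF θ t v z) := rfl
  have h3 : radF θ t v z = (1 - t * θ v) • z' + ((inner ℝ v z / ‖v‖ ^ 2) * (1 - t * θ v) -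
      t * (fderiv ℝ θ v z' + (inner ℝ v z / ‖v‖ ^ 2) * fderiv ℝ θ v v)) • v := by
    rw [← arh_radF, ← hz2]
  rw [h2, h3, map_add, map_smul, map_smul, smul_smul, smul_smul, add_comm]
  congr 2
  · field_simp
    ring
  · field_simp

/-! ### The angle -/

theorem arh_heN {G : Geo n} {p x N : E n} {b : ℝ} (hx : x ≠ p)
    (hb : b = inner ℝ (G.lg x p) N / (‖G.lg x p‖ * ‖N‖)) :
    inner ℝ (‖G.lg p x‖⁻¹ • G.T p (G.lg p x) (G.lg p x)) N = -(b * ‖N‖) := by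
  have hv : G.lg p x ≠ 0 := by
    rw [Ne, G.lg_eq_zero]
    exact fun h => hx h.symm
  have hr0 : ‖G.lg p x‖ ≠ 0 := norm_ne_zero_iff.2 hv
  have h2 : ‖G.lg x p‖ = ‖G.lg p x‖ := G.norm_lg_comm x p
  rw [G.T_self, G.lg_back', smul_neg, inner_neg_left, real_inner_smul_left, hb, h2]
  by_cases hN : ‖N‖ = 0
  · rw [norm_eq_zero.1 hN]
    simp
  · field_simp

theorem arh_hb1 {e N : E n} {b : ℝ} (he : ‖e‖ = 1) (heN : inner ℝ e N = -(b * ‖N‖))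
    (hN : N ≠ 0) : b ^ 2 ≤ 1 := by
  have h1 := abs_real_inner_le_norm e N
  rw [heN, he, one_mul, abs_neg, abs_mul, abs_norm] at h1
  have h2 : 0 < ‖N‖ := norm_pos_iff.2 hN
  have h3 : |b| ≤ 1 := by
    by_contra h
    push Not at h
    nlinarith
  exact (sq_le_one_iff_abs_le_one b).2 h3

/-- the angle part of the final estimate -/
theorem arh_last {e N : E n} {b α β s z : ℝ} (he : ‖e‖ = 1) (heN : inner ℝ e N = -(b * ‖N‖))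
    (hα : 0 ≤ α) (hz : 0 ≤ z) (hzs : z ≤ s) :
    √(β ^ 2 * inner ℝ e N ^ 2 + (α * √(‖N‖ ^ 2 - inner ℝ e N ^ 2) + |inner ℝ e N| * z) ^ 2) ≤
      √(β ^ 2 * b ^ 2 + (α * √(1 - b ^ 2) + |b| * s) ^ 2) * ‖N‖ := by
  have _ := he
  have hsq : √(‖N‖ ^ 2 - inner ℝ e N ^ 2) = ‖N‖ * √(1 - b ^ 2) := by
    rw [heN]
    have h1 : ‖N‖ ^ 2 - (-(b * ‖N‖)) ^ 2 = ‖N‖ ^ 2 * (1 - b ^ 2) := by ring
    rw [h1, Real.sqrt_mul (sq_nonneg _), Real.sqrt_sq (norm_nonneg _)]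
  rw [hsq, heN, abs_neg, abs_mul, abs_norm]
  exact area_final hα (norm_nonneg _) hz hzs

/-- the area element in the frames -/
theorem arh_frame (hn : 2 ≤ n) {G : Geo n} {k : ℝ} (hk : 0 ≤ k) (hG : Curv G k) {θ : E n → ℝ}
    {p v : E n} {t τ : ℝ} (hv : v ≠ 0) (ht : 0 ≤ t) (hτ : 0 ≤ τ)
    (hτ' : ∀ z, inner ℝ v z = 0 → |fderiv ℝ θ v z| ≤ τ * ‖z‖)
    (hθ0 : 0 ≤ θ v) (hβ : 0 < 1 - t * θ v) (hα : 0 < 1 - t * (θ v + fderiv ℝ θ v v))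
    {Ti : E n →L[ℝ] E n} (hTi1 : ∀ z, Ti (G.T p v z) = z) (hTi2 : ∀ ξ, G.T p v (Ti ξ) = ξ)
    {N y : E n} (hy : ∀ ξ, inner ℝ y (G.radB θ p t v Ti ξ) = inner ℝ N ξ) {bh d : ℝ}
    (hbh : bh = sn k ((1 - t * θ v) * ‖v‖) / sn k ‖v‖)
    (hd : d = ((1 - t * θ v) / bh) ^ (n - 1) *
      (|(G.T p ((1 - t * θ v) • v)).det| / |(G.T p v).det|)) {b : ℝ}
    (heN : inner ℝ (‖v‖⁻¹ • G.T p v v) N = -(b * ‖N‖)) :
    |(G.radB θ p t v Ti).det| * ‖y‖ ≤ bh ^ (n - 2) *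
      (√((bh * d) ^ 2 * b ^ 2 + ((1 - t * (θ v + fderiv ℝ θ v v)) * √(1 - b ^ 2) +
        |b| * (t * (‖v‖ ^ 2 / sn k ‖v‖ * τ))) ^ 2) * ‖N‖) := by
  have hr : 0 < ‖v‖ := norm_pos_iff.2 hv
  have hβ1 : 1 - t * θ v ≤ 1 := by
    have := mul_nonneg ht hθ0
    linarith
  have hbh0 : 0 < bh := by
    rw [hbh]
    exact div_pos (sn_pos hk (mul_pos hβ hr)) (sn_pos hk hr)
  have hc : 0 < (1 - t * θ v) / bh := div_pos hβ hbh0
  obtain ⟨ζ, hζ1, hζ2, hζ3⟩ := arh_zeta hk hG hv ht hτ hτ' hTi1 hTi2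
  have hee : ‖‖v‖⁻¹ • G.T p v v‖ = 1 := by
    have h1 := arh_T_smul_norm G (p := p) (v := v) one_ne_zero
    rw [one_smul] at h1
    rw [norm_smul, norm_inv, norm_norm, h1, inv_mul_cancel₀ hr.ne']
  have hee' : ‖‖v‖⁻¹ • G.T p ((1 - t * θ v) • v) v‖ = 1 := by
    rw [norm_smul, norm_inv, norm_norm, arh_T_smul_norm G hβ.ne', inv_mul_cancel₀ hr.ne']
  have heξ : ∀ ξ, inner ℝ (‖v‖⁻¹ • G.T p v v) ξ = inner ℝ v (Ti ξ) / ‖v‖ := fun ξ => by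
    rw [real_inner_smul_left, ← G.gauss p v (Ti ξ), hTi2]
    field_simp
  have hQe : arhQ G p v (1 - t * θ v) ((1 - t * θ v) / bh) Ti (‖v‖⁻¹ • G.T p v v) =
      ‖v‖⁻¹ • G.T p ((1 - t * θ v) • v) v := by
    rw [map_smul, arhQ_apply G hv hc, hTi1, real_inner_self_eq_norm_sq,
      div_self (pow_ne_zero 2 hr.ne'), one_smul, one_smul, sub_self, map_zero, smul_zero, add_zero]
  have hQp : ∀ ξ, inner ℝ (‖v‖⁻¹ • G.T p v v) ξ = 0 →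
      inner ℝ (‖v‖⁻¹ • G.T p ((1 - t * θ v) • v) v)
        (arhQ G p v (1 - t * θ v) ((1 - t * θ v) / bh) Ti ξ) = 0 := fun ξ hξ => by
    rw [heξ, div_eq_zero_iff, or_iff_left hr.ne'] at hξ
    rw [arhQ_apply G hv hc, hξ, zero_div, zero_smul, zero_add, zero_smul, sub_zero,
      real_inner_smul_left, real_inner_smul_right, G.gauss_smul hβ.ne', hξ, mul_zero, mul_zero]
  have hdet := arhQ_det hn G (p := p) (β := 1 - t * θ v) hv hc hTi1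
  have hT0 := G.det_T_ne p v
  have hT0' := G.det_T_ne p ((1 - t * θ v) • v)
  have hQd : (arhQ G p v (1 - t * θ v) ((1 - t * θ v) / bh) Ti).det ≠ 0 := fun h => by
    rw [h, zero_mul] at hdet
    exact mul_ne_zero (pow_ne_zero _ hc.ne') hT0' hdet.symm
  have hd2 : (arhQ G p v (1 - t * θ v) ((1 - t * θ v) / bh) Ti).det ^ 2 = d ^ 2 := by
    have h1 : (arhQ G p v (1 - t * θ v) ((1 - t * θ v) / bh) Ti).det =
        ((1 - t * θ v) / bh) ^ (n - 1) * ((G.T p ((1 - t * θ v) • v)).det / (G.T p v).det) := by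
      rw [eq_comm, ← mul_div_assoc, div_eq_iff hT0]
      exact hdet.symm
    rw [h1, hd, mul_pow, mul_pow, ← abs_div, sq_abs]
  have hmain := area_linear_H hn (arhQ_norm hk hG hv hβ hβ1 hbh hTi2) hee hee' hQe hQp hQd hζ2 hα
    hbh0 (arh_B G hv hβ hbh0 hTi1 hTi2 hζ1) hy
  refine hmain.trans (mul_le_mul_of_nonneg_left ?_ (by positivity))
  rw [mul_pow, hd2, ← mul_pow]
  exact arh_last hee heN hα.le (norm_nonneg _) hζ3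

/-- Area element of `rad θ p t` in curvature `≤ -k²`; `v = lg p x`, `r = ‖v‖`,
`β_h = sn((1-tθ)r)/sn(r)`, `d = ((1-tθ)/β_h)^(n-1) |det T(p,(1-tθ)v)|/|det T(p,v)|`. PROOF: as
`area_elem`, with `T₁ = T p v`, `T₂ = T p ((1-tθ)v)`, `e = T₁ v / r`, `e' = T₂ v / r`,
`Q (T₁ v) = T₂ v`, `Q (T₁ z) = ((1-tθ)/β_h) T₂ z` for `z ⟂ v` (norm non-increasing: `mono_sn`),
`⟨ζ, T₁ z⟩ = t r Dθ(z)`, `‖ζ‖ ≤ t r τ (r/sn r)` by `norm_T_sn`, and `area_linear_H`. -/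
theorem area_elem_H (hn : 2 ≤ n) {G : Geo n} {k : ℝ} (hk : 0 ≤ k) (hG : Curv G k) {θ : E n → ℝ}
    {p x : E n} {t τ : ℝ} (hx : x ≠ p)
    (hθ : DifferentiableAt ℝ θ (G.lg p x)) (ht : 0 ≤ t) (hτ : 0 ≤ τ)
    (hτ' : ∀ z, inner ℝ (G.lg p x) z = 0 → |fderiv ℝ θ (G.lg p x) z| ≤ τ * ‖z‖)
    (hθ0 : 0 ≤ θ (G.lg p x)) (hβ : 0 < 1 - t * θ (G.lg p x))
    (hα : 0 < 1 - t * (θ (G.lg p x) + fderiv ℝ θ (G.lg p x) (G.lg p x))) {N y : E n}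
    (hy : ∀ ξ η, G.A (G.rad θ p t x) η = fderiv ℝ (G.rad θ p t) x (G.A x ξ) →
      inner ℝ y η = inner ℝ N ξ) {b : ℝ}
    (hb : b = inner ℝ (G.lg x p) N / (‖G.lg x p‖ * ‖N‖)) {bh d : ℝ}
    (hbh : bh = sn k ((1 - t * θ (G.lg p x)) * ‖G.lg p x‖) / sn k ‖G.lg p x‖)
    (hd : d = ((1 - t * θ (G.lg p x)) / bh) ^ (n - 1) *
      (|(G.T p ((1 - t * θ (G.lg p x)) • G.lg p x)).det| / |(G.T p (G.lg p x)).det|)) :
    G.w (G.rad θ p t x) * |(fderiv ℝ (G.rad θ p t) x).det| * ‖y‖ ≤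
      G.w x * (bh ^ (n - 2) *
        √((bh * d) ^ 2 * b ^ 2 +
          ((1 - t * (θ (G.lg p x) + fderiv ℝ θ (G.lg p x) (G.lg p x))) * √(1 - b ^ 2) +
            |b| * (t * (‖G.lg p x‖ ^ 2 / sn k ‖G.lg p x‖ * τ))) ^ 2)) * ‖N‖ := by
  have hv : G.lg p x ≠ 0 := by
    rw [Ne, G.lg_eq_zero]
    exact fun h => hx h.symm
  obtain ⟨Ti, hTi1, hTi2⟩ := G.exists_T_inv p (G.lg p x)
  have hAB : ∀ ξ, G.A (G.rad θ p t x) (G.radB θ p t (G.lg p x) Ti ξ) =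
      fderiv ℝ (G.rad θ p t) x (G.A x ξ) := fun ξ => G.fderiv_rad hθ hTi2 ξ
  have hmain := arh_frame hn hk hG hv ht hτ hτ' hθ0 hβ hα hTi1 hTi2
    (fun ξ => hy ξ _ (hAB ξ)) hbh hd (arh_heN hx hb)
  rw [G.w_det_rad hAB, mul_assoc, mul_assoc, mul_assoc]
  exact mul_le_mul_of_nonneg_left hmain (G.w_pos x).le

end Vale.Agent.P219.TPH
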