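import Vale.Agent.P219.TPH.Defs
import Vale.Agent.P219.TP.VpContract

/-! # Volume of `{h = 1}` under a contraction (task H8) -/

open MeasureTheory Set Metric
open scoped ENNReal ContDiff

namespace Vale.Agent.P219.TPH

open Vale.Agent.P219.TP

variable {n : ℕ} (G : Geo n)

/-- The indicator of `{h = 1}`. -/
noncomputable def volhChi (h : E n → ℝ) (x : E n) : ℝ := {x | h x = 1}.indicator (fun _ => 1) x

theorem volhChi_nonneg (h : E n → ℝ) (x : E n) : 0 ≤ volhChi h x :=
  indicator_nonneg (fun _ _ => zero_le_one) x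

theorem volhChi_le_one (h : E n → ℝ) (x : E n) : volhChi h x ≤ 1 := by
  unfold volhChi
  by_cases hx : x ∈ {x | h x = 1}
  · rw [indicator_of_mem hx]
  · rw [indicator_of_notMem hx]
    exact zero_le_one

theorem volhChi_zero {h : E n → ℝ} {x : E n} (hx : h x = 0) : volhChi h x = 0 := by
  unfold volhChi
  refine indicator_of_notMem ?_ _
  intro hx'
  have : h x = 1 := hx'
  rw [hx] at this
  exact zero_ne_one this

theorem volhChi_one {h : E n → ℝ} {x : E n} (hx : h x = 1) : volhChi h x = 1 := by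
  unfold volhChi
  exact indicator_of_mem (show x ∈ {x | h x = 1} from hx) _

theorem volh_meas {h : E n → ℝ} (hh : Continuous h) : MeasurableSet {x | h x = 1} :=
  (isClosed_eq hh continuous_const).measurableSet

theorem volh_compact {o : E n} {ρ : ℝ} {h : E n → ℝ} (hh : G.Cls o ρ h) :
    IsCompact {x | h x = 1} := by
  refine (G.isCompact_gball o ρ).of_isClosed_subset
    (isClosed_eq hh.smooth.continuous continuous_const) ?_
  intro x hx
  have hx1 : h x = 1 := hx
  exact hh.supp x (by rw [hx1]; exact one_ne_zero)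

theorem volh_integrable {o : E n} {ρ : ℝ} {h : E n → ℝ} (hh : G.Cls o ρ h) {f : E n → ℝ}
    (hf : Continuous f) : Integrable fun x => volhChi h x * f x := by
  have h1 : (fun x => volhChi h x * f x) = {x | h x = 1}.indicator f := by
    funext x
    unfold volhChi
    by_cases hx : x ∈ {x | h x = 1}
    · rw [indicator_of_mem hx, indicator_of_mem hx, one_mul]
    · rw [indicator_of_notMem hx, indicator_of_notMem hx, zero_mul]
  rw [h1, integrable_indicator_iff (volh_meas hh.smooth.continuous)]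
  exact hf.continuousOn.integrableOn_compact (volh_compact G hh)

theorem volh_V1 {h : E n → ℝ} (hh : Continuous h) :
    V1 G h = ∫ x, volhChi h x ∂G.vol := by
  unfold V1 volhChi
  exact (integral_indicator_one (volh_meas hh)).symm

/-- PROOF: as `vp_contract` (with `R = 1`), with the indicator of `{h = 1}` in place of `h^q`:
`{h ∘ Ψ.symm = 1} = Ψ '' {h = 1}`, `vol_exp`, and
`|∫ 1_{h=1} dvX - ∫ h dvX| ≤ C vol{0<h<1}`, `dvX_ibp`. -/
theorem v1_contract (o : E n) {ρ : ℝ} {Φ : ℝ × ℝ → ℝ} {δ : ℝ}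
    (hδ : 0 < δ) (hΦ : ContDiffOn ℝ ∞ Φ {p | -δ < p.1}) :
    ∃ C t₀ : ℝ, 0 ≤ C ∧ 0 < t₀ ∧ ∀ (p ν : E n) (t : ℝ) (h : E n → ℝ), ‖G.lg o p‖ ≤ ρ →
      ‖ν‖ = 1 → 0 ≤ t → t ≤ t₀ → G.Cls o ρ h → ∀ θ : E n → ℝ,
      (∀ v, ‖v‖ < 2 * ρ + 1 → θ v = th Φ 1 ν v) → ∀ Ψ : E n ≃ₜ E n,
      (∀ x, Ψ x = G.rad θ p t x) → ContDiff ℝ ∞ Ψ → ContDiff ℝ ∞ Ψ.symm →
      V1 G h - t * (∫ x, th Φ 1 ν (G.lg p x) * inner ℝ (G.lg x p) (G.D h x) ∂G.vol) -
          C * t * G.vol.real {x | 0 < h x ∧ h x < 1} - C * t ^ 2 ≤ V1 G (h ∘ Ψ.symm) := by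
  obtain ⟨C₁, t₁, hC₁, ht₁, hexp⟩ := vol_exp G o ρ hδ hΦ (R₀ := 1) (R₁ := 1) one_pos
  obtain ⟨C₂, hC₂, hbd⟩ := dvX_bound G o ρ hδ hΦ (R₀ := 1) (R₁ := 1) one_pos
  set B : Set (E n) := {x | ‖G.lg o x‖ ≤ ρ} with hB
  have hBc : IsCompact B := G.isCompact_gball o ρ
  set C₃ : ℝ := (volume : Measure (E n)).real B with hC₃
  have hC₃0 : 0 ≤ C₃ := measureReal_nonneg
  refine ⟨C₂ + C₁ * C₃, t₁, by positivity, ht₁, ?_⟩
  intro p ν t h hp hν ht ht' hcls θ hθ Ψ hΨ hΨs hΨs'
  have hc := vpc_hasCompactSupport G hcls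
  have hcont := hcls.smooth.continuous
  have hhq0 : ∀ x, 0 ≤ volhChi h x := volhChi_nonneg h
  have hhq1 : ∀ x, volhChi h x ≤ 1 := volhChi_le_one h
  have hdvc := vpc_continuous_dvX G hδ hΦ 1 ν p
  have hwc := G.w_smooth.continuous
  -- the transformed integral
  have hfd : Continuous fun x => (fderiv ℝ Ψ x).det := by
    have : Continuous fun x => fderiv ℝ Ψ x := hΨs.continuous_fderiv (by simp)
    exact ContinuousLinearMap.continuous_det.comp this
  have e1 : V1 G (h ∘ Ψ.symm) = ∫ x, volhChi h x * (G.w (Ψ x) * |(fderiv ℝ Ψ x).det|) := by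
    rw [volh_V1 G (hcont.comp Ψ.symm.continuous), integral_vol_comp G hΨs, ibp_integral_vol]
    refine integral_congr_ae (Filter.Eventually.of_forall fun x => ?_)
    have hw := (G.w_pos x).ne'
    have hchi : volhChi (h ∘ Ψ.symm) (Ψ x) = volhChi h x := by
      unfold volhChi
      by_cases hx : h x = 1
      · rw [indicator_of_mem (show x ∈ {x | h x = 1} from hx), indicator_of_mem]
        show h (Ψ.symm (Ψ x)) = 1
        rw [Homeomorph.symm_apply_apply]
        exact hx
      · rw [indicator_of_notMem (show x ∉ {x | h x = 1} from hx), indicator_of_notMem]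
        intro hx'
        have h2 : h (Ψ.symm (Ψ x)) = 1 := hx'
        rw [Homeomorph.symm_apply_apply] at h2
        exact hx h2
    simp only [hchi]
    field_simp
  have e2 : V1 G h = ∫ x, volhChi h x * G.w x := by
    rw [volh_V1 G hcont, ibp_integral_vol]
    refine integral_congr_ae (Filter.Eventually.of_forall fun x => ?_)
    simp only
    rw [mul_comm]
  have i1 : Integrable fun x => volhChi h x * (G.w (Ψ x) * |(fderiv ℝ Ψ x).det|) :=
    volh_integrable G hcls ((hwc.comp Ψ.continuous).mul hfd.abs)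
  have i2 : Integrable fun x => volhChi h x * G.w x := volh_integrable G hcls hwc
  have i3 : Integrable fun x => volhChi h x * G.dvX Φ 1 ν p x := volh_integrable G hcls hdvc
  have i4 : Integrable fun x => volhChi h x := by
    have := volh_integrable G hcls (f := fun _ => (1 : ℝ)) continuous_const
    simpa using this
  have i5 : Integrable fun x => h x * G.dvX Φ 1 ν p x :=
    (hcont.mul hdvc).integrable_of_hasCompactSupport hc.mul_right
  -- pointwise lower bound
  have hpt : ∀ x, volhChi h x * G.w x - t * (volhChi h x * G.dvX Φ 1 ν p x) -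
      C₁ * t ^ 2 * volhChi h x ≤ volhChi h x * (G.w (Ψ x) * |(fderiv ℝ Ψ x).det|) := by
    intro x
    by_cases hx : h x = 0
    · rw [volhChi_zero hx]; simp
    · have hxB : ‖G.lg o x‖ ≤ ρ := hcls.supp x hx
      have hpx := vpc_norm_lg_le G hp hxB
      have hev : ∀ᶠ y in nhds x, (Ψ : E n → E n) y = G.Psi Φ 1 ν p t y := by
        have ho : IsOpen {y | ‖G.lg p y‖ < 2 * ρ + 1} :=
          isOpen_lt (ibp_contDiff_lg_left G p).continuous.norm continuous_const
        filter_upwards [ho.mem_nhds (show ‖G.lg p x‖ < 2 * ρ + 1 by linarith)] with y hy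
        rw [hΨ y]
        unfold Geo.rad Geo.Psi
        rw [hθ _ hy]
      have hf : fderiv ℝ Ψ x = fderiv ℝ (G.Psi Φ 1 ν p t) x :=
        Filter.EventuallyEq.fderiv_eq hev
      have hv : Ψ x = G.Psi Φ 1 ν p t x := hev.self_of_nhds
      have := hexp p ν x 1 t hp hν hxB le_rfl le_rfl ht ht'
      rw [hf, hv]
      have h2 := mul_le_mul_of_nonneg_left this (hhq0 x)
      linarith
  have hlow : V1 G h - t * (∫ x, volhChi h x * G.dvX Φ 1 ν p x) -
      C₁ * t ^ 2 * (∫ x, volhChi h x) ≤ V1 G (h ∘ Ψ.symm) := by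
    have i23 : Integrable fun x => volhChi h x * G.w x - t * (volhChi h x * G.dvX Φ 1 ν p x) :=
      i2.sub (i3.const_mul t)
    have i24 : Integrable fun x => C₁ * t ^ 2 * volhChi h x := i4.const_mul _
    rw [e1, e2, ← integral_const_mul, ← integral_const_mul, ← integral_sub i2 (i3.const_mul t),
      ← integral_sub i23 i24]
    exact integral_mono (i23.sub i24) i1 hpt
  -- the error terms
  have hvolB : ∫ x, volhChi h x ≤ C₃ := by
    have hBm : MeasurableSet B := hBc.measurableSet
    have i6 : Integrable (B.indicator fun _ : E n => (1 : ℝ)) := by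
      rw [integrable_indicator_iff hBm]
      exact integrableOn_const hBc.measure_lt_top.ne
    have e3 : ∫ x, (B.indicator fun _ : E n => (1 : ℝ)) x = C₃ := by
      rw [integral_indicator hBm, hC₃]
      simp
    rw [← e3]
    refine integral_mono i4 i6 fun x => ?_
    by_cases hx : h x = 0
    · simp only [volhChi_zero hx]
      exact indicator_nonneg (fun _ _ => zero_le_one) x
    · have hxB : x ∈ B := hcls.supp x hx
      simp only [indicator_of_mem hxB]
      exact hhq1 x
  set S : Set (E n) := {x | 0 < h x ∧ h x < 1} with hS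
  have hSm : MeasurableSet S :=
    ((isOpen_lt continuous_const hcont).inter (isOpen_lt hcont continuous_const)).measurableSet
  have hSB : S ⊆ B := fun x hx => hcls.supp x hx.1.ne'
  have i7 : Integrable (S.indicator fun x => C₂ * G.w x) := by
    rw [integrable_indicator_iff hSm]
    exact ((continuous_const.mul hwc).continuousOn.integrableOn_compact hBc).mono_set hSB
  have e4 : ∫ x, (S.indicator fun x => C₂ * G.w x) x = C₂ * G.vol.real S := by
    have : (S.indicator fun x => C₂ * G.w x) = fun x => G.w x * S.indicator (fun _ => C₂) x := by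
      funext x
      by_cases hx : x ∈ S
      · simp only [indicator_of_mem hx]; ring
      · simp only [indicator_of_notMem hx]; ring
    rw [this, ← ibp_integral_vol, integral_indicator hSm]
    simp [mul_comm]
  have hdiff : (∫ x, volhChi h x * G.dvX Φ 1 ν p x) - (∫ x, h x * G.dvX Φ 1 ν p x) ≤
      C₂ * G.vol.real S := by
    rw [← integral_sub i3 i5, ← e4]
    refine integral_mono (i3.sub i5) i7 fun x => ?_
    simp only
    by_cases hx : x ∈ S
    · rw [indicator_of_mem hx]
      have hb := hbd p ν x 1 hp hν (hSB hx) le_rfl le_rfl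
      have h1 : volhChi h x * G.dvX Φ 1 ν p x - h x * G.dvX Φ 1 ν p x ≤
          |volhChi h x - h x| * |G.dvX Φ 1 ν p x| := by
        rw [← abs_mul, ← sub_mul]
        exact le_abs_self _
      have h2 : |volhChi h x - h x| ≤ 1 := by
        rw [abs_le]
        constructor
        · linarith [hhq0 x, hcls.le_one x]
        · linarith [hhq1 x, hcls.nonneg x]
      calc _ ≤ |volhChi h x - h x| * |G.dvX Φ 1 ν p x| := h1
        _ ≤ 1 * |G.dvX Φ 1 ν p x| := mul_le_mul_of_nonneg_right h2 (abs_nonneg _)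
        _ ≤ C₂ * G.w x := by rw [one_mul]; exact hb
    · rw [indicator_of_notMem hx]
      have hx' : h x = 0 ∨ h x = 1 := by
        by_contra hcon
        push Not at hcon
        exact hx ⟨lt_of_le_of_ne (hcls.nonneg x) (Ne.symm hcon.1),
          lt_of_le_of_ne (hcls.le_one x) hcon.2⟩
      rcases hx' with hx' | hx'
      · rw [volhChi_zero hx', hx']; simp
      · rw [volhChi_one hx', hx']; simp
  have hibp := dvX_ibp G hδ hΦ one_pos ν p hcls.smooth hc
  have hV : 0 ≤ G.vol.real S := measureReal_nonneg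
  have f1 : t * (∫ x, volhChi h x * G.dvX Φ 1 ν p x) ≤
      t * (∫ x, th Φ 1 ν (G.lg p x) * inner ℝ (G.lg x p) (G.D h x) ∂G.vol) +
        t * (C₂ * G.vol.real S) := by
    rw [← hibp, ← mul_add]
    exact mul_le_mul_of_nonneg_left (by linarith) ht
  have f2 : C₁ * t ^ 2 * (∫ x, volhChi h x) ≤ C₁ * t ^ 2 * C₃ :=
    mul_le_mul_of_nonneg_left hvolB (by positivity)
  have f3 : 0 ≤ C₁ * C₃ * t * G.vol.real S := by positivity
  have f4 : 0 ≤ C₂ * t ^ 2 := by positivity
  nlinarith [hlow, f1, f2, f3, f4]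

end Vale.Agent.P219.TPH
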