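import Vale.Agent.P219.TPH.Defs
import Vale.Agent.P219.TP.Cutoff

/-! # Cut-off of the contraction rate (task H6) -/

open MeasureTheory Set Metric
open scoped ENNReal ContDiff

namespace Vale.Agent.P219.TPH

open Vale.Agent.P219.TP

variable {n : ℕ}

theorem th_one_nonneg {Φ : ℝ × ℝ → ℝ} (hΦ0 : ∀ r a : ℝ, 0 ≤ r → |a| ≤ 1 → 0 ≤ Φ (r ^ 2, r * a))
    {ν v : E n} (hν : ‖ν‖ = 1) : 0 ≤ th Φ 1 ν v := by
  have h1 : |inner ℝ v ν / ‖v‖| ≤ 1 := by
    rw [abs_div, abs_norm]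
    refine div_le_one_of_le₀ ?_ (norm_nonneg v)
    have h2 := abs_real_inner_le_norm v ν
    rwa [hν, mul_one] at h2
  have h2 : ‖v‖ * (inner ℝ v ν / ‖v‖) = inner ℝ v ν := by
    by_cases hv : ‖v‖ = 0
    · have hv' : v = 0 := norm_eq_zero.1 hv
      rw [hv', inner_zero_left, norm_zero, zero_mul]
    · exact mul_div_cancel₀ _ hv
  have h3 := hΦ0 ‖v‖ (inner ℝ v ν / ‖v‖) (norm_nonneg v) h1
  rw [h2] at h3
  unfold th
  rw [inv_one, one_mul, one_pow, div_one, div_one]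
  exact h3

/-- As `exists_cutoff`, `R = 1`, weaker positivity. -/
theorem exists_cutoff_H {Φ : ℝ × ℝ → ℝ} {δ : ℝ} (hδ : 0 < δ)
    (hΦ : ContDiffOn ℝ ∞ Φ {p | -δ < p.1})
    (hΦ0 : ∀ r a : ℝ, 0 ≤ r → |a| ≤ 1 → 0 ≤ Φ (r ^ 2, r * a)) (L : ℝ) :
    ∃ M : ℝ, 0 ≤ M ∧ ∀ ν : E n, ‖ν‖ = 1 →
      ∃ θ : E n → ℝ, ContDiff ℝ ∞ θ ∧ (∀ v, 0 ≤ θ v) ∧
        (∀ v, ‖v‖ < L → θ v = th Φ 1 ν v) ∧
        ∀ v v', ‖θ v • v - θ v' • v'‖ ≤ M * ‖v - v'‖ := by
  let χ : ContDiffBump (0 : E n) := ⟨|L| + 1, |L| + 2, by positivity, by linarith⟩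
  have hχ : ContDiff ℝ ∞ (χ : E n → ℝ) := χ.contDiff
  have hth := cut_th_contDiffOn (n := n) hδ hΦ
  have h2 : ContDiff ℝ ∞ (fun z : E n × ℝ × E n => z.2.2) := by fun_prop
  set g : E n × ℝ × E n → E n := fun z => (χ z.2.2 * th Φ z.2.1 z.1 z.2.2) • z.2.2 with hg
  have hgs : ContDiffOn ℝ ∞ g (cutU n) :=
    ((hχ.comp h2).contDiffOn.mul hth).smul h2.contDiffOn
  obtain ⟨C, hC⟩ := (cutK_compact (n := n) 1 1 (|L| + 2)).exists_bound_of_continuousOn
    ((hgs.continuousOn_fderiv_of_isOpen cutU_open (by norm_num)).mono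
      (cutK_subset one_pos 1 _))
  refine ⟨max C 0, le_max_right _ _, fun ν hν => ?_⟩
  have hR : (0 : ℝ) < 1 := one_pos
  have hs : ContDiff ℝ ∞ (fun v : E n => ((ν, (1 : ℝ), v) : E n × ℝ × E n)) := by fun_prop
  have hths : ContDiff ℝ ∞ (fun v => th Φ 1 ν v) := by
    have := hth.comp_contDiff hs (fun v => hR)
    exact this
  refine ⟨fun v => χ v * th Φ 1 ν v, hχ.mul hths, fun v => ?_, fun v hv => ?_, ?_⟩
  · exact mul_nonneg χ.nonneg (th_one_nonneg hΦ0 hν)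
  · change χ v * th Φ 1 ν v = th Φ 1 ν v
    rw [χ.one_of_mem_closedBall, one_mul]
    rw [mem_closedBall, dist_zero_right]
    change ‖v‖ ≤ |L| + 1
    have := le_abs_self L
    linarith
  · have hd : ∀ v : E n, HasFDerivAt (fun v => g (ν, 1, v))
        ((fderiv ℝ g (ν, 1, v)).comp (cutI n)) v :=
      fun v => cut_hasFDerivAt hgs hR
    have hb : ∀ v : E n, ‖(fderiv ℝ g (ν, 1, v)).comp (cutI n)‖ ≤ max C 0 := by
      intro v
      by_cases hv : ‖v‖ ≤ |L| + 2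
      · refine ContinuousLinearMap.opNorm_le_bound _ (le_max_right _ _) fun w => ?_
        have h3 := hC _ (cutK_mem hν le_rfl le_rfl hv)
        calc ‖((fderiv ℝ g (ν, 1, v)).comp (cutI n)) w‖ = ‖fderiv ℝ g (ν, 1, v) (cutI n w)‖ := rfl
          _ ≤ ‖fderiv ℝ g (ν, 1, v)‖ * ‖cutI n w‖ := ContinuousLinearMap.le_opNorm _ _
          _ ≤ max C 0 * ‖w‖ := mul_le_mul (h3.trans (le_max_left _ _)) (cutI_norm_le w)
              (norm_nonneg _) (le_max_right _ _)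
      · rw [not_le] at hv
        have h0' : (fun v => g (ν, 1, v)) =ᶠ[nhds v] fun _ => 0 := by
          have : {v : E n | |L| + 2 < ‖v‖} ∈ nhds v :=
            (isOpen_lt continuous_const continuous_norm).mem_nhds hv
          filter_upwards [this] with v' hv'
          simp only [hg]
          rw [χ.zero_of_le_dist, zero_mul, zero_smul]
          rw [dist_zero_right]
          exact le_of_lt hv'
        have h4 := (hd v).congr_of_eventuallyEq h0'.symm
        have h5 := h4.unique (hasFDerivAt_const (0 : E n) v)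
        rw [h5, norm_zero]
        exact le_max_right _ _
    intro v v'
    have := Convex.norm_image_sub_le_of_norm_hasFDerivWithin_le (s := (univ : Set (E n)))
      (f := fun v => g (ν, 1, v)) (x := v') (y := v)
      (fun v _ => (hd v).hasFDerivWithinAt) (fun v _ => hb v) convex_univ (mem_univ _) (mem_univ _)
    exact this

end Vale.Agent.P219.TPH
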