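import Vale.Agent.P219.TP.XfDefs
import Vale.Agent.P219.TP.RayDefs
import Vale.Agent.P219.TP.RayIneq

/-!
# P219, two-point kernel method in curvature `≤ -k²`: definitions

Relaxed version: the model kernel may be negative; the difference between the exact kernel and the
model kernel is used (two-ended index form).
-/

open MeasureTheory Set Metric
open scoped ENNReal ContDiff

namespace Vale.Agent.P219.TPH

open Vale.Agent.P219.TP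

/-- `sn_k(r) = sinh(k r)/k`, and `r` if `k = 0`. -/
noncomputable def sn (k r : ℝ) : ℝ := if k = 0 then r else Real.sinh (k * r) / k

/-- `cs_k(r) = cosh(k r)`. -/
noncomputable def cs (k r : ℝ) : ℝ := Real.cosh (k * r)

variable {n : ℕ}

/-- `r (Δ r_x - (n-1) ct(r))` at the point `ex x v`, `r = ‖v‖`. -/
noncomputable def rtau (G : Geo n) (k : ℝ) (x v : E n) : ℝ :=
  fderiv ℝ (fun u => Real.log (G.T x u).det) v v +
    ((n : ℝ) - 1) * (1 - ‖v‖ * cs k ‖v‖ / sn k ‖v‖)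

/-- Curvature at most `-k²`: Rauch comparison and the two-ended index form comparison. -/
structure Curv (G : Geo n) (k : ℝ) : Prop where
  mono_sn : ∀ (x v z : E n) (s : ℝ), inner ℝ v z = 0 → 0 < s → s ≤ 1 →
    s * sn k ‖v‖ * ‖G.T x (s • v) z‖ ≤ sn k (s * ‖v‖) * ‖G.T x v z‖
  bonus : ∀ (x v : E n) (a b : ℝ), v ≠ 0 → 0 ≤ a → 0 ≤ b →
    2 * a * b * (‖v‖ / sn k ‖v‖) *
        (1 - (sn k ‖v‖ / ‖v‖) ^ (n - 1) / |(G.T x v).det|) ≤
      b ^ 2 * rtau G k x v + a ^ 2 * rtau G k (G.ex x v) (G.lg (G.ex x v) x)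

/-- The radial field `φ(r,a) = r Φ(r², ra)`. -/
noncomputable def ph (Φ : ℝ × ℝ → ℝ) (r a : ℝ) : ℝ := r * Φ (r ^ 2, r * a)

/-- First variation of area of the field `φ(r,a) ∇r` in curvature `-k²`, `m = n - 1`. -/
noncomputable def kapH (k : ℝ) (m : ℕ) (Φ : ℝ × ℝ → ℝ) (r a b : ℝ) : ℝ :=
  (Φ (r ^ 2, r * a) + 2 * r ^ 2 * fderiv ℝ Φ (r ^ 2, r * a) (1, 0) +
      r * a * fderiv ℝ Φ (r ^ 2, r * a) (0, 1)) * (1 - b ^ 2) +
    r * cs k r / sn k r * Φ (r ^ 2, r * a) * ((m : ℝ) - 1 + b ^ 2) -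
    r ^ 2 / sn k r * |fderiv ℝ Φ (r ^ 2, r * a) (0, 1)| * |b| * √((1 - a ^ 2) * (1 - b ^ 2))

/-- The even part of the symmetrised model kernel. -/
noncomputable def NH (k : ℝ) (m : ℕ) (Φ : ℝ × ℝ → ℝ) (lam r a b : ℝ) : ℝ :=
  lam + (kapH k m Φ r a b + kapH k m Φ r b a) / 2

/-- The symmetrised model kernel; `H` is the mean curvature of the model ball. -/
noncomputable def KH (k : ℝ) (m : ℕ) (Φ : ℝ × ℝ → ℝ) (lam H r a b : ℝ) : ℝ :=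
  NH k m Φ lam r a b - H / 2 * (ph Φ r a * b + ph Φ r b * a)

/-- Area of the model sphere. -/
noncomputable def AR (n : ℕ) (k R : ℝ) : ℝ := sig n * sn k R ^ (n - 1)

/-- Volume of the model ball. -/
noncomputable def VR (n : ℕ) (k R : ℝ) : ℝ := sig n * ∫ r in (0 : ℝ)..R, sn k r ^ (n - 1)

/-- Mean curvature of the model sphere. -/
noncomputable def H0 (n : ℕ) (k R : ℝ) : ℝ := ((n : ℝ) - 1) * cs k R / sn k R

/-- The conditions on a smooth field. -/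
structure Good (n : ℕ) (k : ℝ) (Φ : ℝ × ℝ → ℝ) (lam H s : ℝ) (f : ℝ → ℝ) : Prop where
  smooth : ∃ δ > 0, ContDiffOn ℝ ∞ Φ {p | -δ < p.1}
  nonneg : ∀ r a : ℝ, 0 ≤ r → |a| ≤ 1 → 0 ≤ Φ (r ^ 2, r * a)
  c1 : ∀ r a b : ℝ, 0 < r → |a| ≤ 1 → |b| ≤ 1 →
    H / 2 * (ph Φ r b * max a 0) ≤ NH k (n - 1) Φ lam r a b
  c3 : ∀ a : ℝ, |a| ≤ 1 → MonotoneOn (fun r => ph Φ r a * sn k r ^ (n - 1)) (Ioi 0)
  c7 : ∀ r a b : ℝ, 0 < r → 0 ≤ a → a ≤ 1 → 0 ≤ b → b ≤ 1 →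
    0 ≤ KH k (n - 1) Φ lam H r a b + a * b * √(ph Φ r a * ph Φ r b) / sn k r
  c6 : ∀ r a b : ℝ, 0 < r → 0 ≤ a → a ≤ 1 → 0 ≤ b → b ≤ 1 →
    a * b * (s * r - (f a + f b) / 2) ≤ KH k (n - 1) Φ lam H r a b * sn k r ^ (n - 1)

/-- Certificate for the isoperimetric inequality in dimension `n`, curvature `≤ -k²`, for the
model ball of radius `R`. -/
structure CertH (n : ℕ) (k R : ℝ) where
  lam : ℝ
  s : ℝ
  F : ℝ
  f : ℝ → ℝ
  lam_pos : 0 < lam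
  s_nonneg : 0 ≤ s
  f_cont : Continuous f
  f_nonneg : ∀ a ∈ Icc (0 : ℝ) 1, 0 ≤ f a
  hF : ∀ e : E n, ‖e‖ = 1 →
    ∫ u : sphere (0 : E n) 1, f (max 0 (inner ℝ e (u : E n))) * max 0 (inner ℝ e (u : E n))
      ∂((volume : Measure (E n)).toSphere) ≤ F
  balance : lam * AR n k R ^ 2 ≤ s * sig n * VR n k R - F * AR n k R
  approx : ∀ ε > 0, ∃ Φ : ℝ × ℝ → ℝ, Good n k Φ (lam + ε) (H0 n k R) s (fun a => f a + ε)

/-! ### The pair kernels -/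

/-- First variation of area towards `p` at `x`, direction `ν` at `p`, cosine `b` at `x`. -/
noncomputable def kapE (G : Geo n) (k : ℝ) (Φ : ℝ × ℝ → ℝ) (ν p x : E n) (b : ℝ) : ℝ :=
  kapH k (n - 1) Φ ‖G.lg p x‖ (inner ℝ (G.lg p x) ν / ‖G.lg p x‖) b +
    th Φ 1 ν (G.lg p x) * b ^ 2 * rtau G k p (G.lg p x)

/-- The exact kernel, before symmetrisation. -/
noncomputable def kex (G : Geo n) (k : ℝ) (Φ : ℝ × ℝ → ℝ) (lam H : ℝ) (p q : E n) (a b : ℝ) : ℝ :=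
  lam + kapH k (n - 1) Φ ‖G.lg p q‖ a b +
    Φ (‖G.lg p q‖ ^ 2, ‖G.lg p q‖ * a) * b ^ 2 * rtau G k p (G.lg p q) -
    H * (ph Φ ‖G.lg p q‖ a * b)

/-- The exact kernel, symmetrised. -/
noncomputable def kexs (G : Geo n) (k : ℝ) (Φ : ℝ × ℝ → ℝ) (lam H : ℝ) (p q : E n) (a b : ℝ) : ℝ :=
  (kex G k Φ lam H p q a b + kex G k Φ lam H q p b a) / 2

/-- `∫∫ κ(p, q, a, b) |dh|(p) |dh|(q)`. -/
noncomputable def pairX (G : Geo n) (κ : E n → E n → ℝ → ℝ → ℝ) (h : E n → ℝ) : ℝ :=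
  ∫ z : E n × E n, κ z.1 z.2 (G.ang h z.1 z.2) (G.ang h z.2 z.1) *
    (‖G.D h z.1‖ * ‖G.D h z.2‖) ∂(G.vol.prod G.vol)

/-- Density of area of geodesic spheres along the geodesic `t ↦ ex x (t u)`, from time `σ` to
time `τ`. -/
noncomputable def jac (G : Geo n) (x u : E n) (σ τ : ℝ) : ℝ :=
  |(G.T (G.ex x (σ • u)) ((τ - σ) • G.V σ x u)).det| * (τ - σ) ^ (n - 1)

/-- The pair integrand along the geodesic `t ↦ ex x (t u)`, with the Jacobian. -/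
noncomputable def gkS (G : Geo n) (κ : E n → E n → ℝ → ℝ → ℝ) (h : E n → ℝ) (x u : E n)
    (σ τ : ℝ) : ℝ :=
  κ (G.ex x (σ • u)) (G.ex x (τ • u)) (G.ca h x u σ) (-G.ca h x u τ) * jac G x u σ τ *
    (‖G.D h (G.ex x (σ • u))‖ * ‖G.D h (G.ex x (τ • u))‖)

/-- Volume of `{h = 1}`. -/
noncomputable def V1 (G : Geo n) (h : E n → ℝ) : ℝ := G.vol.real {x | h x = 1}

/-- The boundary terms on a line. -/
noncomputable def btL (G : Geo n) (f : ℝ → ℝ) (h : E n → ℝ) (x u : E n) (S : Set ℝ) : ℝ :=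
  (∫ t in S, f (clip (G.ca h x u t)) *
      max 0 (G.ca h x u t * ‖G.D h (G.ex x (t • u))‖)) / 2 +
    (∫ t in S, f (clip (-G.ca h x u t)) *
      max 0 (-(G.ca h x u t) * ‖G.D h (G.ex x (t • u))‖)) / 2

end Vale.Agent.P219.TPH
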