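import Vale.Agent.P219.TPH.DetExp
import Vale.Agent.P219.TP.Liou

/-! # Regularity and symmetry of the exact kernel (task H12) -/

open MeasureTheory Set Metric
open scoped ENNReal ContDiff

namespace Vale.Agent.P219.TPH

open Vale.Agent.P219.TP

variable {n : ℕ} (G : Geo n) {k : ℝ}

/-! ### Auxiliary lemmas -/

theorem kxr_logdet_smooth : ContDiff ℝ ∞ fun z : E n × E n => Real.log (G.T z.1 z.2).det :=
  ContDiff.log (volExp_contDiff_det.comp G.T_smooth) fun z => G.det_T_ne z.1 z.2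

theorem kxr_fderiv_eq (x v : E n) : fderiv ℝ (fun u => Real.log (G.T x u).det) v v =
    fderiv ℝ (fun z : E n × E n => Real.log (G.T z.1 z.2).det) (x, v) (0, v) := by
  have h1 : HasFDerivAt (fun z : E n × E n => Real.log (G.T z.1 z.2).det)
      (fderiv ℝ (fun z : E n × E n => Real.log (G.T z.1 z.2).det) (x, v)) (x, v) :=
    ((kxr_logdet_smooth G).differentiable (by simp) (x, v)).hasFDerivAt
  have h2 : HasFDerivAt (fun u : E n => (x, u)) (ContinuousLinearMap.inr ℝ (E n) (E n)) v :=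
    hasFDerivAt_prodMk_right x v
  have h3 := h1.comp v h2
  have h4 : HasFDerivAt (fun u => Real.log (G.T x u).det)
      ((fderiv ℝ (fun z : E n × E n => Real.log (G.T z.1 z.2).det) (x, v)).comp
        (ContinuousLinearMap.inr ℝ (E n) (E n))) v := h3
  rw [h4.fderiv, ContinuousLinearMap.comp_apply, ContinuousLinearMap.inr_apply]

theorem kxr_cont_fderiv : Continuous fun z : E n × E n =>
    fderiv ℝ (fun u => Real.log (G.T z.1 u).det) z.2 z.2 := by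
  simp only [kxr_fderiv_eq]
  have h1 : Continuous fun z : E n × E n =>
      fderiv ℝ (fun z : E n × E n => Real.log (G.T z.1 z.2).det) z :=
    (kxr_logdet_smooth G).continuous_fderiv (by simp)
  exact h1.clm_apply (continuous_const.prodMk continuous_snd)

theorem kxr_meas_sn (k : ℝ) : Measurable (sn k) := (contDiff_sn k).continuous.measurable

theorem kxr_meas_cs (k : ℝ) : Measurable (cs k) := (contDiff_cs k).continuous.measurable

theorem measurable_rtau (hk : 0 ≤ k) : Measurable fun z : E n × E n => rtau G k z.1 z.2 := by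
  have _h := hk
  unfold rtau
  have h1 : Measurable fun z : E n × E n => ‖z.2‖ := by fun_prop
  have h2 : Measurable fun z : E n × E n => ‖z.2‖ * cs k ‖z.2‖ / sn k ‖z.2‖ :=
    (h1.mul ((kxr_meas_cs k).comp h1)).div ((kxr_meas_sn k).comp h1)
  exact (kxr_cont_fderiv G).measurable.add ((measurable_const.sub h2).const_mul _)

section

variable {Φ : ℝ × ℝ → ℝ} {δ : ℝ}

theorem kxr_isOpen (δ : ℝ) : IsOpen {p : ℝ × ℝ | -δ < p.1} :=
  isOpen_lt continuous_const continuous_fst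

theorem kxr_mem (hδ : 0 < δ) (r a : ℝ) : (r ^ 2, r * a) ∈ {p : ℝ × ℝ | -δ < p.1} := by
  change -δ < r ^ 2
  nlinarith [sq_nonneg r]

theorem kxr_cont_comp {F : ℝ × ℝ → ℝ} (hδ : 0 < δ) (hF : ContinuousOn F {p | -δ < p.1}) :
    Continuous fun z : ℝ × ℝ => F (z.1 ^ 2, z.1 * z.2) :=
  hF.comp_continuous (by fun_prop) fun z => kxr_mem hδ z.1 z.2

theorem kxr_cont_fd (hΦ : ContDiffOn ℝ ∞ Φ {p | -δ < p.1}) (v : ℝ × ℝ) :
    ContinuousOn (fun p => fderiv ℝ Φ p v) {p | -δ < p.1} := by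
  have h := hΦ.continuousOn_fderiv_of_isOpen (kxr_isOpen δ) (by simp)
  exact h.clm_apply continuousOn_const

/-- measurability of the model part -/
theorem kxr_meas_kapH (hδ : 0 < δ) (hΦ : ContDiffOn ℝ ∞ Φ {p | -δ < p.1}) (m : ℕ) :
    Measurable fun z : ℝ × ℝ × ℝ => kapH k m Φ z.1 z.2.1 z.2.2 := by
  have h0 : Measurable fun z : ℝ × ℝ × ℝ => (z.1, z.2.1) := by fun_prop
  have h1 := (kxr_cont_comp hδ hΦ.continuousOn).measurable.comp h0
  have h2 := (kxr_cont_comp hδ (kxr_cont_fd hΦ (1, 0))).measurable.comp h0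
  have h3 := (kxr_cont_comp hδ (kxr_cont_fd hΦ (0, 1))).measurable.comp h0
  simp only [Function.comp_def] at h1 h2 h3
  have h4 : Measurable fun z : ℝ × ℝ × ℝ => z.1 * cs k z.1 / sn k z.1 :=
    (measurable_fst.mul ((kxr_meas_cs k).comp measurable_fst)).div
      ((kxr_meas_sn k).comp measurable_fst)
  have h5 : Measurable fun z : ℝ × ℝ × ℝ => z.1 ^ 2 / sn k z.1 :=
    (measurable_fst.pow_const 2).div ((kxr_meas_sn k).comp measurable_fst)
  unfold kapH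
  have h6 : Measurable fun z : ℝ × ℝ × ℝ => z.1 := measurable_fst
  have h7 : Measurable fun z : ℝ × ℝ × ℝ => z.2.1 := by fun_prop
  have h8 : Measurable fun z : ℝ × ℝ × ℝ => z.2.2 := by fun_prop
  have h9 : Measurable fun z : ℝ × ℝ × ℝ => √((1 - z.2.1 ^ 2) * (1 - z.2.2 ^ 2)) := by fun_prop
  have h10 : Measurable fun z : ℝ × ℝ × ℝ => |z.2.2| := by fun_prop
  have h11 : Measurable fun z : ℝ × ℝ × ℝ => 1 - z.2.2 ^ 2 := by fun_prop
  have h12 : Measurable fun z : ℝ × ℝ × ℝ => (m : ℝ) - 1 + z.2.2 ^ 2 := by fun_prop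
  have h13 : Measurable fun z : ℝ × ℝ × ℝ => 2 * z.1 ^ 2 := by fun_prop
  exact ((((h1.add (h13.mul h2)).add ((h6.mul h7).mul h3)).mul h11).add
    ((h4.mul h1).mul h12)).sub (((h5.mul h3.abs).mul h10).mul h9)

theorem kxr_meas_ph (hδ : 0 < δ) (hΦ : ContDiffOn ℝ ∞ Φ {p | -δ < p.1}) :
    Measurable fun z : ℝ × ℝ => ph Φ z.1 z.2 := by
  unfold ph
  exact measurable_fst.mul (kxr_cont_comp hδ hΦ.continuousOn).measurable

end

theorem measurable_kex (hk : 0 ≤ k) {Φ : ℝ × ℝ → ℝ} {δ : ℝ} (hδ : 0 < δ)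
    (hΦ : ContDiffOn ℝ ∞ Φ {p | -δ < p.1}) (lam H : ℝ) :
    Measurable fun z : E n × E n × ℝ × ℝ => kex G k Φ lam H z.1 z.2.1 z.2.2.1 z.2.2.2 := by
  unfold kex
  have hlg : Measurable fun z : E n × E n × ℝ × ℝ => G.lg z.1 z.2.1 :=
    ((PairGe.continuous_lg G).comp (by fun_prop :
      Continuous fun z : E n × E n × ℝ × ℝ => (z.1, z.2.1))).measurable
  have ha : Measurable fun z : E n × E n × ℝ × ℝ => z.2.2.1 := by fun_prop
  have hb : Measurable fun z : E n × E n × ℝ × ℝ => z.2.2.2 := by fun_prop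
  have h1 := (kxr_meas_kapH (k := k) hδ hΦ (n - 1)).comp (hlg.norm.prodMk (ha.prodMk hb))
  have h2 := (kxr_cont_comp hδ hΦ.continuousOn).measurable.comp (hlg.norm.prodMk ha)
  have h3 := (measurable_rtau G hk).comp (measurable_fst.prodMk hlg)
  have h4 := (kxr_meas_ph hδ hΦ).comp (hlg.norm.prodMk ha)
  simp only [Function.comp_def] at h1 h2 h3 h4
  exact ((measurable_const.add h1).add ((h2.mul (hb.pow_const 2)).mul h3)).sub
    ((h4.mul hb).const_mul H)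

theorem kxr_cmul_le {a b A B : ℝ} (ha : |a| ≤ A) (hb : |b| ≤ B) : |a * b| ≤ A * B := by
  rw [abs_mul]
  exact mul_le_mul ha hb (abs_nonneg _) ((abs_nonneg _).trans ha)

theorem kxr_add_le {a b A B : ℝ} (ha : |a| ≤ A) (hb : |b| ≤ B) : |a + b| ≤ A + B :=
  (abs_add_le a b).trans (add_le_add ha hb)

theorem kxr_sub_le {a b A B : ℝ} (ha : |a| ≤ A) (hb : |b| ≤ B) : |a - b| ≤ A + B :=
  (abs_sub a b).trans (add_le_add ha hb)

theorem kxr_ctr {k L r : ℝ} (hk : 0 ≤ k) (hr : 0 ≤ r) (hL : r ≤ L) :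
    |r * cs k r / sn k r| ≤ cs k L := by
  rcases hr.eq_or_lt with h | h
  · rw [← h, zero_mul, zero_div, abs_zero]
    exact zero_le_one.trans (one_le_cs k L)
  · obtain ⟨h1, h2⟩ := ctr_bounds hk h
    rw [abs_of_nonneg (zero_le_one.trans h1)]
    exact h2.trans (cs_mono hk hr hL)

theorem kxr_sq {k L r : ℝ} (hk : 0 ≤ k) (hr : 0 ≤ r) (hL : r ≤ L) :
    |r ^ 2 / sn k r| ≤ L := by
  rcases hr.eq_or_lt with h | h
  · rw [← h]
    simpa using hr.trans hL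
  · have h1 := le_sn hk hr
    have h2 := sn_pos hk h
    rw [abs_of_nonneg (by positivity), div_le_iff₀ h2]
    nlinarith

/-- bound of the model part -/
theorem kxr_kapH_bound (hk : 0 ≤ k) {Φ : ℝ × ℝ → ℝ} {δ : ℝ} (hδ : 0 < δ)
    (hΦ : ContDiffOn ℝ ∞ Φ {p | -δ < p.1}) (m : ℕ) (L : ℝ) :
    ∃ C : ℝ, 0 ≤ C ∧ ∀ r a b : ℝ, 0 ≤ r → r ≤ L → |a| ≤ 1 → |b| ≤ 1 →
      |kapH k m Φ r a b| ≤ C ∧ |Φ (r ^ 2, r * a)| ≤ C := by
  have hK : IsCompact (Icc (0 : ℝ) L ×ˢ Icc (-1 : ℝ) 1) := isCompact_Icc.prod isCompact_Icc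
  obtain ⟨C1, hC1⟩ := hK.exists_bound_of_continuousOn
    (kxr_cont_comp hδ hΦ.continuousOn).continuousOn
  obtain ⟨C2, hC2⟩ := hK.exists_bound_of_continuousOn
    (kxr_cont_comp hδ (kxr_cont_fd hΦ (1, 0))).continuousOn
  obtain ⟨C3, hC3⟩ := hK.exists_bound_of_continuousOn
    (kxr_cont_comp hδ (kxr_cont_fd hΦ (0, 1))).continuousOn
  by_cases hL : 0 ≤ L
  swap
  · exact ⟨0, le_rfl, fun r a b h0 h1 => absurd (h0.trans h1) hL⟩
  have hmem0 : ((0 : ℝ), (0 : ℝ)) ∈ Icc (0 : ℝ) L ×ˢ Icc (-1 : ℝ) 1 :=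
    ⟨⟨le_rfl, hL⟩, ⟨by norm_num, by norm_num⟩⟩
  have hC10 : 0 ≤ C1 := (norm_nonneg _).trans (hC1 _ hmem0)
  have hC20 : 0 ≤ C2 := (norm_nonneg _).trans (hC2 _ hmem0)
  have hC30 : 0 ≤ C3 := (norm_nonneg _).trans (hC3 _ hmem0)
  have hcs : 0 ≤ cs k L := zero_le_one.trans (one_le_cs k L)
  refine ⟨max ((C1 + 2 * L ^ 2 * C2 + L * 1 * C3) * 1 + cs k L * C1 * (|(m : ℝ) - 1| + 1) +
    L * C3 * 1 * 1) C1, le_max_of_le_right hC10, ?_⟩
  intro r a b h0 h1 ha hb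
  have hmem : (r, a) ∈ Icc (0 : ℝ) L ×ˢ Icc (-1 : ℝ) 1 := ⟨⟨h0, h1⟩, abs_le.1 ha⟩
  have e1 : |Φ (r ^ 2, r * a)| ≤ C1 := hC1 _ hmem
  have e2 : |fderiv ℝ Φ (r ^ 2, r * a) (1, 0)| ≤ C2 := hC2 _ hmem
  have e3 : |fderiv ℝ Φ (r ^ 2, r * a) (0, 1)| ≤ C3 := hC3 _ hmem
  refine ⟨?_, e1.trans (le_max_right _ _)⟩
  refine le_trans ?_ (le_max_left _ _)
  have hr : |r| ≤ L := by rwa [abs_of_nonneg h0]
  have hr2 : |2 * r ^ 2| ≤ 2 * L ^ 2 := by
    rw [abs_of_nonneg (by positivity)]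
    gcongr
  have hb2 : b ^ 2 ≤ 1 := by
    have := sq_le_one_iff_abs_le_one b |>.2 hb
    exact this
  have ha2 : a ^ 2 ≤ 1 := by
    have := sq_le_one_iff_abs_le_one a |>.2 ha
    exact this
  have e4 : |1 - b ^ 2| ≤ 1 := by
    rw [abs_of_nonneg (by linarith)]
    nlinarith [sq_nonneg b]
  have e5 : |(m : ℝ) - 1 + b ^ 2| ≤ |(m : ℝ) - 1| + 1 :=
    kxr_add_le le_rfl (by rw [abs_of_nonneg (sq_nonneg b)]; exact hb2)
  have e6 : |√((1 - a ^ 2) * (1 - b ^ 2))| ≤ 1 := by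
    have u1 : 0 ≤ 1 - a ^ 2 := by linarith
    have u2 : 0 ≤ 1 - b ^ 2 := by linarith
    rw [abs_of_nonneg (Real.sqrt_nonneg _), Real.sqrt_le_iff]
    refine ⟨zero_le_one, ?_⟩
    have u3 : (1 - a ^ 2) * (1 - b ^ 2) ≤ 1 * 1 :=
      mul_le_mul (by linarith [sq_nonneg a]) (by linarith [sq_nonneg b]) u2 zero_le_one
    linarith
  unfold kapH
  refine kxr_sub_le (kxr_add_le (kxr_cmul_le (kxr_add_le (kxr_add_le e1
    (kxr_cmul_le hr2 e2)) (kxr_cmul_le (kxr_cmul_le hr ha) e3)) e4)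
    (kxr_cmul_le (kxr_cmul_le (kxr_ctr hk h0 h1) e1) e5)) ?_
  exact kxr_cmul_le (kxr_cmul_le (kxr_cmul_le (kxr_sq hk h0 h1) (by rwa [abs_abs]))
    (by rwa [abs_abs])) e6

/-- PROOF: `rtau_bound`, `ctr_bounds`, `r ^ 2 / sn r ≤ r`, compactness. -/
theorem kex_bound (hk : 0 ≤ k) {Φ : ℝ × ℝ → ℝ} {δ : ℝ} (hδ : 0 < δ)
    (hΦ : ContDiffOn ℝ ∞ Φ {p | -δ < p.1}) (lam H : ℝ) {K : Set (E n)} (hK : IsCompact K) :
    ∃ C : ℝ, 0 ≤ C ∧ ∀ p ∈ K, ∀ q ∈ K, ∀ a b : ℝ, |a| ≤ 1 → |b| ≤ 1 → |kex G k Φ lam H p q a b| ≤ C := by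
  obtain ⟨L, hL⟩ := (hK.prod hK).exists_bound_of_continuousOn (PairGe.continuous_lg G).continuousOn
  obtain ⟨C1, hC10, hC1⟩ := kxr_kapH_bound hk hδ hΦ (n - 1) L
  obtain ⟨C2, hC20, hC2⟩ := rtau_bound G hk hK L
  refine ⟨|lam| + C1 + C1 * 1 * C2 + |H| * (|L| * C1 * 1), by positivity, ?_⟩
  intro p hp q hq a b ha hb
  have hr : ‖G.lg p q‖ ≤ L := hL (p, q) ⟨hp, hq⟩
  obtain ⟨e1, e2⟩ := hC1 ‖G.lg p q‖ a b (norm_nonneg _) hr ha hb
  have e3 := hC2 p hp (G.lg p q) hr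
  have hb2 : |b ^ 2| ≤ 1 := by
    rw [abs_of_nonneg (sq_nonneg b)]
    exact (sq_le_one_iff_abs_le_one b).2 hb
  have hr' : |‖G.lg p q‖| ≤ |L| := by
    rw [abs_of_nonneg (norm_nonneg _)]
    exact hr.trans (le_abs_self L)
  unfold kex ph
  exact kxr_sub_le (kxr_add_le (kxr_add_le le_rfl e1) (kxr_cmul_le (kxr_cmul_le e2 hb2) e3))
    (kxr_cmul_le le_rfl (kxr_cmul_le (kxr_cmul_le hr' e2) hb))

theorem measurable_kexs (hk : 0 ≤ k) {Φ : ℝ × ℝ → ℝ} {δ : ℝ} (hδ : 0 < δ)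
    (hΦ : ContDiffOn ℝ ∞ Φ {p | -δ < p.1}) (lam H : ℝ) :
    Measurable fun z : E n × E n × ℝ × ℝ => kexs G k Φ lam H z.1 z.2.1 z.2.2.1 z.2.2.2 := by
  unfold kexs
  have h1 := measurable_kex G hk hδ hΦ lam H
  have h2 : Measurable fun z : E n × E n × ℝ × ℝ => (z.2.1, z.1, z.2.2.2, z.2.2.1) := by fun_prop
  have h3 := h1.comp h2
  simp only [Function.comp_def] at h3
  exact (h1.add h3).div_const 2

theorem kexs_bound (hk : 0 ≤ k) {Φ : ℝ × ℝ → ℝ} {δ : ℝ} (hδ : 0 < δ)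
    (hΦ : ContDiffOn ℝ ∞ Φ {p | -δ < p.1}) (lam H : ℝ) {K : Set (E n)} (hK : IsCompact K) :
    ∃ C : ℝ, 0 ≤ C ∧ ∀ p ∈ K, ∀ q ∈ K, ∀ a b : ℝ, |a| ≤ 1 → |b| ≤ 1 →
      |kexs G k Φ lam H p q a b| ≤ C := by
  obtain ⟨C, hC0, hC⟩ := kex_bound G hk hδ hΦ lam H hK
  refine ⟨C, hC0, ?_⟩
  intro p hp q hq a b ha hb
  have h1 := abs_le.1 (hC p hp q hq a b ha hb)
  have h2 := abs_le.1 (hC q hq p hp b a hb ha)
  unfold kexs
  rw [abs_le]
  constructor <;> linarith [h1.1, h1.2, h2.1, h2.2]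

/-- Integrability of a pair integrand. -/
theorem integrable_pairX {κ : E n → E n → ℝ → ℝ → ℝ}
    (hκm : Measurable fun z : E n × E n × ℝ × ℝ => κ z.1 z.2.1 z.2.2.1 z.2.2.2)
    (hκb : ∀ K : Set (E n), IsCompact K → ∃ C : ℝ, 0 ≤ C ∧ ∀ p ∈ K, ∀ q ∈ K, ∀ a b : ℝ, |a| ≤ 1 →
      |b| ≤ 1 → |κ p q a b| ≤ C) {h : E n → ℝ} (hh : ContDiff ℝ 1 h) (hc : HasCompactSupport h) :
    Integrable (fun z : E n × E n => κ z.1 z.2 (G.ang h z.1 z.2) (G.ang h z.2 z.1) *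
      (‖G.D h z.1‖ * ‖G.D h z.2‖)) (G.vol.prod G.vol) := by
  have hD := PairGe.continuous_D G hh
  set K : Set (E n) := tsupport h
  have hKc : IsCompact K := hc
  have hKK : IsCompact (K ×ˢ K) := hKc.prod hKc
  obtain ⟨C, hC0, hC⟩ := hκb K hKc
  obtain ⟨M, hM⟩ := hKc.exists_bound_of_continuousOn hD.continuousOn
  have hfin : (G.vol.prod G.vol) (K ×ˢ K) < ⊤ := by
    rw [Measure.prod_prod]
    exact ENNReal.mul_lt_top hKc.measure_lt_top hKc.measure_lt_top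
  have hk : Measurable fun z : E n × E n =>
      κ z.1 z.2 (G.ang h z.1 z.2) (G.ang h z.2 z.1) :=
    hκm.comp (measurable_fst.prodMk (measurable_snd.prodMk
      ((measurable_ang G hh).prodMk ((measurable_ang G hh).comp measurable_swap))))
  have hd : Measurable fun z : E n × E n => ‖G.D h z.1‖ * ‖G.D h z.2‖ :=
    ((hD.comp continuous_fst).norm.mul (hD.comp continuous_snd).norm).measurable
  have hmeas := hk.mul hd
  rw [← integrableOn_iff_integrable_of_support_subset (s := K ×ˢ K)]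
  · refine Measure.integrableOn_of_bounded (M := C * (M * M)) hfin.ne
      hmeas.aestronglyMeasurable ?_
    refine (ae_restrict_iff' hKK.measurableSet).2 (Filter.Eventually.of_forall fun z hz => ?_)
    have h1 := hC z.1 hz.1 z.2 hz.2 (G.ang h z.1 z.2) (G.ang h z.2 z.1)
      (abs_ang_le G h _ _) (abs_ang_le G h _ _)
    have h2 := hM z.1 hz.1
    have h3 := hM z.2 hz.2
    rw [norm_mul, Real.norm_eq_abs, norm_mul, norm_norm, norm_norm]
    have hM0 : 0 ≤ M := (norm_nonneg _).trans h2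
    gcongr
  · intro z hz
    by_contra hzK
    apply hz
    show κ z.1 z.2 (G.ang h z.1 z.2) (G.ang h z.2 z.1) *
      (‖G.D h z.1‖ * ‖G.D h z.2‖) = 0
    rw [mem_prod, not_and_or] at hzK
    rcases hzK with h1 | h1
    · rw [PairGe.D_eq_zero G h1, norm_zero, zero_mul, mul_zero]
    · rw [PairGe.D_eq_zero G h1, norm_zero, mul_zero, mul_zero]

theorem kxr_integrable_kex (hk : 0 ≤ k) {Φ : ℝ × ℝ → ℝ} {δ : ℝ} (hδ : 0 < δ)
    (hΦ : ContDiffOn ℝ ∞ Φ {p | -δ < p.1}) (lam H : ℝ) {h : E n → ℝ} (hh : ContDiff ℝ 1 h)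
    (hc : HasCompactSupport h) :
    Integrable (fun z : E n × E n => kex G k Φ lam H z.1 z.2 (G.ang h z.1 z.2) (G.ang h z.2 z.1) *
      (‖G.D h z.1‖ * ‖G.D h z.2‖)) (G.vol.prod G.vol) :=
  integrable_pairX G (measurable_kex G hk hδ hΦ lam H)
    (fun _ hK => kex_bound G hk hδ hΦ lam H hK) hh hc

/-- PROOF: swap the variables. -/
theorem pairX_symm (hk : 0 ≤ k) {Φ : ℝ × ℝ → ℝ} {δ : ℝ} (hδ : 0 < δ)
    (hΦ : ContDiffOn ℝ ∞ Φ {p | -δ < p.1}) (lam H : ℝ) {h : E n → ℝ} (hh : ContDiff ℝ 1 h)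
    (hc : HasCompactSupport h) :
    pairX G (kexs G k Φ lam H) h = pairX G (kex G k Φ lam H) h := by
  set F : E n × E n → ℝ := fun z => kex G k Φ lam H z.1 z.2 (G.ang h z.1 z.2)
      (G.ang h z.2 z.1) * (‖G.D h z.1‖ * ‖G.D h z.2‖) with hF
  have h1 : Integrable F (G.vol.prod G.vol) := kxr_integrable_kex G hk hδ hΦ lam H hh hc
  have h2 : Integrable (fun z : E n × E n => F z.swap) (G.vol.prod G.vol) := h1.swap
  have h3 : ∫ z : E n × E n, F z.swap ∂(G.vol.prod G.vol) = ∫ z, F z ∂(G.vol.prod G.vol) :=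
    integral_prod_swap F
  have h4 : ∀ z : E n × E n, kexs G k Φ lam H z.1 z.2 (G.ang h z.1 z.2) (G.ang h z.2 z.1) *
      (‖G.D h z.1‖ * ‖G.D h z.2‖) = (F z + F z.swap) / 2 := by
    intro z
    simp only [hF, Prod.fst_swap, Prod.snd_swap, kexs]
    ring
  have h5 : pairX G (kexs G k Φ lam H) h = ∫ z : E n × E n, (F z + F z.swap) / 2
      ∂(G.vol.prod G.vol) :=
    integral_congr_ae (Filter.Eventually.of_forall h4)
  have h6 : pairX G (kex G k Φ lam H) h = ∫ z, F z ∂(G.vol.prod G.vol) := rfl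
  rw [h5, h6, integral_div, integral_add h1 h2, h3]
  ring

/-- PROOF: Fubini and linearity; `kex = lam + kapE - H φ b` with `ν = D h p / ‖D h p‖`. For
`D h p = 0` the value of the inner integral is irrelevant. -/
theorem pairX_fubini (hk : 0 ≤ k) {Φ : ℝ × ℝ → ℝ} {δ : ℝ} (hδ : 0 < δ)
    (hΦ : ContDiffOn ℝ ∞ Φ {p | -δ < p.1}) (lam H : ℝ) {h : E n → ℝ} (hh : ContDiff ℝ 1 h)
    (hc : HasCompactSupport h) :
    Integrable (fun p => (∫ q, kex G k Φ lam H p q (G.ang h p q) (G.ang h q p) * ‖G.D h q‖ ∂G.vol) *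
      ‖G.D h p‖) G.vol ∧
    pairX G (kex G k Φ lam H) h =
      ∫ p, (∫ q, kex G k Φ lam H p q (G.ang h p q) (G.ang h q p) * ‖G.D h q‖ ∂G.vol) *
        ‖G.D h p‖ ∂G.vol := by
  have h1 := kxr_integrable_kex G hk hδ hΦ lam H hh hc
  have h2 : ∀ p, (∫ q, kex G k Φ lam H p q (G.ang h p q) (G.ang h q p) * ‖G.D h q‖ ∂G.vol) *
      ‖G.D h p‖ = ∫ q, kex G k Φ lam H p q (G.ang h p q) (G.ang h q p) *
        (‖G.D h p‖ * ‖G.D h q‖) ∂G.vol := by
    intro p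
    rw [← integral_mul_const]
    refine integral_congr_ae (Filter.Eventually.of_forall fun q => ?_)
    simp only
    ring
  simp only [h2]
  exact ⟨h1.integral_prod_left, integral_prod _ h1⟩

theorem kxr_ang_eq {h : E n → ℝ} {p : E n} (x : E n) : G.ang h p x =
    inner ℝ (G.lg p x) (‖G.D h p‖⁻¹ • G.D h p) / ‖G.lg p x‖ := by
  unfold Geo.ang
  rw [real_inner_smul_right, mul_comm ‖G.lg p x‖ ‖G.D h p‖, ← div_div]
  congr 1
  ring

theorem kxr_mul_ang {h : E n → ℝ} (p x : E n) :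
    ‖G.lg p x‖ * (inner ℝ (G.lg p x) (‖G.D h p‖⁻¹ • G.D h p) / ‖G.lg p x‖) =
      inner ℝ (G.lg p x) (‖G.D h p‖⁻¹ • G.D h p) := by
  by_cases h0 : G.lg p x = 0
  · rw [h0]
    simp
  · exact mul_div_cancel₀ _ (norm_ne_zero_iff.2 h0)

theorem kxr_th_eq (Φ : ℝ × ℝ → ℝ) {h : E n → ℝ} (p x : E n) :
    th Φ 1 (‖G.D h p‖⁻¹ • G.D h p) (G.lg p x) =
      Φ (‖G.lg p x‖ ^ 2, ‖G.lg p x‖ * G.ang h p x) := by
  unfold th
  rw [inv_one, one_mul, one_pow, div_one, div_one, kxr_ang_eq, kxr_mul_ang]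

theorem kxr_ang_back {h : E n → ℝ} (p x : E n) :
    ‖G.lg p x‖ * G.ang h x p * ‖G.D h x‖ = inner ℝ (G.lg x p) (G.D h x) := by
  rw [G.norm_lg_comm p x]
  unfold Geo.ang
  by_cases h0 : G.lg x p = 0
  · rw [h0]
    simp
  by_cases h1 : G.D h x = 0
  · rw [h1]
    simp
  have h2 : ‖G.lg x p‖ ≠ 0 := norm_ne_zero_iff.2 h0
  have h3 : ‖G.D h x‖ ≠ 0 := norm_ne_zero_iff.2 h1
  field_simp

/-- pointwise decomposition -/
theorem kxr_split (Φ : ℝ × ℝ → ℝ) (lam H : ℝ) (h : E n → ℝ) (p x : E n) :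
    kex G k Φ lam H p x (G.ang h p x) (G.ang h x p) * ‖G.D h x‖ =
      lam * ‖G.D h x‖ +
        kapE G k Φ (‖G.D h p‖⁻¹ • G.D h p) p x (G.ang h x p) * ‖G.D h x‖ -
        H * (th Φ 1 (‖G.D h p‖⁻¹ • G.D h p) (G.lg p x) * inner ℝ (G.lg x p) (G.D h x)) := by
  unfold kapE kex ph
  rw [← kxr_ang_back G p x, kxr_th_eq, ← kxr_ang_eq G x]
  ring

theorem kxr_cont_th {Φ : ℝ × ℝ → ℝ} {δ : ℝ} (hδ : 0 < δ)
    (hΦ : ContDiffOn ℝ ∞ Φ {p | -δ < p.1}) (ν p : E n) :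
    Continuous fun x => th Φ 1 ν (G.lg p x) := by
  have h1 : Continuous fun x : E n => G.lg p x := (G.lg_smooth_right p).continuous
  have h2 : ∀ x, th Φ 1 ν (G.lg p x) = Φ (‖G.lg p x‖ ^ 2, inner ℝ (G.lg p x) ν) := by
    intro x
    unfold th
    rw [inv_one, one_mul, one_pow, div_one, div_one]
  simp only [h2]
  refine hΦ.continuousOn.comp_continuous ((h1.norm.pow 2).prodMk (h1.inner continuous_const)) ?_
  intro x
  change -δ < ‖G.lg p x‖ ^ 2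
  nlinarith [sq_nonneg ‖G.lg p x‖]

theorem kxr_integrable_th {Φ : ℝ × ℝ → ℝ} {δ : ℝ} (hδ : 0 < δ)
    (hΦ : ContDiffOn ℝ ∞ Φ {p | -δ < p.1}) {h : E n → ℝ} (hh : ContDiff ℝ 1 h)
    (hc : HasCompactSupport h) (ν p : E n) :
    Integrable (fun x => th Φ 1 ν (G.lg p x) * inner ℝ (G.lg x p) (G.D h x)) G.vol := by
  have hD := PairGe.continuous_D G hh
  have h1 : Continuous fun x : E n => G.lg x p :=
    (PairGe.continuous_lg G).comp (continuous_id.prodMk continuous_const)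
  refine Continuous.integrable_of_hasCompactSupport
    ((kxr_cont_th G hδ hΦ ν p).mul (h1.inner hD)) ?_
  refine HasCompactSupport.of_support_subset_isCompact hc ?_
  intro x hx
  by_contra hx'
  apply hx
  show th Φ 1 ν (G.lg p x) * inner ℝ (G.lg x p) (G.D h x) = 0
  rw [PairGe.D_eq_zero G hx', inner_zero_right, mul_zero]

theorem kxr_integrable_D {h : E n → ℝ} (hh : ContDiff ℝ 1 h) (hc : HasCompactSupport h) :
    Integrable (fun x => ‖G.D h x‖) G.vol := by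
  refine Continuous.integrable_of_hasCompactSupport (PairGe.continuous_D G hh).norm ?_
  refine HasCompactSupport.of_support_subset_isCompact hc ?_
  intro x hx
  by_contra hx'
  apply hx
  show ‖G.D h x‖ = 0
  rw [PairGe.D_eq_zero G hx', norm_zero]

theorem kxr_meas_slice (hk : 0 ≤ k) {Φ : ℝ × ℝ → ℝ} {δ : ℝ} (hδ : 0 < δ)
    (hΦ : ContDiffOn ℝ ∞ Φ {p | -δ < p.1}) (lam H : ℝ) {h : E n → ℝ} (hh : ContDiff ℝ 1 h)
    (p : E n) : Measurable fun x : E n => kex G k Φ lam H p x (G.ang h p x) (G.ang h x p) := by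
  have hx : Measurable fun x : E n => (p, x) := measurable_const.prodMk measurable_id
  have hx' : Measurable fun x : E n => (x, p) := measurable_id.prodMk measurable_const
  have h1 := (measurable_ang G hh).comp hx
  have h2 := (measurable_ang G hh).comp hx'
  simp only [Function.comp_def] at h1 h2
  have h4 := (measurable_kex G hk hδ hΦ lam H).comp
    (hx.fst.prodMk (hx.snd.prodMk (h1.prodMk h2)))
  simp only [Function.comp_def] at h4
  exact h4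

theorem kxr_integrable_slice (hk : 0 ≤ k) {Φ : ℝ × ℝ → ℝ} {δ : ℝ} (hδ : 0 < δ)
    (hΦ : ContDiffOn ℝ ∞ Φ {p | -δ < p.1}) (lam H : ℝ) {h : E n → ℝ} (hh : ContDiff ℝ 1 h)
    (hc : HasCompactSupport h) (p : E n) :
    Integrable (fun x => kex G k Φ lam H p x (G.ang h p x) (G.ang h x p) * ‖G.D h x‖) G.vol := by
  have hD := PairGe.continuous_D G hh
  set K : Set (E n) := tsupport h
  have hKc : IsCompact K := hc
  obtain ⟨C, hC0, hC⟩ := kex_bound G hk hδ hΦ lam H (hKc.insert p)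
  obtain ⟨M, hM⟩ := hKc.exists_bound_of_continuousOn hD.continuousOn
  have hmeas := (kxr_meas_slice G hk hδ hΦ lam H hh p).mul hD.norm.measurable
  rw [← integrableOn_iff_integrable_of_support_subset (s := K)]
  · refine Measure.integrableOn_of_bounded (M := C * M) hKc.measure_lt_top.ne
      hmeas.aestronglyMeasurable ?_
    refine (ae_restrict_iff' hKc.measurableSet).2 (Filter.Eventually.of_forall fun x hx => ?_)
    have h1 := hC p (mem_insert _ _) x (mem_insert_of_mem _ hx) (G.ang h p x) (G.ang h x p)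
      (abs_ang_le G h _ _) (abs_ang_le G h _ _)
    have h2 := hM x hx
    rw [norm_mul, Real.norm_eq_abs, norm_norm]
    gcongr
  · intro x hx
    by_contra hx'
    apply hx
    show kex G k Φ lam H p x (G.ang h p x) (G.ang h x p) * ‖G.D h x‖ = 0
    rw [PairGe.D_eq_zero G hx', norm_zero, mul_zero]

theorem inner_kex (hk : 0 ≤ k) {Φ : ℝ × ℝ → ℝ} {δ : ℝ} (hδ : 0 < δ)
    (hΦ : ContDiffOn ℝ ∞ Φ {p | -δ < p.1}) (lam H : ℝ) {h : E n → ℝ} (hh : ContDiff ℝ 1 h)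
    (hc : HasCompactSupport h) {p : E n} (hp : G.D h p ≠ 0) :
    (∫ q, kex G k Φ lam H p q (G.ang h p q) (G.ang h q p) * ‖G.D h q‖ ∂G.vol) =
      lam * G.per h +
        (∫ x, kapE G k Φ (‖G.D h p‖⁻¹ • G.D h p) p x (G.ang h x p) * ‖G.D h x‖ ∂G.vol) -
        H * ∫ x, th Φ 1 (‖G.D h p‖⁻¹ • G.D h p) (G.lg p x) * inner ℝ (G.lg x p) (G.D h x) ∂G.vol := by
  have _hp := hp
  have i1 := kxr_integrable_slice G hk hδ hΦ lam H hh hc p
  have i2 := (kxr_integrable_D G hh hc).const_mul lam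
  have i3 := (kxr_integrable_th G hδ hΦ hh hc (‖G.D h p‖⁻¹ • G.D h p) p).const_mul H
  have i4 : Integrable (fun x => kapE G k Φ (‖G.D h p‖⁻¹ • G.D h p) p x (G.ang h x p) *
      ‖G.D h x‖) G.vol := by
    have h1 := (i1.sub i2).add i3
    refine h1.congr (Filter.Eventually.of_forall fun x => ?_)
    simp only [Pi.sub_apply, Pi.add_apply]
    rw [kxr_split]
    ring
  rw [← integral_const_mul H, Geo.per, ← integral_const_mul lam, ← integral_add i2 i4]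
  rw [← integral_sub]
  · exact integral_congr_ae (Filter.Eventually.of_forall fun x => kxr_split G Φ lam H h p x)
  · exact i2.add i4
  · exact i3

end Vale.Agent.P219.TPH
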