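import Mathlib

/-! # Records of a function on the line (task H10) -/

open MeasureTheory Set Metric
open scoped ENNReal ContDiff

namespace Vale.Agent.P219.TPH

/-- Points where `k` is at least its later values. -/
def recR (k : ℝ → ℝ) : Set ℝ := {t | ∀ t', t ≤ t' → k t' ≤ k t}

/-- Points where `k` is at least its earlier values. -/
def recL (k : ℝ → ℝ) : Set ℝ := {t | ∀ t', t' ≤ t → k t' ≤ k t}

theorem isClosed_recR {k : ℝ → ℝ} (hk : Continuous k) : IsClosed (recR k) := by
  have e : recR k = ⋂ s : {s : ℝ // 0 ≤ s}, {t | k (t + s) ≤ k t} := by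
    ext t
    simp only [recR, mem_ofPred_eq, mem_iInter, Subtype.forall]
    constructor
    · intro h s hs
      exact h _ (by linarith)
    · intro h t' ht'
      have := h (t' - t) (by linarith)
      rwa [add_sub_cancel] at this
  rw [e]
  exact isClosed_iInter fun s => isClosed_le (hk.comp (continuous_id.add continuous_const)) hk

theorem LineRec_recL_eq (k : ℝ → ℝ) : recL k = (fun t => -t) ⁻¹' recR (fun t => k (-t)) := by
  ext t
  simp only [recL, recR, mem_ofPred_eq, mem_preimage, neg_neg]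
  constructor
  · intro h t' ht'
    exact h _ (by linarith)
  · intro h t' ht'
    have := h (-t') (by linarith)
    rwa [neg_neg] at this

theorem isClosed_recL {k : ℝ → ℝ} (hk : Continuous k) : IsClosed (recL k) := by
  rw [LineRec_recL_eq]
  exact (isClosed_recR (hk.comp continuous_neg)).preimage continuous_neg

theorem deriv_nonpos_of_recR {k : ℝ → ℝ} (hk : ContDiff ℝ 1 k) {t : ℝ} (ht : t ∈ recR k) :
    deriv k t ≤ 0 := by
  have h1 : HasDerivWithinAt k (deriv k t) (Ioi t) t :=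
    ((hk.differentiable one_ne_zero) t).hasDerivAt.hasDerivWithinAt
  rw [hasDerivWithinAt_iff_tendsto_slope' self_notMem_Ioi] at h1
  refine le_of_tendsto h1 ?_
  filter_upwards [self_mem_nhdsWithin] with t' ht'
  rw [slope_def_field]
  exact div_nonpos_of_nonpos_of_nonneg (sub_nonpos.2 (ht t' (le_of_lt ht')))
    (sub_nonneg.2 (le_of_lt ht'))

theorem LineRec_contDiff_neg {k : ℝ → ℝ} (hk : ContDiff ℝ 1 k) :
    ContDiff ℝ 1 (fun t => k (-t)) := hk.comp contDiff_neg

theorem LineRec_deriv_neg (k : ℝ → ℝ) (t : ℝ) :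
    deriv (fun t => k (-t)) t = -deriv k (-t) := deriv_comp_neg k t

theorem deriv_nonneg_of_recL {k : ℝ → ℝ} (hk : ContDiff ℝ 1 k) {t : ℝ} (ht : t ∈ recL k) :
    0 ≤ deriv k t := by
  rw [LineRec_recL_eq] at ht
  have h := deriv_nonpos_of_recR (LineRec_contDiff_neg hk) ht
  rw [LineRec_deriv_neg, neg_neg] at h
  linarith

theorem LineRec_integrableOn {k : ℝ → ℝ} (hk : ContDiff ℝ 1 k) (A B : ℝ) (S : Set ℝ)
    (hS : S ⊆ Ioo A B) : IntegrableOn (deriv k) S := by
  have hc : Continuous (deriv k) := hk.continuous_deriv le_rfl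
  exact (hc.continuousOn.integrableOn_compact isCompact_Icc).mono_set
    (hS.trans Ioo_subset_Icc_self)

theorem LineRec_ofReal {k : ℝ → ℝ} (hk : ContDiff ℝ 1 k) (A B : ℝ) (S : Set ℝ)
    (hSm : MeasurableSet S) (hS : S ⊆ Ioo A B) (hS' : S ⊆ recR k) :
    ∫⁻ t in S, ENNReal.ofReal |(ContinuousLinearMap.toSpanSingleton ℝ (deriv k t)).det| =
      ENNReal.ofReal (∫ t in S, -deriv k t) := by
  rw [ofReal_integral_eq_lintegral_ofReal]
  · refine setLIntegral_congr_fun hSm fun t ht => ?_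
    simp only [ContinuousLinearMap.det_toSpanSingleton]
    rw [abs_of_nonpos (deriv_nonpos_of_recR hk (hS' ht))]
  · exact (LineRec_integrableOn hk A B S hS).neg
  · refine (ae_restrict_mem hSm).mono fun t ht => ?_
    simp only [Pi.zero_apply]
    linarith [deriv_nonpos_of_recR hk (hS' ht)]

/-- PROOF: `(0, k α) ⊆ k '' (Ioo α B ∩ recR k)`: for a level `z` take the last time with `k = z`;
`addHaar_image_le_lintegral_abs_det_fderiv` (one dimensional). -/
theorem recR_lower {k : ℝ → ℝ} (hk : ContDiff ℝ 1 k) {B : ℝ} (hB : ∀ t, B ≤ t → k t = 0) {α : ℝ}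
    (hα : α ≤ B) : k α ≤ ∫ t in Ioo α B ∩ recR k, -deriv k t := by
  have hSm : MeasurableSet (Ioo α B ∩ recR k) :=
    measurableSet_Ioo.inter (isClosed_recR hk.continuous).measurableSet
  have hnn : 0 ≤ ∫ t in Ioo α B ∩ recR k, -deriv k t := by
    refine setIntegral_nonneg hSm fun t ht => ?_
    linarith [deriv_nonpos_of_recR hk ht.2]
  rcases le_or_gt (k α) 0 with h0 | h0
  · exact h0.trans hnn
  have himg : Ioo 0 (k α) ⊆ k '' (Ioo α B ∩ recR k) := by
    intro z hz
    set C : Set ℝ := Icc α B ∩ {t | z ≤ k t} with hC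
    have hCc : IsCompact C :=
      isCompact_Icc.inter_right (isClosed_le continuous_const hk.continuous)
    have hCne : C.Nonempty := ⟨α, ⟨le_rfl, hα⟩, hz.2.le⟩
    obtain ⟨hs1, hs2⟩ := hCc.sSup_mem hCne
    set s := sSup C with hs
    have hsB : s < B := by
      refine lt_of_le_of_ne hs1.2 ?_
      intro h
      have := hB s h.ge
      simp only [mem_ofPred_eq] at hs2
      rw [this] at hs2
      linarith [hz.1]
    have hlater : ∀ t, s < t → k t < z := by
      intro t ht
      by_contra hcon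
      rw [not_lt] at hcon
      rcases le_or_gt t B with htB | htB
      · have : t ∈ C := ⟨⟨hs1.1.trans ht.le, htB⟩, hcon⟩
        exact absurd (le_csSup hCc.bddAbove this) (not_le.2 ht)
      · rw [hB t htB.le] at hcon
        linarith [hz.1]
    have hks : k s = z := by
      refine le_antisymm ?_ hs2
      have h1 : Filter.Tendsto k (nhdsWithin s (Ioi s)) (nhds (k s)) :=
        hk.continuous.continuousAt.tendsto.mono_left nhdsWithin_le_nhds
      refine le_of_tendsto h1 ?_
      filter_upwards [self_mem_nhdsWithin] with t ht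
      exact (hlater t ht).le
    have hsα : α < s := by
      refine lt_of_le_of_ne hs1.1 ?_
      intro h
      rw [← h] at hks
      linarith [hz.2]
    refine ⟨s, ⟨⟨hsα, hsB⟩, ?_⟩, hks⟩
    intro t' ht'
    rcases eq_or_lt_of_le ht' with h | h
    · rw [h]
    · rw [hks]; exact (hlater t' h).le
  have h1 : volume (k '' (Ioo α B ∩ recR k)) ≤
      ∫⁻ t in Ioo α B ∩ recR k,
        ENNReal.ofReal |(ContinuousLinearMap.toSpanSingleton ℝ (deriv k t)).det| :=
    addHaar_image_le_lintegral_abs_det_fderiv volume hSm fun t _ =>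
      ((hk.differentiable one_ne_zero) t).hasDerivAt.hasFDerivAt.hasFDerivWithinAt
  rw [LineRec_ofReal hk α B _ hSm inter_subset_left inter_subset_right] at h1
  have h2 := (measure_mono (μ := volume) himg).trans h1
  rw [Real.volume_Ioo, sub_zero] at h2
  exact (ENNReal.ofReal_le_ofReal_iff hnn).1 h2

/-- PROOF: `k` is injective on `recR k ∩ {k' < 0}`, with values in `[0,1]`;
`lintegral_abs_det_fderiv_eq_addHaar_image`. -/
theorem recR_upper {k : ℝ → ℝ} (hk : ContDiff ℝ 1 k) (h01 : ∀ t, 0 ≤ k t ∧ k t ≤ 1) (A B : ℝ) :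
    ∫ t in Ioo A B ∩ recR k, -deriv k t ≤ 1 := by
  have hcd : Continuous (deriv k) := hk.continuous_deriv le_rfl
  have hSm : MeasurableSet (Ioo A B ∩ recR k) :=
    measurableSet_Ioo.inter (isClosed_recR hk.continuous).measurableSet
  set S : Set ℝ := (Ioo A B ∩ recR k) ∩ {t | deriv k t < 0} with hS
  have hneg : MeasurableSet {t | deriv k t < 0} :=
    (isOpen_lt hcd continuous_const).measurableSet
  have hSm' : MeasurableSet S := hSm.inter hneg
  have e1 : ∫ t in Ioo A B ∩ recR k, -deriv k t = ∫ t in S, -deriv k t := by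
    have hsub : S ⊆ Ioo A B ∩ recR k := inter_subset_left
    refine setIntegral_eq_of_subset_of_forall_sdiff_eq_zero (μ := volume)
      (f := fun t => -deriv k t) hSm hsub ?_
    intro t ht
    have h1 := deriv_nonpos_of_recR hk ht.1.2
    have h2 : ¬ deriv k t < 0 := fun h => ht.2 ⟨ht.1, h⟩
    have : deriv k t = 0 := le_antisymm h1 (not_lt.1 h2)
    rw [this, neg_zero]
  have hinj : InjOn k S := by
    have key : ∀ s ∈ S, ∀ t ∈ S, s < t → k s ≠ k t := by
      intro s hs t ht hst heq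
      have hd : HasDerivAt k (deriv k t) t := ((hk.differentiable one_ne_zero) t).hasDerivAt
      have h1 := hd.hasDerivWithinAt (s := Iio t)
      rw [hasDerivWithinAt_iff_tendsto_slope' self_notMem_Iio] at h1
      have h2 : ∀ᶠ u in nhdsWithin t (Iio t), slope k t u < 0 :=
        h1.eventually (gt_mem_nhds ht.2)
      have h3 : ∀ᶠ u in nhdsWithin t (Iio t), s < u :=
        (eventually_gt_nhds hst).filter_mono nhdsWithin_le_nhds
      obtain ⟨u, ⟨hu1, hu2⟩, hu3⟩ := ((h2.and h3).and self_mem_nhdsWithin).exists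
      rw [slope_def_field] at hu1
      have hu3' : u < t := hu3
      have h4 : k u ≤ k s := hs.1.2 u hu2.le
      have h5 : 0 ≤ (k u - k t) / (u - t) :=
        div_nonneg_of_nonpos (by linarith) (by linarith)
      linarith
    intro s hs t ht heq
    by_contra hne
    rcases lt_or_gt_of_ne hne with h | h
    · exact key s hs t ht h heq
    · exact key t ht s hs h heq.symm
  have h1 : (∫⁻ t in S,
        ENNReal.ofReal |(ContinuousLinearMap.toSpanSingleton ℝ (deriv k t)).det|) =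
      volume (k '' S) :=
    lintegral_abs_det_fderiv_eq_addHaar_image volume hSm' (fun t _ =>
      ((hk.differentiable one_ne_zero) t).hasDerivAt.hasFDerivAt.hasFDerivWithinAt) hinj
  rw [LineRec_ofReal hk A B _ hSm' (fun t ht => ht.1.1) (fun t ht => ht.1.2)] at h1
  have h2 : volume (k '' S) ≤ 1 := by
    have : k '' S ⊆ Icc 0 1 := by
      rintro _ ⟨t, _, rfl⟩
      exact h01 t
    refine (measure_mono this).trans ?_
    rw [Real.volume_Icc]; simp
  rw [← h1] at h2
  rw [e1]
  exact ENNReal.ofReal_le_one.1 h2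

theorem LineRec_terminal {k : ℝ → ℝ} (hk : ContDiff ℝ 1 k) {σ B : ℝ}
    (hB : ∀ t, B ≤ t → k t = 0) {U : Set ℝ} (hU : U ⊆ Ioo σ B)
    (hUt : ∀ t ∈ U, ∀ t' ∈ Ioo σ B, t ≤ t' → t' ∈ U) :
    0 ≤ ∫ t in U \ recR k, deriv k t := by
  have hcd : Continuous (deriv k) := hk.continuous_deriv le_rfl
  rcases U.eq_empty_or_nonempty with hUe | hUne
  · simp [hUe]
  have hbdd : BddBelow U := ⟨σ, fun t ht => (hU ht).1.le⟩
  set α := sInf U with hα
  have hασ : σ ≤ α := le_csInf hUne fun t ht => (hU ht).1.le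
  have hαB : α ≤ B := by
    obtain ⟨t, ht⟩ := hUne
    exact (csInf_le hbdd ht).trans (hU ht).2.le
  have h1 : Ioo α B ⊆ U := by
    intro t ht
    obtain ⟨u, hu, hut⟩ := exists_lt_of_csInf_lt hUne ht.1
    exact hUt u hu t ⟨lt_of_le_of_lt hασ ht.1, ht.2⟩ hut.le
  have h2 : U ⊆ Ico α B := fun t ht => ⟨csInf_le hbdd ht, (hU ht).2⟩
  have hae : (U \ recR k : Set ℝ) =ᵐ[volume] (Ioo α B \ recR k : Set ℝ) := by
    have h3 : (U : Set ℝ) =ᵐ[volume] (Ioo α B : Set ℝ) := by
      refine Filter.EventuallyLE.antisymm ?_ h1.eventuallyLE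
      exact h2.eventuallyLE.trans (Ioo_ae_eq_Ico.symm.le)
    exact h3.diff (Filter.EventuallyEq.refl _ _)
  rw [setIntegral_congr_set hae]
  have hRm : MeasurableSet (recR k) := (isClosed_recR hk.continuous).measurableSet
  have hint : IntegrableOn (deriv k) (Ioo α B) :=
    LineRec_integrableOn hk α B _ Subset.rfl
  have h4 := integral_inter_add_sdiff hRm hint
  have h5 : ∫ t in Ioo α B, deriv k t = k B - k α := by
    rw [← integral_Ioc_eq_integral_Ioo, ← intervalIntegral.integral_of_le hαB]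
    exact intervalIntegral.integral_deriv_eq_sub (fun t _ => (hk.differentiable one_ne_zero) t)
      (hcd.intervalIntegrable _ _)
  have h6 := recR_lower hk hB hαB
  rw [integral_neg] at h6
  rw [h5, hB B le_rfl] at h4
  linarith

/-- Weighted version. PROOF: layer cake for `Q`: `{Q > q}` is a terminal segment of `(σ,B)`, and
`∫_{(α,B) \ recR} k' = -k(α) + ∫_{(α,B) ∩ recR} (-k') ≥ 0` by `recR_lower`. -/
theorem recR_weight {k : ℝ → ℝ} (hk : ContDiff ℝ 1 k) {σ B : ℝ} (hσ : σ ≤ B)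
    (hB : ∀ t, B ≤ t → k t = 0) {Q : ℝ → ℝ} (hQ0 : ∀ t ∈ Ioo σ B, 0 ≤ Q t)
    (hQ : MonotoneOn Q (Ioo σ B)) {M : ℝ} (hM : ∀ t ∈ Ioo σ B, Q t ≤ M) :
    0 ≤ ∫ t in Ioo σ B \ recR k, Q t * deriv k t := by
  have hcd : Continuous (deriv k) := hk.continuous_deriv le_rfl
  have hDm : MeasurableSet (Ioo σ B \ recR k) :=
    measurableSet_Ioo.diff (isClosed_recR hk.continuous).measurableSet
  obtain ⟨Q', hQ'm, hQ'e⟩ := hQ.exists_monotone_extension
    ⟨0, by rintro _ ⟨t, ht, rfl⟩; exact hQ0 t ht⟩ ⟨M, by rintro _ ⟨t, ht, rfl⟩; exact hM t ht⟩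
  have hQ'meas : Measurable Q' := hQ'm.measurable
  set D : Set ℝ := Ioo σ B \ recR k with hD
  have hDI : ∀ t ∈ D, t ∈ Ioo σ B := fun t ht => ht.1
  let F : ℝ → ℝ → ℝ := fun t q => {p : ℝ × ℝ | p.2 < Q' p.1}.indicator
    (fun p => deriv k p.1) (t, q)
  have hset : MeasurableSet {p : ℝ × ℝ | p.2 < Q' p.1} :=
    measurableSet_lt measurable_snd (hQ'meas.comp measurable_fst)
  have hintD : Integrable (deriv k) (volume.restrict D) :=
    LineRec_integrableOn hk σ B D sdiff_subset
  have hF : Integrable (Function.uncurry F)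
      ((volume.restrict D).prod (volume.restrict (Ioc 0 M))) := by
    haveI : IsFiniteMeasure ((volume : Measure ℝ).restrict (Ioc 0 M)) :=
      ⟨by rw [Measure.restrict_apply_univ, Real.volume_Ioc]; exact ENNReal.ofReal_lt_top⟩
    have h1 : Integrable (fun p : ℝ × ℝ => deriv k p.1)
        ((volume.restrict D).prod (volume.restrict (Ioc 0 M))) := hintD.comp_fst _
    exact h1.indicator hset
  have hinner : ∀ t ∈ D, Q t * deriv k t = ∫ q in Ioc 0 M, F t q := by
    intro t ht
    have htI := hDI t ht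
    have hQt : Q t = Q' t := hQ'e htI
    have e1 : ∀ q, F t q = (Iio (Q' t)).indicator (fun _ => deriv k t) q := by
      intro q
      simp only [F, indicator, mem_ofPred_eq, mem_Iio]
    simp_rw [e1]
    rw [setIntegral_indicator measurableSet_Iio, setIntegral_const]
    have e2 : Ioc 0 M ∩ Iio (Q' t) = Ioo 0 (Q' t) := by
      ext q
      simp only [mem_inter_iff, mem_Ioc, mem_Iio, mem_Ioo]
      constructor
      · rintro ⟨⟨h1, _⟩, h3⟩; exact ⟨h1, h3⟩
      · rintro ⟨h1, h2⟩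
        exact ⟨⟨h1, h2.le.trans (hQt ▸ hM t htI)⟩, h2⟩
    rw [e2, measureReal_def, Real.volume_Ioo, sub_zero,
      ENNReal.toReal_ofReal (hQt ▸ hQ0 t htI), hQt, smul_eq_mul]
  rw [setIntegral_congr_fun hDm hinner, integral_integral_swap hF]
  refine integral_nonneg fun q => ?_
  simp only [Pi.zero_apply]
  have e3 : ∀ t, F t q = {t | q < Q' t}.indicator (deriv k) t := by
    intro t
    simp only [F, indicator, mem_ofPred_eq]
  simp_rw [e3]
  rw [setIntegral_indicator (measurableSet_lt measurable_const hQ'meas)]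
  have e4 : D ∩ {t | q < Q' t} = (Ioo σ B ∩ {t | q < Q' t}) \ recR k := by
    ext t
    simp only [hD, mem_inter_iff, mem_sdiff, mem_ofPred_eq]
    tauto
  rw [e4]
  refine LineRec_terminal hk hB inter_subset_left ?_
  intro t ht t' ht' htt
  exact ⟨ht', lt_of_lt_of_le ht.2 (hQ'm htt)⟩

theorem LineRec_flip (f : ℝ → ℝ) (S : Set ℝ) :
    ∫ t in S, f t = ∫ t in (fun t => -t) ⁻¹' S, f (-t) := by
  have h := (Measure.measurePreserving_neg (volume : Measure ℝ)).setIntegral_preimage_emb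
    (MeasurableEquiv.neg ℝ).measurableEmbedding f S
  exact h.symm

theorem LineRec_preimage (k : ℝ → ℝ) (A α : ℝ) :
    (fun t : ℝ => -t) ⁻¹' (Ioo A α ∩ recL k) = Ioo (-α) (-A) ∩ recR fun t => k (-t) := by
  rw [LineRec_recL_eq]
  ext t
  simp only [mem_preimage, mem_inter_iff, mem_Ioo, neg_neg]
  constructor
  · rintro ⟨⟨h1, h2⟩, h3⟩; exact ⟨⟨by linarith, by linarith⟩, h3⟩
  · rintro ⟨⟨h1, h2⟩, h3⟩; exact ⟨⟨by linarith, by linarith⟩, h3⟩

theorem LineRec_preimage' (k : ℝ → ℝ) (A α : ℝ) :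
    (fun t : ℝ => -t) ⁻¹' (Ioo A α \ recL k) = Ioo (-α) (-A) \ recR fun t => k (-t) := by
  rw [LineRec_recL_eq]
  ext t
  simp only [mem_preimage, mem_sdiff, mem_Ioo, neg_neg]
  constructor
  · rintro ⟨⟨h1, h2⟩, h3⟩; exact ⟨⟨by linarith, by linarith⟩, h3⟩
  · rintro ⟨⟨h1, h2⟩, h3⟩; exact ⟨⟨by linarith, by linarith⟩, h3⟩

theorem recL_lower {k : ℝ → ℝ} (hk : ContDiff ℝ 1 k) {A : ℝ} (hA : ∀ t, t ≤ A → k t = 0) {α : ℝ}
    (hα : A ≤ α) : k α ≤ ∫ t in Ioo A α ∩ recL k, deriv k t := by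
  have h := recR_lower (LineRec_contDiff_neg hk) (B := -A) (α := -α)
    (fun t ht => hA _ (by linarith)) (by linarith)
  rw [LineRec_flip, LineRec_preimage]
  simpa only [neg_neg, LineRec_deriv_neg] using h

theorem recL_upper {k : ℝ → ℝ} (hk : ContDiff ℝ 1 k) (h01 : ∀ t, 0 ≤ k t ∧ k t ≤ 1) (A B : ℝ) :
    ∫ t in Ioo A B ∩ recL k, deriv k t ≤ 1 := by
  have h := recR_upper (LineRec_contDiff_neg hk) (fun t => h01 (-t)) (-B) (-A)
  rw [LineRec_flip, LineRec_preimage]
  simpa only [neg_neg, LineRec_deriv_neg] using h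

theorem recL_weight {k : ℝ → ℝ} (hk : ContDiff ℝ 1 k) {A τ : ℝ} (hτ : A ≤ τ)
    (hA : ∀ t, t ≤ A → k t = 0) {Q : ℝ → ℝ} (hQ0 : ∀ t ∈ Ioo A τ, 0 ≤ Q t)
    (hQ : AntitoneOn Q (Ioo A τ)) {M : ℝ} (hM : ∀ t ∈ Ioo A τ, Q t ≤ M) :
    ∫ t in Ioo A τ \ recL k, Q t * deriv k t ≤ 0 := by
  have hmem : ∀ t ∈ Ioo (-τ) (-A), -t ∈ Ioo A τ := by
    intro t ht
    exact ⟨by linarith [ht.2], by linarith [ht.1]⟩
  have h := recR_weight (LineRec_contDiff_neg hk) (σ := -τ) (B := -A) (by linarith)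
    (fun t ht => hA _ (by linarith)) (Q := fun t => Q (-t)) (M := M)
    (fun t ht => hQ0 _ (hmem t ht))
    (fun s hs t ht hst => hQ (hmem t ht) (hmem s hs) (by linarith))
    (fun t ht => hM _ (hmem t ht))
  rw [LineRec_flip, LineRec_preimage']
  simp only [LineRec_deriv_neg, mul_neg, integral_neg] at h
  linarith

end Vale.Agent.P219.TPH
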