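import Vale.Agent.P219.TPH.LineRec

/-! # The line theorem (task H11) -/

open MeasureTheory Set Metric
open scoped ENNReal ContDiff

namespace Vale.Agent.P219.TPH


/-- The integrand, cut off to `σ < τ`. -/
noncomputable def LineThmG (k : ℝ → ℝ) (P Q₁ Q₂ : ℝ → ℝ → ℝ) : ℝ × ℝ → ℝ :=
  {p : ℝ × ℝ | p.1 < p.2}.indicator fun p =>
    P p.1 p.2 + Q₁ p.1 p.2 * deriv k p.2 - Q₂ p.1 p.2 * deriv k p.1

theorem LineThm_measurable {k : ℝ → ℝ} (hk : ContDiff ℝ 1 k) {P Q₁ Q₂ : ℝ → ℝ → ℝ}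
    (hP : Measurable (Function.uncurry P)) (hQ₁ : Measurable (Function.uncurry Q₁))
    (hQ₂ : Measurable (Function.uncurry Q₂)) : Measurable (LineThmG k P Q₁ Q₂) := by
  have hκ : Measurable (deriv k) := (hk.continuous_deriv le_rfl).measurable
  refine Measurable.indicator ?_ (measurableSet_lt measurable_fst measurable_snd)
  exact (hP.add (hQ₁.mul (hκ.comp measurable_snd))).sub (hQ₂.mul (hκ.comp measurable_fst))

theorem LineThm_mem {A B : ℝ} (p : (ℝ × ℝ) → Prop)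
    (h : ∀ x, A < x.1 → x.1 < B → A < x.2 → x.2 < B → p x) :
    ∀ᵐ x ∂((volume.restrict (Ioo A B)).prod (volume.restrict (Ioo A B))), p x := by
  rw [Measure.prod_restrict]
  filter_upwards [ae_restrict_mem (measurableSet_Ioo.prod measurableSet_Ioo)] with x hx
  exact h x hx.1.1 hx.1.2 hx.2.1 hx.2.2

theorem LineThm_integrable {k : ℝ → ℝ} (hk : ContDiff ℝ 1 k) {A B : ℝ}
    {P Q₁ Q₂ : ℝ → ℝ → ℝ} (hP : Measurable (Function.uncurry P))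
    (hQ₁ : Measurable (Function.uncurry Q₁)) (hQ₂ : Measurable (Function.uncurry Q₂)) {M : ℝ}
    (hPM : ∀ σ τ, A < σ → σ < τ → τ < B → 0 ≤ P σ τ ∧ P σ τ ≤ M)
    (hQ₁M : ∀ σ τ, A < σ → σ < τ → τ < B → 0 ≤ Q₁ σ τ ∧ Q₁ σ τ ≤ M)
    (hQ₂M : ∀ σ τ, A < σ → σ < τ → τ < B → 0 ≤ Q₂ σ τ ∧ Q₂ σ τ ≤ M) :
    Integrable (LineThmG k P Q₁ Q₂)
      ((volume.restrict (Ioo A B)).prod (volume.restrict (Ioo A B))) := by
  obtain ⟨L, hL⟩ := isCompact_Icc.exists_bound_of_continuousOn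
    (hk.continuous_deriv le_rfl).continuousOn (s := Icc A B)
  refine Integrable.of_bound (LineThm_measurable hk hP hQ₁ hQ₂).aestronglyMeasurable
    (|M| + |M| * |L| + |M| * |L|) ?_
  refine LineThm_mem _ fun x h1 h2 h3 h4 => ?_
  by_cases hx : x.1 < x.2
  · have e : LineThmG k P Q₁ Q₂ x =
        P x.1 x.2 + Q₁ x.1 x.2 * deriv k x.2 - Q₂ x.1 x.2 * deriv k x.1 :=
      indicator_of_mem (s := {p : ℝ × ℝ | p.1 < p.2}) hx _
    rw [e]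
    have a1 := hPM _ _ h1 hx h4
    have a2 := hQ₁M _ _ h1 hx h4
    have a3 := hQ₂M _ _ h1 hx h4
    have b1 : |deriv k x.2| ≤ |L| := (hL x.2 ⟨h3.le, h4.le⟩).trans (le_abs_self L)
    have b2 : |deriv k x.1| ≤ |L| := (hL x.1 ⟨h1.le, h2.le⟩).trans (le_abs_self L)
    have c1 : |P x.1 x.2| ≤ |M| := by rw [abs_of_nonneg a1.1]; exact a1.2.trans (le_abs_self M)
    have c2 : |Q₁ x.1 x.2| ≤ |M| := by rw [abs_of_nonneg a2.1]; exact a2.2.trans (le_abs_self M)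
    have c3 : |Q₂ x.1 x.2| ≤ |M| := by rw [abs_of_nonneg a3.1]; exact a3.2.trans (le_abs_self M)
    rw [Real.norm_eq_abs]
    calc |P x.1 x.2 + Q₁ x.1 x.2 * deriv k x.2 - Q₂ x.1 x.2 * deriv k x.1|
        ≤ |P x.1 x.2 + Q₁ x.1 x.2 * deriv k x.2| + |Q₂ x.1 x.2 * deriv k x.1| := abs_sub _ _
      _ ≤ |P x.1 x.2| + |Q₁ x.1 x.2 * deriv k x.2| + |Q₂ x.1 x.2 * deriv k x.1| := by
          gcongr; exact abs_add_le _ _
      _ = |P x.1 x.2| + |Q₁ x.1 x.2| * |deriv k x.2| + |Q₂ x.1 x.2| * |deriv k x.1| := by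
          rw [abs_mul, abs_mul]
      _ ≤ |M| + |M| * |L| + |M| * |L| := by gcongr
  · have e : LineThmG k P Q₁ Q₂ x = 0 :=
      indicator_of_notMem (s := {p : ℝ × ℝ | p.1 < p.2}) hx _
    rw [e, norm_zero]
    positivity


theorem LineThm_intOn {f : ℝ → ℝ} (hf : Measurable f) {M : ℝ} {S : Set ℝ} {A B : ℝ}
    (hS : MeasurableSet S) (hSAB : S ⊆ Ioo A B) (h : ∀ t ∈ S, |f t| ≤ M) :
    IntegrableOn f S := by
  have hfin : IsFiniteMeasure ((volume : Measure ℝ).restrict S) :=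
    ⟨by rw [Measure.restrict_apply_univ]; exact (measure_mono hSAB).trans_lt (by simp)⟩
  refine Integrable.of_bound hf.aestronglyMeasurable M ?_
  filter_upwards [ae_restrict_mem hS] with t ht using h t ht

theorem LineThm_bound {k : ℝ → ℝ} (hk : ContDiff ℝ 1 k) (A B : ℝ) :
    ∃ L : ℝ, 0 ≤ L ∧ ∀ t ∈ Ioo A B, |deriv k t| ≤ L := by
  obtain ⟨L, hL⟩ := isCompact_Icc.exists_bound_of_continuousOn
    (hk.continuous_deriv le_rfl).continuousOn (s := Icc A B)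
  exact ⟨|L|, abs_nonneg _, fun t ht => (hL t ⟨ht.1.le, ht.2.le⟩).trans (le_abs_self L)⟩

theorem LineThm_abs_le {x M : ℝ} (h : 0 ≤ x ∧ x ≤ M) : |x| ≤ |M| := by
  rw [abs_of_nonneg h.1]; exact h.2.trans (le_abs_self M)

theorem LineThm_step1 {k : ℝ → ℝ} (hk : ContDiff ℝ 1 k) {A B : ℝ}
    (hB : ∀ t, B ≤ t → k t = 0)
    {P Q₁ Q₂ : ℝ → ℝ → ℝ} (hP : Measurable (Function.uncurry P))
    (hQ₁ : Measurable (Function.uncurry Q₁)) (hQ₂ : Measurable (Function.uncurry Q₂)) {M : ℝ}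
    (hPM : ∀ σ τ, A < σ → σ < τ → τ < B → 0 ≤ P σ τ ∧ P σ τ ≤ M)
    (hQ₁M : ∀ σ τ, A < σ → σ < τ → τ < B → 0 ≤ Q₁ σ τ ∧ Q₁ σ τ ≤ M)
    (hQ₂M : ∀ σ τ, A < σ → σ < τ → τ < B → 0 ≤ Q₂ σ τ ∧ Q₂ σ τ ≤ M)
    (hQ₁m : ∀ σ ∈ Ioo A B, MonotoneOn (Q₁ σ) (Ioo σ B))
    (c1a : ∀ σ τ, A < σ → σ < τ → τ < B → 0 < deriv k σ → Q₂ σ τ * deriv k σ ≤ P σ τ)
    (c1b : ∀ σ τ, A < σ → σ < τ → τ < B → deriv k τ < 0 → Q₁ σ τ * -deriv k τ ≤ P σ τ)
    {σ : ℝ} (hσ : σ ∈ Ioo A B) :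
    0 ≤ ∫ τ in Ioo σ B \ recR k, (P σ τ + Q₁ σ τ * deriv k τ - Q₂ σ τ * deriv k σ) := by
  have hSm : MeasurableSet (Ioo σ B \ recR k) :=
    measurableSet_Ioo.diff (isClosed_recR hk.continuous).measurableSet
  have hκ : Measurable (deriv k) := (hk.continuous_deriv le_rfl).measurable
  rcases lt_or_ge 0 (deriv k σ) with hpos | hneg
  · obtain ⟨L, hL0, hL⟩ := LineThm_bound hk A B
    have hsub : Ioo σ B \ recR k ⊆ Ioo σ B := sdiff_subset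
    have hPσ : Measurable (P σ) := hP.comp measurable_prodMk_left
    have hQ₁σ : Measurable (Q₁ σ) := hQ₁.comp measurable_prodMk_left
    have hQ₂σ : Measurable (Q₂ σ) := hQ₂.comp measurable_prodMk_left
    have i1 : IntegrableOn (fun τ => P σ τ - Q₂ σ τ * deriv k σ) (Ioo σ B \ recR k) := by
      refine LineThm_intOn (M := |M| + |M| * L) (hPσ.sub (hQ₂σ.mul_const _)) hSm hsub
        fun τ hτ => ?_
      have a1 := LineThm_abs_le (hPM σ τ hσ.1 hτ.1.1 hτ.1.2)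
      have a3 := LineThm_abs_le (hQ₂M σ τ hσ.1 hτ.1.1 hτ.1.2)
      calc _ ≤ |P σ τ| + |Q₂ σ τ * deriv k σ| := abs_sub _ _
        _ ≤ |M| + |M| * L := by
            rw [abs_mul]
            have := hL σ hσ
            gcongr
    have i2 : IntegrableOn (fun τ => Q₁ σ τ * deriv k τ) (Ioo σ B \ recR k) := by
      refine LineThm_intOn (M := |M| * L) (hQ₁σ.mul hκ) hSm hsub fun τ hτ => ?_
      have a2 := LineThm_abs_le (hQ₁M σ τ hσ.1 hτ.1.1 hτ.1.2)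
      have := hL τ ⟨hσ.1.trans hτ.1.1, hτ.1.2⟩
      show |Q₁ σ τ * deriv k τ| ≤ _
      rw [abs_mul]
      gcongr
    have e : ∀ τ, P σ τ + Q₁ σ τ * deriv k τ - Q₂ σ τ * deriv k σ =
        (P σ τ - Q₂ σ τ * deriv k σ) + Q₁ σ τ * deriv k τ := fun τ => by ring
    simp_rw [e]
    rw [integral_add i1 i2]
    refine add_nonneg (setIntegral_nonneg hSm fun τ hτ => ?_) ?_
    · exact sub_nonneg.2 (c1a σ τ hσ.1 hτ.1.1 hτ.1.2 hpos)
    · exact recR_weight hk hσ.2.le hB (fun t ht => (hQ₁M σ t hσ.1 ht.1 ht.2).1)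
        (hQ₁m σ hσ) (fun t ht => (hQ₁M σ t hσ.1 ht.1 ht.2).2)
  · refine setIntegral_nonneg hSm fun τ hτ => ?_
    have a1 := hPM σ τ hσ.1 hτ.1.1 hτ.1.2
    have a2 := hQ₁M σ τ hσ.1 hτ.1.1 hτ.1.2
    have a3 := hQ₂M σ τ hσ.1 hτ.1.1 hτ.1.2
    have b3 : 0 ≤ Q₂ σ τ * -deriv k σ := mul_nonneg a3.1 (by linarith)
    rcases lt_or_ge (deriv k τ) 0 with h | h
    · have := c1b σ τ hσ.1 hτ.1.1 hτ.1.2 h
      linarith
    · have := mul_nonneg a2.1 h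
      linarith

theorem LineThm_step2 {k : ℝ → ℝ} (hk : ContDiff ℝ 1 k) {A B : ℝ}
    (hA : ∀ t, t ≤ A → k t = 0)
    {P Q₁ Q₂ : ℝ → ℝ → ℝ} (hP : Measurable (Function.uncurry P))
    (hQ₁ : Measurable (Function.uncurry Q₁)) (hQ₂ : Measurable (Function.uncurry Q₂)) {M : ℝ}
    (hPM : ∀ σ τ, A < σ → σ < τ → τ < B → 0 ≤ P σ τ ∧ P σ τ ≤ M)
    (hQ₁M : ∀ σ τ, A < σ → σ < τ → τ < B → 0 ≤ Q₁ σ τ ∧ Q₁ σ τ ≤ M)
    (hQ₂M : ∀ σ τ, A < σ → σ < τ → τ < B → 0 ≤ Q₂ σ τ ∧ Q₂ σ τ ≤ M)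
    (hQ₂m : ∀ τ ∈ Ioo A B, AntitoneOn (fun σ => Q₂ σ τ) (Ioo A τ))
    (c1b : ∀ σ τ, A < σ → σ < τ → τ < B → deriv k τ < 0 → Q₁ σ τ * -deriv k τ ≤ P σ τ)
    {τ : ℝ} (hτ : τ ∈ Ioo A B) (hτR : τ ∈ recR k) :
    0 ≤ ∫ σ in Ioo A τ \ recL k, (P σ τ + Q₁ σ τ * deriv k τ - Q₂ σ τ * deriv k σ) := by
  have hSm : MeasurableSet (Ioo A τ \ recL k) :=
    measurableSet_Ioo.diff (isClosed_recL hk.continuous).measurableSet
  have hκ : Measurable (deriv k) := (hk.continuous_deriv le_rfl).measurable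
  have hτκ := deriv_nonpos_of_recR hk hτR
  obtain ⟨L, hL0, hL⟩ := LineThm_bound hk A B
  have hsub : Ioo A τ \ recL k ⊆ Ioo A τ := sdiff_subset
  have hPτ : Measurable (fun σ => P σ τ) := hP.comp measurable_prodMk_right
  have hQ₁τ : Measurable (fun σ => Q₁ σ τ) := hQ₁.comp measurable_prodMk_right
  have hQ₂τ : Measurable (fun σ => Q₂ σ τ) := hQ₂.comp measurable_prodMk_right
  have i1 : IntegrableOn (fun σ => P σ τ + Q₁ σ τ * deriv k τ) (Ioo A τ \ recL k) := by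
    refine LineThm_intOn (M := |M| + |M| * L) (hPτ.add (hQ₁τ.mul_const _)) hSm hsub
      fun σ hσ => ?_
    have a1 := LineThm_abs_le (hPM σ τ hσ.1.1 hσ.1.2 hτ.2)
    have a2 := LineThm_abs_le (hQ₁M σ τ hσ.1.1 hσ.1.2 hτ.2)
    calc _ ≤ |P σ τ| + |Q₁ σ τ * deriv k τ| := abs_add_le _ _
      _ ≤ |M| + |M| * L := by
          rw [abs_mul]
          have := hL τ hτ
          gcongr
  have i2 : IntegrableOn (fun σ => Q₂ σ τ * deriv k σ) (Ioo A τ \ recL k) := by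
    refine LineThm_intOn (M := |M| * L) (hQ₂τ.mul hκ) hSm hsub fun σ hσ => ?_
    have a3 := LineThm_abs_le (hQ₂M σ τ hσ.1.1 hσ.1.2 hτ.2)
    have := hL σ ⟨hσ.1.1, hσ.1.2.trans hτ.2⟩
    show |Q₂ σ τ * deriv k σ| ≤ _
    rw [abs_mul]
    gcongr
  rw [integral_sub i1 i2]
  have h1 : 0 ≤ ∫ σ in Ioo A τ \ recL k, (P σ τ + Q₁ σ τ * deriv k τ) := by
    refine setIntegral_nonneg hSm fun σ hσ => ?_
    have a1 := hPM σ τ hσ.1.1 hσ.1.2 hτ.2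
    rcases lt_or_ge (deriv k τ) 0 with h | h
    · have := c1b σ τ hσ.1.1 hσ.1.2 hτ.2 h
      linarith
    · have : deriv k τ = 0 := le_antisymm hτκ h
      rw [this, mul_zero, add_zero]
      exact a1.1
  have h2 : ∫ σ in Ioo A τ \ recL k, Q₂ σ τ * deriv k σ ≤ 0 :=
    recL_weight hk hτ.1.le hA (Q := fun σ => Q₂ σ τ)
      (fun t ht => (hQ₂M t τ ht.1 ht.2 hτ.2).1) (hQ₂m τ hτ)
      (fun t ht => (hQ₂M t τ ht.1 ht.2 hτ.2).2)
  linarith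

/-- Maximum points separate the records. -/
theorem LineThm_sep_left {k : ℝ → ℝ} {σ t : ℝ} (hσ : σ ∈ recL k)
    (hpos : deriv k σ ≠ 0) (ht : ∀ u, k u ≤ k t) : σ < t := by
  by_contra hn
  push Not at hn
  have h1 : k t ≤ k σ := hσ t hn
  have h2 : IsMaxOn k univ σ := fun u _ => (ht u).trans h1
  exact hpos ((h2.isLocalMax Filter.univ_mem).deriv_eq_zero)

theorem LineThm_sep_right {k : ℝ → ℝ} {τ t : ℝ} (hτ : τ ∈ recR k)
    (hneg : deriv k τ ≠ 0) (ht : ∀ u, k u ≤ k t) : t < τ := by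
  by_contra hn
  push Not at hn
  have h1 : k t ≤ k τ := hτ t hn
  have h2 : IsMaxOn k univ τ := fun u _ => (ht u).trans h1
  exact hneg ((h2.isLocalMax Filter.univ_mem).deriv_eq_zero)

theorem LineThm_exists_max {k : ℝ → ℝ} (hk : Continuous k) (h01 : ∀ t, 0 ≤ k t ∧ k t ≤ 1)
    {A B : ℝ} (hAB : A ≤ B) (hA : ∀ t, t ≤ A → k t = 0) (hB : ∀ t, B ≤ t → k t = 0) :
    ∃ t, ∀ u, k u ≤ k t := by
  obtain ⟨t, ht, hmax⟩ := isCompact_Icc.exists_isMaxOn (nonempty_Icc.2 hAB) hk.continuousOn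
  refine ⟨t, fun u => ?_⟩
  by_cases hu : u ∈ Icc A B
  · exact hmax hu
  · rw [mem_Icc, not_and_or, not_le, not_le] at hu
    rcases hu with h | h
    · rw [hA u h.le]; exact (h01 t).1
    · rw [hB u h.le]; exact (h01 t).1

/-- The width of the top. -/
theorem LineThm_width {k : ℝ → ℝ} (h01 : ∀ t, 0 ≤ k t ∧ k t ≤ 1) {σ τ : ℝ}
    (hσ : σ ∈ recL k) (hσ' : deriv k σ ≠ 0) (hτ : τ ∈ recR k) (hτ' : deriv k τ ≠ 0)
    (hστ : σ < τ) : volume.real {t | k t = 1} ≤ τ - σ := by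
  have hsub : {t | k t = 1} ⊆ Ioo σ τ := by
    intro t ht
    have hmax : ∀ u, k u ≤ k t := fun u => by
      rw [show k t = 1 from ht]; exact (h01 u).2
    exact ⟨LineThm_sep_left hσ hσ' hmax, LineThm_sep_right hτ hτ' hmax⟩
  refine (measureReal_mono hsub (by simp)).trans ?_
  rw [Real.volume_real_Ioo_of_le hστ.le]

theorem LineThm_cut_right {k : ℝ → ℝ} (hk : ContDiff ℝ 1 k) {A B : ℝ}
    (hB : ∀ t, B ≤ t → k t = 0)
    {P Q₁ Q₂ : ℝ → ℝ → ℝ} (hP : Measurable (Function.uncurry P))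
    (hQ₁ : Measurable (Function.uncurry Q₁)) (hQ₂ : Measurable (Function.uncurry Q₂)) {M : ℝ}
    (hPM : ∀ σ τ, A < σ → σ < τ → τ < B → 0 ≤ P σ τ ∧ P σ τ ≤ M)
    (hQ₁M : ∀ σ τ, A < σ → σ < τ → τ < B → 0 ≤ Q₁ σ τ ∧ Q₁ σ τ ≤ M)
    (hQ₂M : ∀ σ τ, A < σ → σ < τ → τ < B → 0 ≤ Q₂ σ τ ∧ Q₂ σ τ ≤ M)
    (hQ₁m : ∀ σ ∈ Ioo A B, MonotoneOn (Q₁ σ) (Ioo σ B))
    (c1a : ∀ σ τ, A < σ → σ < τ → τ < B → 0 < deriv k σ → Q₂ σ τ * deriv k σ ≤ P σ τ)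
    (c1b : ∀ σ τ, A < σ → σ < τ → τ < B → deriv k τ < 0 → Q₁ σ τ * -deriv k τ ≤ P σ τ) :
    ∫ x, {p : ℝ × ℝ | p.2 ∈ recR k}.indicator (LineThmG k P Q₁ Q₂) x
        ∂((volume.restrict (Ioo A B)).prod (volume.restrict (Ioo A B))) ≤
      ∫ x, LineThmG k P Q₁ Q₂ x
        ∂((volume.restrict (Ioo A B)).prod (volume.restrict (Ioo A B))) := by
  have hG := LineThm_integrable hk (A := A) (B := B) hP hQ₁ hQ₂ hPM hQ₁M hQ₂M
  have hR : MeasurableSet (recR k) := (isClosed_recR hk.continuous).measurableSet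
  have hG2 := hG.indicator (hR.preimage measurable_snd)
  rw [← sub_nonneg]
  have e0 := integral_sub' hG hG2
  refine le_of_le_of_eq ?_ e0
  rw [integral_prod _ (hG.sub hG2)]
  refine setIntegral_nonneg measurableSet_Ioo fun σ hσ => ?_
  have e1 : ∀ τ, LineThmG k P Q₁ Q₂ (σ, τ) -
      (Prod.snd ⁻¹' recR k).indicator (LineThmG k P Q₁ Q₂) (σ, τ) =
      (Ioi σ \ recR k).indicator
        (fun τ => P σ τ + Q₁ σ τ * deriv k τ - Q₂ σ τ * deriv k σ) τ := by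
    intro τ
    by_cases h1 : τ ∈ recR k
    · rw [indicator_of_mem (show (σ, τ) ∈ (Prod.snd ⁻¹' recR k : Set (ℝ × ℝ)) from h1),
        indicator_of_notMem (fun h => h.2 h1), sub_self]
    · rw [indicator_of_notMem (show (σ, τ) ∉ (Prod.snd ⁻¹' recR k : Set (ℝ × ℝ)) from h1),
        sub_zero]
      by_cases h2 : σ < τ
      · rw [indicator_of_mem (show τ ∈ Ioi σ \ recR k from ⟨h2, h1⟩)]
        exact indicator_of_mem (s := {p : ℝ × ℝ | p.1 < p.2}) (a := (σ, τ)) h2 _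
      · rw [indicator_of_notMem (fun h => h2 h.1)]
        exact indicator_of_notMem (s := {p : ℝ × ℝ | p.1 < p.2}) (a := (σ, τ)) h2 _
  simp_rw [Pi.sub_apply, e1]
  rw [setIntegral_indicator (measurableSet_Ioi.diff hR)]
  have e2 : Ioo A B ∩ (Ioi σ \ recR k) = Ioo σ B \ recR k := by
    ext t
    simp only [mem_inter_iff, mem_Ioo, mem_sdiff, mem_Ioi]
    constructor
    · rintro ⟨⟨_, h2⟩, h3, h4⟩; exact ⟨⟨h3, h2⟩, h4⟩
    · rintro ⟨⟨h1, h2⟩, h3⟩; exact ⟨⟨hσ.1.trans h1, h2⟩, h1, h3⟩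
  rw [e2]
  exact LineThm_step1 hk hB hP hQ₁ hQ₂ hPM hQ₁M hQ₂M hQ₁m c1a c1b hσ

theorem LineThm_cut_left {k : ℝ → ℝ} (hk : ContDiff ℝ 1 k) {A B : ℝ}
    (hA : ∀ t, t ≤ A → k t = 0)
    {P Q₁ Q₂ : ℝ → ℝ → ℝ} (hP : Measurable (Function.uncurry P))
    (hQ₁ : Measurable (Function.uncurry Q₁)) (hQ₂ : Measurable (Function.uncurry Q₂)) {M : ℝ}
    (hPM : ∀ σ τ, A < σ → σ < τ → τ < B → 0 ≤ P σ τ ∧ P σ τ ≤ M)
    (hQ₁M : ∀ σ τ, A < σ → σ < τ → τ < B → 0 ≤ Q₁ σ τ ∧ Q₁ σ τ ≤ M)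
    (hQ₂M : ∀ σ τ, A < σ → σ < τ → τ < B → 0 ≤ Q₂ σ τ ∧ Q₂ σ τ ≤ M)
    (hQ₂m : ∀ τ ∈ Ioo A B, AntitoneOn (fun σ => Q₂ σ τ) (Ioo A τ))
    (c1b : ∀ σ τ, A < σ → σ < τ → τ < B → deriv k τ < 0 → Q₁ σ τ * -deriv k τ ≤ P σ τ) :
    ∫ x, {p : ℝ × ℝ | p.1 ∈ recL k}.indicator
        ({p : ℝ × ℝ | p.2 ∈ recR k}.indicator (LineThmG k P Q₁ Q₂)) x
        ∂((volume.restrict (Ioo A B)).prod (volume.restrict (Ioo A B))) ≤
      ∫ x, {p : ℝ × ℝ | p.2 ∈ recR k}.indicator (LineThmG k P Q₁ Q₂) x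
        ∂((volume.restrict (Ioo A B)).prod (volume.restrict (Ioo A B))) := by
  have hG := LineThm_integrable hk (A := A) (B := B) hP hQ₁ hQ₂ hPM hQ₁M hQ₂M
  have hR : MeasurableSet (recR k) := (isClosed_recR hk.continuous).measurableSet
  have hL : MeasurableSet (recL k) := (isClosed_recL hk.continuous).measurableSet
  have hG2 := hG.indicator (hR.preimage measurable_snd)
  have hG3 := hG2.indicator (hL.preimage measurable_fst)
  rw [← sub_nonneg]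
  have e0 := integral_sub' hG2 hG3
  refine le_of_le_of_eq ?_ e0
  rw [integral_prod_symm _ (hG2.sub hG3)]
  refine setIntegral_nonneg measurableSet_Ioo fun τ hτ => ?_
  by_cases hτR : τ ∈ recR k
  · have e1 : ∀ σ, (Prod.snd ⁻¹' recR k).indicator (LineThmG k P Q₁ Q₂) (σ, τ) -
        (Prod.fst ⁻¹' recL k).indicator
          ((Prod.snd ⁻¹' recR k).indicator (LineThmG k P Q₁ Q₂)) (σ, τ) =
        (Iio τ \ recL k).indicator
          (fun σ => P σ τ + Q₁ σ τ * deriv k τ - Q₂ σ τ * deriv k σ) σ := by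
      intro σ
      by_cases h1 : σ ∈ recL k
      · rw [indicator_of_mem (show (σ, τ) ∈ (Prod.fst ⁻¹' recL k : Set (ℝ × ℝ)) from h1),
          indicator_of_notMem (s := Iio τ \ recL k) (fun h => h.2 h1), sub_self]
      · rw [indicator_of_notMem (show (σ, τ) ∉ (Prod.fst ⁻¹' recL k : Set (ℝ × ℝ)) from h1),
          sub_zero,
          indicator_of_mem (show (σ, τ) ∈ (Prod.snd ⁻¹' recR k : Set (ℝ × ℝ)) from hτR)]
        by_cases h2 : σ < τ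
        · rw [indicator_of_mem (show σ ∈ Iio τ \ recL k from ⟨h2, h1⟩)]
          exact indicator_of_mem (s := {p : ℝ × ℝ | p.1 < p.2}) (a := (σ, τ)) h2 _
        · rw [indicator_of_notMem (s := Iio τ \ recL k) (fun h => h2 h.1)]
          exact indicator_of_notMem (s := {p : ℝ × ℝ | p.1 < p.2}) (a := (σ, τ)) h2 _
    simp_rw [Pi.sub_apply, e1]
    rw [setIntegral_indicator (measurableSet_Iio.diff hL)]
    have e2 : Ioo A B ∩ (Iio τ \ recL k) = Ioo A τ \ recL k := by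
      ext t
      simp only [mem_inter_iff, mem_Ioo, mem_sdiff, mem_Iio]
      constructor
      · rintro ⟨⟨h1, _⟩, h3, h4⟩; exact ⟨⟨h1, h3⟩, h4⟩
      · rintro ⟨⟨h1, h2⟩, h3⟩; exact ⟨⟨h1, h2.trans hτ.2⟩, h2, h3⟩
    rw [e2]
    exact LineThm_step2 hk hA hP hQ₁ hQ₂ hPM hQ₁M hQ₂M hQ₂m c1b hτ hτR
  · have e1 : ∀ σ, (Prod.snd ⁻¹' recR k).indicator (LineThmG k P Q₁ Q₂) (σ, τ) -
        (Prod.fst ⁻¹' recL k).indicator
          ((Prod.snd ⁻¹' recR k).indicator (LineThmG k P Q₁ Q₂)) (σ, τ) = 0 := by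
      intro σ
      have h0 : (Prod.snd ⁻¹' recR k).indicator (LineThmG k P Q₁ Q₂) (σ, τ) = 0 :=
        indicator_of_notMem (show (σ, τ) ∉ (Prod.snd ⁻¹' recR k : Set (ℝ × ℝ)) from hτR) _
      by_cases h1 : σ ∈ recL k
      · rw [indicator_of_mem (show (σ, τ) ∈ (Prod.fst ⁻¹' recL k : Set (ℝ × ℝ)) from h1),
          sub_self]
      · rw [indicator_of_notMem (show (σ, τ) ∉ (Prod.fst ⁻¹' recL k : Set (ℝ × ℝ)) from h1),
          h0, sub_zero]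
    simp_rw [Pi.sub_apply, e1]
    simp

/-- Lower bound of a product integral. -/
theorem LineThm_prodint {ν : Measure ℝ} [IsFiniteMeasure ν] {a b f₁ f₂ : ℝ → ℝ}
    (ha : Integrable a ν) (hb : Integrable b ν) (hfa : Integrable (fun t => f₁ t * a t) ν)
    (hfb : Integrable (fun t => f₂ t * b t) ν) (w : ℝ) :
    Integrable (fun x : ℝ × ℝ => w * (a x.1 * b x.2) - ((f₁ x.1 * a x.1) * b x.2) / 2 -
      (a x.1 * (f₂ x.2 * b x.2)) / 2) (ν.prod ν) ∧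
    ∫ x : ℝ × ℝ, (w * (a x.1 * b x.2) - ((f₁ x.1 * a x.1) * b x.2) / 2 -
      (a x.1 * (f₂ x.2 * b x.2)) / 2) ∂(ν.prod ν) =
      w * ((∫ t, a t ∂ν) * ∫ t, b t ∂ν) - ((∫ t, f₁ t * a t ∂ν) * ∫ t, b t ∂ν) / 2 -
        ((∫ t, a t ∂ν) * ∫ t, f₂ t * b t ∂ν) / 2 := by
  have i1 : Integrable (fun x : ℝ × ℝ => w * (a x.1 * b x.2)) (ν.prod ν) :=
    (ha.mul_prod hb).const_mul w
  have i2 : Integrable (fun x : ℝ × ℝ => ((f₁ x.1 * a x.1) * b x.2) / 2) (ν.prod ν) :=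
    (hfa.mul_prod hb).div_const 2
  have i3 : Integrable (fun x : ℝ × ℝ => (a x.1 * (f₂ x.2 * b x.2)) / 2) (ν.prod ν) :=
    (ha.mul_prod hfb).div_const 2
  refine ⟨(i1.sub i2).sub i3, ?_⟩
  have i12 : Integrable (fun x : ℝ × ℝ => w * (a x.1 * b x.2) -
      ((f₁ x.1 * a x.1) * b x.2) / 2) (ν.prod ν) := i1.sub i2
  rw [integral_sub i12 i3, integral_sub i1 i2, integral_const_mul, integral_div, integral_div,
    integral_prod_mul, integral_prod_mul (fun t => f₁ t * a t),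
    integral_prod_mul a (fun t => f₂ t * b t)]

/-- The central estimate. -/
theorem LineThm_core {k : ℝ → ℝ} (hk : ContDiff ℝ 1 k) (h01 : ∀ t, 0 ≤ k t ∧ k t ≤ 1) {A B : ℝ}
    (hAB : A ≤ B) (hA : ∀ t, t ≤ A → k t = 0) (hB : ∀ t, B ≤ t → k t = 0)
    {P Q₁ Q₂ : ℝ → ℝ → ℝ} (hP : Measurable (Function.uncurry P))
    (hQ₁ : Measurable (Function.uncurry Q₁)) (hQ₂ : Measurable (Function.uncurry Q₂)) {M : ℝ}
    (hPM : ∀ σ τ, A < σ → σ < τ → τ < B → 0 ≤ P σ τ ∧ P σ τ ≤ M)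
    (hQ₁M : ∀ σ τ, A < σ → σ < τ → τ < B → 0 ≤ Q₁ σ τ ∧ Q₁ σ τ ≤ M)
    (hQ₂M : ∀ σ τ, A < σ → σ < τ → τ < B → 0 ≤ Q₂ σ τ ∧ Q₂ σ τ ≤ M)
    (hQ₁m : ∀ σ ∈ Ioo A B, MonotoneOn (Q₁ σ) (Ioo σ B))
    (hQ₂m : ∀ τ ∈ Ioo A B, AntitoneOn (fun σ => Q₂ σ τ) (Ioo A τ))
    (c1a : ∀ σ τ, A < σ → σ < τ → τ < B → 0 < deriv k σ → Q₂ σ τ * deriv k σ ≤ P σ τ)
    (c1b : ∀ σ τ, A < σ → σ < τ → τ < B → deriv k τ < 0 → Q₁ σ τ * -deriv k τ ≤ P σ τ)
    {s c : ℝ} (hs : 0 ≤ s) {f₁ f₂ : ℝ → ℝ}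
    (hf₁ : Measurable f₁) (hf₂ : Measurable f₂) (hf₁c : ∀ t, 0 ≤ f₁ t ∧ f₁ t ≤ c)
    (hf₂c : ∀ t, 0 ≤ f₂ t ∧ f₂ t ≤ c)
    (c6 : ∀ σ τ, A < σ → σ < τ → τ < B → 0 ≤ deriv k σ → deriv k τ ≤ 0 →
      deriv k σ * -deriv k τ * (s * (τ - σ) - (f₁ σ + f₂ τ) / 2) ≤
        P σ τ + Q₁ σ τ * deriv k τ - Q₂ σ τ * deriv k σ) :
    s * volume.real {t | k t = 1} ≤
      (∫ x, LineThmG k P Q₁ Q₂ x
        ∂((volume.restrict (Ioo A B)).prod (volume.restrict (Ioo A B)))) +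
        ((∫ t in Ioo A B, f₁ t * max 0 (deriv k t)) / 2 +
          (∫ t in Ioo A B, f₂ t * max 0 (-deriv k t)) / 2) := by
  have hκc : Continuous (deriv k) := hk.continuous_deriv le_rfl
  have hR : MeasurableSet (recR k) := (isClosed_recR hk.continuous).measurableSet
  have hL : MeasurableSet (recL k) := (isClosed_recL hk.continuous).measurableSet
  have hG := LineThm_integrable hk (A := A) (B := B) hP hQ₁ hQ₂ hPM hQ₁M hQ₂M
  have hG2 := hG.indicator (hR.preimage measurable_snd)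
  have hG3 := hG2.indicator (hL.preimage measurable_fst)
  have s1 := LineThm_cut_right hk hB hP hQ₁ hQ₂ hPM hQ₁M hQ₂M hQ₁m c1a c1b
  have s2 := LineThm_cut_left hk hA hP hQ₁ hQ₂ hPM hQ₁M hQ₂M hQ₂m c1b
  set a : ℝ → ℝ := (recL k).indicator (deriv k) with ha
  set b : ℝ → ℝ := (recR k).indicator (fun t => -deriv k t) with hb
  set D : ℝ := volume.real {t | k t = 1} with hD
  have hD0 : 0 ≤ D := measureReal_nonneg
  have ha0 : ∀ t, 0 ≤ a t := fun t => indicator_nonneg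
    (fun t ht => deriv_nonneg_of_recL hk ht) t
  have hb0 : ∀ t, 0 ≤ b t := fun t => indicator_nonneg
    (fun t ht => neg_nonneg.2 (deriv_nonpos_of_recR hk ht)) t
  have hamax : ∀ t, a t ≤ max 0 (deriv k t) := fun t => by
    by_cases h : t ∈ recL k
    · rw [ha, indicator_of_mem h]; exact le_max_right _ _
    · rw [ha, indicator_of_notMem h]; exact le_max_left _ _
  have hbmax : ∀ t, b t ≤ max 0 (-deriv k t) := fun t => by
    by_cases h : t ∈ recR k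
    · rw [hb, indicator_of_mem h]; exact le_max_right _ _
    · rw [hb, indicator_of_notMem h]; exact le_max_left _ _
  have iκ : IntegrableOn (deriv k) (Ioo A B) :=
    (hκc.continuousOn.integrableOn_Icc (a := A) (b := B)).mono_set Ioo_subset_Icc_self
  have ia : Integrable a (volume.restrict (Ioo A B)) := iκ.indicator hL
  have ib : Integrable b (volume.restrict (Ioo A B)) := iκ.neg.indicator hR
  have bdd : ∀ {f h : ℝ → ℝ}, Measurable f → (∀ t, 0 ≤ f t ∧ f t ≤ c) →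
      Integrable h (volume.restrict (Ioo A B)) →
      Integrable (fun t => f t * h t) (volume.restrict (Ioo A B)) := by
    intro f h hf hfc hh
    refine Integrable.bdd_mul (c := c) hh hf.aestronglyMeasurable ?_
    refine Filter.Eventually.of_forall fun t => ?_
    rw [Real.norm_eq_abs, abs_of_nonneg (hfc t).1]
    exact (hfc t).2
  have ifa := bdd hf₁ hf₁c ia
  have ifb := bdd hf₂ hf₂c ib
  obtain ⟨iH, eH⟩ := LineThm_prodint ia ib ifa ifb (s * D)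
  -- pointwise bound
  have s3 : ∫ x : ℝ × ℝ, (s * D * (a x.1 * b x.2) - ((f₁ x.1 * a x.1) * b x.2) / 2 -
      (a x.1 * (f₂ x.2 * b x.2)) / 2)
        ∂((volume.restrict (Ioo A B)).prod (volume.restrict (Ioo A B))) ≤
      ∫ x, {p : ℝ × ℝ | p.1 ∈ recL k}.indicator
        ({p : ℝ × ℝ | p.2 ∈ recR k}.indicator (LineThmG k P Q₁ Q₂)) x
        ∂((volume.restrict (Ioo A B)).prod (volume.restrict (Ioo A B))) := by
    refine integral_mono_ae iH hG3 ?_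
    refine LineThm_mem _ ?_
    rintro ⟨σ, τ⟩ h1 h2 h3 h4
    simp only at h1 h2 h3 h4 ⊢
    by_cases hσ : σ ∈ recL k
    swap
    · rw [indicator_of_notMem (show (σ, τ) ∉ {p : ℝ × ℝ | p.1 ∈ recL k} from hσ)]
      rw [show a σ = 0 from indicator_of_notMem hσ _]
      simp
    rw [indicator_of_mem (show (σ, τ) ∈ {p : ℝ × ℝ | p.1 ∈ recL k} from hσ)]
    by_cases hτ : τ ∈ recR k
    swap
    · rw [indicator_of_notMem (show (σ, τ) ∉ {p : ℝ × ℝ | p.2 ∈ recR k} from hτ)]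
      rw [show b τ = 0 from indicator_of_notMem hτ _]
      simp
    rw [indicator_of_mem (show (σ, τ) ∈ {p : ℝ × ℝ | p.2 ∈ recR k} from hτ)]
    have eaσ : a σ = deriv k σ := indicator_of_mem hσ _
    have ebτ : b τ = -deriv k τ := indicator_of_mem hτ _
    by_cases hστ : σ < τ
    · rw [show LineThmG k P Q₁ Q₂ (σ, τ) =
          P σ τ + Q₁ σ τ * deriv k τ - Q₂ σ τ * deriv k σ from
          indicator_of_mem (s := {p : ℝ × ℝ | p.1 < p.2}) (a := (σ, τ)) hστ _]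
      have k1 := c6 σ τ h1 hστ h4 (deriv_nonneg_of_recL hk hσ) (deriv_nonpos_of_recR hk hτ)
      have k1' : a σ * b τ * (s * (τ - σ) - (f₁ σ + f₂ τ) / 2) ≤
          P σ τ + Q₁ σ τ * deriv k τ - Q₂ σ τ * deriv k σ := by
        rw [eaσ, ebτ]; exact k1
      refine le_trans ?_ k1'
      have k2 : a σ * b τ * D ≤ a σ * b τ * (τ - σ) := by
        by_cases ha' : deriv k σ = 0
        · rw [eaσ, ha']; simp
        by_cases hb' : deriv k τ = 0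
        · rw [ebτ, hb']; simp
        exact mul_le_mul_of_nonneg_left (LineThm_width h01 hσ ha' hτ hb' hστ)
          (mul_nonneg (ha0 _) (hb0 _))
      have k3 := mul_le_mul_of_nonneg_left k2 hs
      linarith
    · rw [show LineThmG k P Q₁ Q₂ (σ, τ) = 0 from
          indicator_of_notMem (s := {p : ℝ × ℝ | p.1 < p.2}) (a := (σ, τ)) hστ _]
      have k2 : a σ = 0 ∨ b τ = 0 := by
        by_contra hn
        push Not at hn
        obtain ⟨t, ht⟩ := LineThm_exists_max hk.continuous h01 hAB hA hB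
        have q1 := LineThm_sep_left hσ (by rw [← eaσ]; exact hn.1) ht
        have q2 := LineThm_sep_right hτ (by
          intro h0
          apply hn.2
          rw [ebτ, h0, neg_zero]) ht
        exact hστ (q1.trans q2)
      rcases k2 with h | h
      · rw [h]; simp
      · rw [h]; simp
  -- the masses
  set μ₁ := ∫ t in Ioo A B, a t with hμ₁
  set μ₂ := ∫ t in Ioo A B, b t with hμ₂
  have eμ₁ : μ₁ = ∫ t in Ioo A B ∩ recL k, deriv k t := setIntegral_indicator hL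
  have eμ₂ : μ₂ = ∫ t in Ioo A B ∩ recR k, -deriv k t := setIntegral_indicator hR
  have hμ₁0 : 0 ≤ μ₁ := setIntegral_nonneg measurableSet_Ioo fun t _ => ha0 t
  have hμ₂0 : 0 ≤ μ₂ := setIntegral_nonneg measurableSet_Ioo fun t _ => hb0 t
  have hμ₁1 : μ₁ ≤ 1 := by rw [eμ₁]; exact recL_upper hk h01 A B
  have hμ₂1 : μ₂ ≤ 1 := by rw [eμ₂]; exact recR_upper hk h01 A B
  have hDle : D ≤ μ₁ * μ₂ * D := by
    rcases {t | k t = 1}.eq_empty_or_nonempty with he | ⟨t, ht⟩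
    · have : D = 0 := by rw [hD, he]; simp
      rw [this, mul_zero]
    · have ht' : k t = 1 := ht
      have htA : A < t := by
        by_contra h
        rw [hA t (not_lt.1 h)] at ht'
        norm_num at ht'
      have htB : t < B := by
        by_contra h
        rw [hB t (not_lt.1 h)] at ht'
        norm_num at ht'
      have g1 : 1 ≤ μ₁ := by
        rw [eμ₁, ← ht']
        refine (recL_lower hk hA htA.le).trans ?_
        refine setIntegral_mono_set (iκ.mono_set inter_subset_left) ?_ ?_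
        · filter_upwards [ae_restrict_mem (measurableSet_Ioo.inter hL)] with u hu
            using deriv_nonneg_of_recL hk hu.2
        · exact (inter_subset_inter_left _ (Ioo_subset_Ioo_right htB.le)).eventuallyLE
      have g2 : 1 ≤ μ₂ := by
        rw [eμ₂, ← ht']
        refine (recR_lower hk hB htB.le).trans ?_
        refine setIntegral_mono_set (iκ.neg.mono_set inter_subset_left) ?_ ?_
        · filter_upwards [ae_restrict_mem (measurableSet_Ioo.inter hR)] with u hu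
            using neg_nonneg.2 (deriv_nonpos_of_recR hk hu.2)
        · exact (inter_subset_inter_left _ (Ioo_subset_Ioo_left htA.le)).eventuallyLE
      have : 1 ≤ μ₁ * μ₂ := one_le_mul_of_one_le_of_one_le g1 g2
      exact le_mul_of_one_le_left hD0 this
  have imax : Integrable (fun t => max 0 (deriv k t)) (volume.restrict (Ioo A B)) :=
    ((continuous_const.max hκc).continuousOn.integrableOn_Icc (a := A) (b := B)).mono_set
      Ioo_subset_Icc_self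
  have imax' : Integrable (fun t => max 0 (-deriv k t)) (volume.restrict (Ioo A B)) :=
    ((continuous_const.max hκc.neg).continuousOn.integrableOn_Icc (a := A) (b := B)).mono_set
      Ioo_subset_Icc_self
  have hF₁ : ∫ t in Ioo A B, f₁ t * a t ≤ ∫ t in Ioo A B, f₁ t * max 0 (deriv k t) :=
    integral_mono ifa (bdd hf₁ hf₁c imax) fun t =>
      mul_le_mul_of_nonneg_left (hamax t) (hf₁c t).1
  have hF₂ : ∫ t in Ioo A B, f₂ t * b t ≤ ∫ t in Ioo A B, f₂ t * max 0 (-deriv k t) :=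
    integral_mono ifb (bdd hf₂ hf₂c imax') fun t =>
      mul_le_mul_of_nonneg_left (hbmax t) (hf₂c t).1
  have hF₁0 : 0 ≤ ∫ t in Ioo A B, f₁ t * a t :=
    setIntegral_nonneg measurableSet_Ioo fun t _ => mul_nonneg (hf₁c t).1 (ha0 t)
  have hF₂0 : 0 ≤ ∫ t in Ioo A B, f₂ t * b t :=
    setIntegral_nonneg measurableSet_Ioo fun t _ => mul_nonneg (hf₂c t).1 (hb0 t)
  have l1 : (∫ t in Ioo A B, f₁ t * a t) * μ₂ ≤ ∫ t in Ioo A B, f₁ t * a t :=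
    mul_le_of_le_one_right hF₁0 hμ₂1
  have l2 : μ₁ * (∫ t in Ioo A B, f₂ t * b t) ≤ ∫ t in Ioo A B, f₂ t * b t :=
    mul_le_of_le_one_left hF₂0 hμ₁1
  have l3 : s * D ≤ s * (μ₁ * μ₂ * D) := mul_le_mul_of_nonneg_left hDle hs
  have l4 := (s3.trans s2).trans s1
  rw [eH] at l4
  have l5 : s * D * (μ₁ * μ₂) = s * (μ₁ * μ₂ * D) := by ring
  linarith

theorem LineThm_set {A B σ : ℝ} (hσ : A < σ) : Ioo A B ∩ Ioi σ = Ioo σ B := by
  ext t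
  simp only [mem_inter_iff, mem_Ioo, mem_Ioi]
  constructor
  · rintro ⟨⟨_, h2⟩, h3⟩; exact ⟨h3, h2⟩
  · rintro ⟨h1, h2⟩; exact ⟨⟨hσ.trans h1, h2⟩, h1⟩

theorem LineThm_apply (k : ℝ → ℝ) (P Q₁ Q₂ : ℝ → ℝ → ℝ) (σ τ : ℝ) :
    LineThmG k P Q₁ Q₂ (σ, τ) = (Ioi σ).indicator
      (fun τ => P σ τ + Q₁ σ τ * deriv k τ - Q₂ σ τ * deriv k σ) τ := by
  by_cases h : σ < τ
  · rw [indicator_of_mem (show τ ∈ Ioi σ from h)]
    exact indicator_of_mem (s := {p : ℝ × ℝ | p.1 < p.2}) (a := (σ, τ)) h _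
  · rw [indicator_of_notMem (show τ ∉ Ioi σ from h)]
    exact indicator_of_notMem (s := {p : ℝ × ℝ | p.1 < p.2}) (a := (σ, τ)) h _

theorem LineThm_lint (k : ℝ → ℝ) {A B : ℝ} (P Q₁ Q₂ : ℝ → ℝ → ℝ) {F : ℝ → ℝ → ℝ≥0∞}
    {φ : ℝ → ℝ≥0∞} (hφ : φ 0 = 0) (hφm : Measurable φ)
    (hm : Measurable (LineThmG k P Q₁ Q₂))
    (hF : ∀ σ τ, A < σ → σ < τ → τ < B →
      F σ τ = φ (P σ τ + Q₁ σ τ * deriv k τ - Q₂ σ τ * deriv k σ)) :
    ∫⁻ σ in Ioo A B, ∫⁻ τ in Ioo σ B, F σ τ =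
      ∫⁻ x, φ (LineThmG k P Q₁ Q₂ x)
        ∂((volume.restrict (Ioo A B)).prod (volume.restrict (Ioo A B))) := by
  rw [lintegral_prod (fun x => φ (LineThmG k P Q₁ Q₂ x)) (hφm.comp hm).aemeasurable]
  refine setLIntegral_congr_fun measurableSet_Ioo fun σ hσ => ?_
  have e1 : ∀ τ, φ (LineThmG k P Q₁ Q₂ (σ, τ)) = (Ioi σ).indicator
      (fun τ => φ (P σ τ + Q₁ σ τ * deriv k τ - Q₂ σ τ * deriv k σ)) τ := by
    intro τ
    rw [LineThm_apply]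
    by_cases h : τ ∈ Ioi σ
    · rw [indicator_of_mem h, indicator_of_mem h]
    · rw [indicator_of_notMem h, indicator_of_notMem h, hφ]
  simp_rw [e1]
  rw [setLIntegral_indicator measurableSet_Ioi, inter_comm, LineThm_set hσ.1]
  exact setLIntegral_congr_fun measurableSet_Ioo fun τ hτ => hF σ τ hσ.1 hτ.1 hτ.2

/-- Bochner form. PROOF. For fixed `σ`: if `k'(σ) > 0` then
`∫_{τ>σ} g = ∫ (P - Q₂ k'(σ)) + ∫ Q₁ k'(τ)`; the first integrand is `≥ 0` (`c1a`), restrict it to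
`recR k`; for the second use `recR_weight`. If `k'(σ) ≤ 0` then `g ≥ 0` (`c1b` if `k'(τ) < 0`, else
all terms are `≥ 0`). So `∫_{τ>σ} g ≥ ∫_{τ>σ, τ ∈ recR} g` for every `σ`. By Fubini, and the mirror
argument for fixed `τ ∈ recR k` (`k'(τ) ≤ 0`), `∫∫ g ≥ ∫∫_{σ ∈ recL, τ ∈ recR, σ<τ} g`. There `c6`
applies. If `k'(σ) > 0`, `σ ∈ recL`, `k'(τ) < 0`, `τ ∈ recR` then `σ < t* < τ` for every maximum
point `t*` of `k`, so the condition `σ < τ` may be dropped; `∫_{recL} k' ≤ 1`, `∫_{recR} (-k') ≤ 1`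
(and `= 1` if `{k = 1}` is nonempty; then `τ - σ ≥ |{k = 1}|`). -/
theorem line_thm_real {k : ℝ → ℝ} (hk : ContDiff ℝ 1 k) (h01 : ∀ t, 0 ≤ k t ∧ k t ≤ 1) {A B : ℝ}
    (hAB : A ≤ B) (hA : ∀ t, t ≤ A → k t = 0) (hB : ∀ t, B ≤ t → k t = 0)
    {P Q₁ Q₂ : ℝ → ℝ → ℝ} (hP : Measurable (Function.uncurry P))
    (hQ₁ : Measurable (Function.uncurry Q₁)) (hQ₂ : Measurable (Function.uncurry Q₂)) {M : ℝ}
    (hPM : ∀ σ τ, A < σ → σ < τ → τ < B → 0 ≤ P σ τ ∧ P σ τ ≤ M)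
    (hQ₁M : ∀ σ τ, A < σ → σ < τ → τ < B → 0 ≤ Q₁ σ τ ∧ Q₁ σ τ ≤ M)
    (hQ₂M : ∀ σ τ, A < σ → σ < τ → τ < B → 0 ≤ Q₂ σ τ ∧ Q₂ σ τ ≤ M)
    (hQ₁m : ∀ σ ∈ Ioo A B, MonotoneOn (Q₁ σ) (Ioo σ B))
    (hQ₂m : ∀ τ ∈ Ioo A B, AntitoneOn (fun σ => Q₂ σ τ) (Ioo A τ))
    (c1a : ∀ σ τ, A < σ → σ < τ → τ < B → 0 < deriv k σ → Q₂ σ τ * deriv k σ ≤ P σ τ)
    (c1b : ∀ σ τ, A < σ → σ < τ → τ < B → deriv k τ < 0 → Q₁ σ τ * -deriv k τ ≤ P σ τ)
    {s c : ℝ} (hs : 0 ≤ s) {f₁ f₂ : ℝ → ℝ}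
    (hf₁ : Measurable f₁) (hf₂ : Measurable f₂) (hf₁c : ∀ t, 0 ≤ f₁ t ∧ f₁ t ≤ c)
    (hf₂c : ∀ t, 0 ≤ f₂ t ∧ f₂ t ≤ c)
    (c6 : ∀ σ τ, A < σ → σ < τ → τ < B → 0 ≤ deriv k σ → deriv k τ ≤ 0 →
      deriv k σ * -deriv k τ * (s * (τ - σ) - (f₁ σ + f₂ τ) / 2) ≤
        P σ τ + Q₁ σ τ * deriv k τ - Q₂ σ τ * deriv k σ) :
    s * volume.real {t | k t = 1} ≤
      (∫ σ in Ioo A B, ∫ τ in Ioo σ B, (P σ τ + Q₁ σ τ * deriv k τ - Q₂ σ τ * deriv k σ)) +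
        ((∫ t in Ioo A B, f₁ t * max 0 (deriv k t)) / 2 +
          (∫ t in Ioo A B, f₂ t * max 0 (-deriv k t)) / 2) := by
  have h := LineThm_core hk h01 hAB hA hB hP hQ₁ hQ₂ hPM hQ₁M hQ₂M hQ₁m hQ₂m c1a c1b hs hf₁ hf₂
    hf₁c hf₂c c6
  rw [integral_prod _ (LineThm_integrable hk (A := A) (B := B) hP hQ₁ hQ₂ hPM hQ₁M hQ₂M)] at h
  refine h.trans (le_of_eq ?_)
  congr 1
  refine setIntegral_congr_fun measurableSet_Ioo fun σ hσ => ?_
  simp_rw [LineThm_apply]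
  rw [setIntegral_indicator measurableSet_Ioi, LineThm_set hσ.1]

/-- Form with lower integrals. -/
theorem line_thm {k : ℝ → ℝ} (hk : ContDiff ℝ 1 k) (h01 : ∀ t, 0 ≤ k t ∧ k t ≤ 1) {A B : ℝ}
    (hAB : A ≤ B) (hA : ∀ t, t ≤ A → k t = 0) (hB : ∀ t, B ≤ t → k t = 0)
    {P Q₁ Q₂ : ℝ → ℝ → ℝ} (hP : Measurable (Function.uncurry P))
    (hQ₁ : Measurable (Function.uncurry Q₁)) (hQ₂ : Measurable (Function.uncurry Q₂)) {M : ℝ}
    (hPM : ∀ σ τ, A < σ → σ < τ → τ < B → 0 ≤ P σ τ ∧ P σ τ ≤ M)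
    (hQ₁M : ∀ σ τ, A < σ → σ < τ → τ < B → 0 ≤ Q₁ σ τ ∧ Q₁ σ τ ≤ M)
    (hQ₂M : ∀ σ τ, A < σ → σ < τ → τ < B → 0 ≤ Q₂ σ τ ∧ Q₂ σ τ ≤ M)
    (hQ₁m : ∀ σ ∈ Ioo A B, MonotoneOn (Q₁ σ) (Ioo σ B))
    (hQ₂m : ∀ τ ∈ Ioo A B, AntitoneOn (fun σ => Q₂ σ τ) (Ioo A τ))
    (c1a : ∀ σ τ, A < σ → σ < τ → τ < B → 0 < deriv k σ → Q₂ σ τ * deriv k σ ≤ P σ τ)
    (c1b : ∀ σ τ, A < σ → σ < τ → τ < B → deriv k τ < 0 → Q₁ σ τ * -deriv k τ ≤ P σ τ)
    {s c : ℝ} (hs : 0 ≤ s) {f₁ f₂ : ℝ → ℝ}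
    (hf₁ : Measurable f₁) (hf₂ : Measurable f₂) (hf₁c : ∀ t, 0 ≤ f₁ t ∧ f₁ t ≤ c)
    (hf₂c : ∀ t, 0 ≤ f₂ t ∧ f₂ t ≤ c)
    (c6 : ∀ σ τ, A < σ → σ < τ → τ < B → 0 ≤ deriv k σ → deriv k τ ≤ 0 →
      deriv k σ * -deriv k τ * (s * (τ - σ) - (f₁ σ + f₂ τ) / 2) ≤
        P σ τ + Q₁ σ τ * deriv k τ - Q₂ σ τ * deriv k σ) {g : ℝ → ℝ → ℝ}
    (hg : ∀ σ τ, A < σ → σ < τ → τ < B →
      g σ τ = P σ τ + Q₁ σ τ * deriv k τ - Q₂ σ τ * deriv k σ) :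
    ENNReal.ofReal (s * volume.real {t | k t = 1}) +
        (∫⁻ σ in Ioo A B, ∫⁻ τ in Ioo σ B, ENNReal.ofReal (-g σ τ)) ≤
      (∫⁻ σ in Ioo A B, ∫⁻ τ in Ioo σ B, ENNReal.ofReal (g σ τ)) +
        ENNReal.ofReal ((∫ t in Ioo A B, f₁ t * max 0 (deriv k t)) / 2 +
          (∫ t in Ioo A B, f₂ t * max 0 (-deriv k t)) / 2) := by
  have h := LineThm_core hk h01 hAB hA hB hP hQ₁ hQ₂ hPM hQ₁M hQ₂M hQ₁m hQ₂m c1a c1b hs hf₁ hf₂
    hf₁c hf₂c c6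
  have hG := LineThm_integrable hk (A := A) (B := B) hP hQ₁ hQ₂ hPM hQ₁M hQ₂M
  have hm := LineThm_measurable hk hP hQ₁ hQ₂
  have e1 := LineThm_lint k (A := A) (B := B) P Q₁ Q₂ (F := fun σ τ => ENNReal.ofReal (g σ τ))
    (φ := ENNReal.ofReal) ENNReal.ofReal_zero ENNReal.measurable_ofReal hm
    (fun σ τ h1 h2 h3 => by rw [hg σ τ h1 h2 h3])
  have e2 := LineThm_lint k (A := A) (B := B) P Q₁ Q₂ (F := fun σ τ => ENNReal.ofReal (-g σ τ))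
    (φ := fun x => ENNReal.ofReal (-x)) (by simp) (ENNReal.measurable_ofReal.comp measurable_neg) hm
    (fun σ τ h1 h2 h3 => by rw [hg σ τ h1 h2 h3])
  rw [e1, e2]
  rw [integral_eq_lintegral_pos_part_sub_lintegral_neg_part hG] at h
  set p := ∫⁻ x, ENNReal.ofReal (LineThmG k P Q₁ Q₂ x)
    ∂((volume.restrict (Ioo A B)).prod (volume.restrict (Ioo A B))) with hp
  set q := ∫⁻ x, ENNReal.ofReal (-LineThmG k P Q₁ Q₂ x)
    ∂((volume.restrict (Ioo A B)).prod (volume.restrict (Ioo A B))) with hq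
  have hpt : p ≠ ⊤ := hG.lintegral_lt_top.ne
  have hqt : q ≠ ⊤ := hG.neg.lintegral_lt_top.ne
  have hF0 : 0 ≤ (∫ t in Ioo A B, f₁ t * max 0 (deriv k t)) / 2 +
          (∫ t in Ioo A B, f₂ t * max 0 (-deriv k t)) / 2 := by
    refine add_nonneg (div_nonneg ?_ zero_le_two) (div_nonneg ?_ zero_le_two)
    · exact setIntegral_nonneg measurableSet_Ioo fun t _ =>
        mul_nonneg (hf₁c t).1 (le_max_left _ _)
    · exact setIntegral_nonneg measurableSet_Ioo fun t _ =>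
        mul_nonneg (hf₂c t).1 (le_max_left _ _)
  have h' : s * volume.real {t | k t = 1} + q.toReal ≤ p.toReal +
      ((∫ t in Ioo A B, f₁ t * max 0 (deriv k t)) / 2 +
          (∫ t in Ioo A B, f₂ t * max 0 (-deriv k t)) / 2) := by linarith
  calc ENNReal.ofReal (s * volume.real {t | k t = 1}) + q
      = ENNReal.ofReal (s * volume.real {t | k t = 1} + q.toReal) := by
        rw [ENNReal.ofReal_add (mul_nonneg hs measureReal_nonneg) ENNReal.toReal_nonneg,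
          ENNReal.ofReal_toReal hqt]
    _ ≤ ENNReal.ofReal (p.toReal +
      ((∫ t in Ioo A B, f₁ t * max 0 (deriv k t)) / 2 +
          (∫ t in Ioo A B, f₂ t * max 0 (-deriv k t)) / 2)) := ENNReal.ofReal_le_ofReal h'
    _ = _ := by
        rw [ENNReal.ofReal_add ENNReal.toReal_nonneg hF0, ENNReal.ofReal_toReal hpt]

end Vale.Agent.P219.TPH
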