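import Vale.Agent.P219.TPH.KexReg
import Vale.Agent.P219.TP.Liou
import Vale.Agent.P219.TP.Polar
import Vale.Agent.P219.TP.PairGe

/-! # The pair integral in polar coordinates (task H14) -/

open MeasureTheory Set Metric
open scoped ENNReal ContDiff

namespace Vale.Agent.P219.TPH

open Vale.Agent.P219.TP

variable {n : ℕ} (G : Geo n)

/-- `∫⁻_x ∫⁻_u ∫⁻_{t>0}` of the (positive part of the) pair integrand. -/
noncomputable def lineL (κ : E n → E n → ℝ → ℝ → ℝ) (h : E n → ℝ) : ℝ≥0∞ :=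
  ∫⁻ x, ∫⁻ u : sphere (0 : E n) 1, ∫⁻ t in Ioi (0 : ℝ),
    ENNReal.ofReal (gkS G κ h x (u : E n) 0 t) ∂volume
      ∂((volume : Measure (E n)).toSphere) ∂G.vol

theorem gkS_neg (κ : E n → E n → ℝ → ℝ → ℝ) (h : E n → ℝ) (x u : E n) (σ τ : ℝ) :
    gkS G (fun p q a b => -κ p q a b) h x u σ τ = -gkS G κ h x u σ τ := by
  unfold gkS
  ring

/-- Measurability of the pair integrand. -/
theorem pairH_measurable {κ : E n → E n → ℝ → ℝ → ℝ}
    (hκm : Measurable fun z : E n × E n × ℝ × ℝ => κ z.1 z.2.1 z.2.2.1 z.2.2.2)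
    {h : E n → ℝ} (hh : ContDiff ℝ 1 h) :
    Measurable fun z : E n × E n => κ z.1 z.2 (G.ang h z.1 z.2) (G.ang h z.2 z.1) *
      (‖G.D h z.1‖ * ‖G.D h z.2‖) := by
  have hD := PairGe.continuous_D G hh
  have hk : Measurable fun z : E n × E n =>
      κ z.1 z.2 (G.ang h z.1 z.2) (G.ang h z.2 z.1) :=
    hκm.comp (measurable_fst.prodMk (measurable_snd.prodMk
      ((measurable_ang G hh).prodMk ((measurable_ang G hh).comp measurable_swap))))
  have hd : Measurable fun z : E n × E n => ‖G.D h z.1‖ * ‖G.D h z.2‖ :=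
    ((hD.comp continuous_fst).norm.mul (hD.comp continuous_snd).norm).measurable
  have hall := hk.mul hd
  exact hall

/-- The pair integrand in polar coordinates. -/
theorem pairH_gkS {κ : E n → E n → ℝ → ℝ → ℝ} {h : E n → ℝ} (x : E n) {u : E n} (hu : ‖u‖ = 1)
    {r : ℝ} (hr : 0 < r) :
    gkS G κ h x u 0 r = r ^ (n - 1) * (|(G.T x (r • u)).det| *
      (κ x (G.ex x (r • u)) (G.ang h x (G.ex x (r • u))) (G.ang h (G.ex x (r • u)) x) *
        (‖G.D h x‖ * ‖G.D h (G.ex x (r • u))‖))) := by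
  obtain ⟨-, a2, a3⟩ := ang_geod G h x hu hr
  have hx0 : G.ex x ((0 : ℝ) • u) = x := by rw [zero_smul, G.ex_zero]
  rw [hx0] at a2 a3
  unfold gkS jac
  rw [a2, a3, hx0, G.V_zero, sub_zero]
  ring

/-- PROOF: `lintegral_prod`, `lintegral_vol_ex`, `polar`; compare `TP.pair_ge`. -/
theorem lineL_eq (hn : 2 ≤ n) {κ : E n → E n → ℝ → ℝ → ℝ}
    (hκm : Measurable fun z : E n × E n × ℝ × ℝ => κ z.1 z.2.1 z.2.2.1 z.2.2.2)
    {h : E n → ℝ} (hh : ContDiff ℝ 1 h) :
    lineL G κ h = ∫⁻ z : E n × E n, ENNReal.ofReal (κ z.1 z.2 (G.ang h z.1 z.2) (G.ang h z.2 z.1) *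
      (‖G.D h z.1‖ * ‖G.D h z.2‖)) ∂(G.vol.prod G.vol) := by
  have hFm := pairH_measurable G hκm hh
  set F : E n × E n → ℝ := fun z => κ z.1 z.2 (G.ang h z.1 z.2) (G.ang h z.2 z.1) *
      (‖G.D h z.1‖ * ‖G.D h z.2‖) with hF
  rw [lintegral_prod (fun z => ENNReal.ofReal (F z))
    (ENNReal.measurable_ofReal.comp hFm).aemeasurable]
  unfold lineL
  refine lintegral_congr fun x => ?_
  have hFx : Measurable fun y => ENNReal.ofReal (F (x, y)) :=
    ENNReal.measurable_ofReal.comp (hFm.comp measurable_prodMk_left)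
  have hex : Measurable fun v : E n => G.ex x v :=
    ((PairGe.continuous_ex G).comp (Continuous.prodMk_right x)).measurable
  have hT : Continuous fun v : E n => G.T x v :=
    G.T_smooth.continuous.comp (Continuous.prodMk_right x)
  have hdet : Measurable fun v : E n => ENNReal.ofReal |(G.T x v).det| := by
    have h1 : Continuous fun v : E n => |(G.T x v).det| :=
      (ContinuousLinearMap.continuous_det.comp hT).abs
    exact ENNReal.measurable_ofReal.comp h1.measurable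
  rw [G.lintegral_vol_ex x hFx]
  have hprod : Measurable fun v : E n =>
      ENNReal.ofReal |(G.T x v).det| * ENNReal.ofReal (F (x, G.ex x v)) :=
    hdet.mul (hFx.comp hex)
  rw [polar (by omega) hprod]
  refine lintegral_congr fun u => ?_
  refine setLIntegral_congr_fun measurableSet_Ioi fun r hr => ?_
  have hr' : (0 : ℝ) < r := hr
  have hu : ‖(u : E n)‖ = 1 := by
    have := u.2
    rwa [mem_sphere_zero_iff_norm] at this
  simp only [hF]
  rw [pairH_gkS G x hu hr', ENNReal.ofReal_mul (by positivity), ENNReal.ofReal_mul (abs_nonneg _)]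

theorem pairX_eq (hn : 2 ≤ n) {κ : E n → E n → ℝ → ℝ → ℝ}
    (hκm : Measurable fun z : E n × E n × ℝ × ℝ => κ z.1 z.2.1 z.2.2.1 z.2.2.2)
    (hκb : ∀ K : Set (E n), IsCompact K → ∃ C : ℝ, 0 ≤ C ∧ ∀ p ∈ K, ∀ q ∈ K, ∀ a b : ℝ, |a| ≤ 1 →
      |b| ≤ 1 → |κ p q a b| ≤ C) {h : E n → ℝ} (hh : ContDiff ℝ 1 h) (hc : HasCompactSupport h) :
    lineL G κ h ≠ ⊤ ∧ lineL G (fun p q a b => -κ p q a b) h ≠ ⊤ ∧
      pairX G κ h = (lineL G κ h).toReal - (lineL G (fun p q a b => -κ p q a b) h).toReal := by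
  have hi := integrable_pairX G hκm hκb hh hc
  have e1 := lineL_eq G hn hκm hh
  have e2 := lineL_eq G hn (κ := fun p q a b => -κ p q a b) hκm.neg hh
  simp only [neg_mul] at e2
  have f1 : ∀ {f : E n × E n → ℝ}, Integrable f (G.vol.prod G.vol) →
      ∫⁻ z, ENNReal.ofReal (f z) ∂(G.vol.prod G.vol) ≠ ⊤ := by
    intro f hf
    refine ne_of_lt (lt_of_le_of_lt (lintegral_mono fun z => ?_) hf.2)
    rw [← ofReal_norm]
    exact ENNReal.ofReal_le_ofReal (Real.le_norm_self _)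
  refine ⟨?_, ?_, ?_⟩
  · rw [e1]
    exact f1 hi
  · rw [e2]
    exact f1 hi.neg
  · rw [e1, e2]
    unfold pairX
    exact integral_eq_lintegral_pos_part_sub_lintegral_neg_part hi

end Vale.Agent.P219.TPH
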