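import Vale.Agent.P219.TP.Scalar

/-! # Scalar expansion (task H4) -/

open Set

namespace Vale.Agent.P219.TPH

theorem scalarH_bounds {M t β : ℝ} (hM : 0 ≤ M) (ht : 0 ≤ t) (ht0 : t ≤ 1 / (4 * (M + 1)))
    (hβ : |β| ≤ M) :
    t ≤ 1 ∧ |t * β - M * t ^ 2| ≤ 1 / 2 ∧ (t * β - M * t ^ 2) ^ 2 ≤ 4 * M ^ 2 * t ^ 2 := by
  have hM1 : 0 < 4 * (M + 1) := by linarith
  have h1 : t * (4 * (M + 1)) ≤ 1 := by
    rw [le_div_iff₀ hM1] at ht0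
    exact ht0
  have htM0 : 0 ≤ t * M := mul_nonneg ht hM
  have htM : t * M ≤ 1 / 4 := by linarith
  have ht1 : t ≤ 1 := by linarith
  have h2 : M * t ^ 2 ≤ t * M := by
    calc M * t ^ 2 = (t * M) * t := by ring
      _ ≤ (t * M) * 1 := mul_le_mul_of_nonneg_left ht1 htM0
      _ = t * M := mul_one _
  have h20 : 0 ≤ M * t ^ 2 := by positivity
  have h3 : |t * β| ≤ t * M := by
    rw [abs_mul, abs_of_nonneg ht]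
    exact mul_le_mul_of_nonneg_left hβ ht
  have h4 : |t * β - M * t ^ 2| ≤ 2 * (t * M) := by
    calc |t * β - M * t ^ 2| ≤ |t * β| + |M * t ^ 2| := abs_sub _ _
      _ ≤ 2 * (t * M) := by rw [abs_of_nonneg h20]; linarith
  refine ⟨ht1, by linarith, ?_⟩
  have h5 := sq_le_sq' (abs_le.mp h4).1 (abs_le.mp h4).2
  calc (t * β - M * t ^ 2) ^ 2 ≤ (2 * (t * M)) ^ 2 := h5
    _ = 4 * M ^ 2 * t ^ 2 := by ring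

theorem scalarH_pow (j : ℕ) {M Ck : ℝ} (hM : 0 ≤ M) (hCk : 0 ≤ Ck)
    (hk : ∀ u : ℝ, |u| ≤ 1 / 2 → (1 - u) ^ j ≤ 1 - j * u + Ck * u ^ 2)
    {t β x : ℝ} (ht : 0 ≤ t) (ht0 : t ≤ 1 / (4 * (M + 1))) (hβ : |β| ≤ M)
    (hx0 : 0 ≤ x) (hx : x ≤ 1 - t * β + M * t ^ 2) :
    x ^ j ≤ 1 - j * (t * β) + (j * M + 4 * Ck * M ^ 2) * t ^ 2 := by
  obtain ⟨_, h1, h2⟩ := scalarH_bounds hM ht ht0 hβ
  have h3 := hk _ h1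
  have h4 : x ^ j ≤ (1 - (t * β - M * t ^ 2)) ^ j :=
    pow_le_pow_left₀ hx0 (by linarith) j
  have h5 := mul_le_mul_of_nonneg_left h2 hCk
  calc x ^ j ≤ 1 - j * (t * β - M * t ^ 2) + Ck * (t * β - M * t ^ 2) ^ 2 := h4.trans h3
    _ ≤ 1 - j * (t * β - M * t ^ 2) + Ck * (4 * M ^ 2 * t ^ 2) := by linarith
    _ = 1 - j * (t * β) + (j * M + 4 * Ck * M ^ 2) * t ^ 2 := by ring

theorem scalarH_sqrt {M : ℝ} (hM : 0 ≤ M) {t α β ζ c d x : ℝ} (ht : 0 ≤ t)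
    (ht0 : t ≤ 1 / (4 * (M + 1))) (hα : |α| ≤ M) (hβ : |β| ≤ M) (hζ0 : 0 ≤ ζ) (hζM : ζ ≤ M)
    (hc0 : 0 ≤ c) (hd0 : 0 ≤ d) (hcd : c ^ 2 = 1 - d ^ 2)
    (hx0 : 0 ≤ x) (hx : x ≤ 1 - t * β + M * t ^ 2) :
    √(x ^ 2 * d ^ 2 + ((1 - t * α) * c + d * (t * ζ)) ^ 2) ≤
      1 - t * (d ^ 2 * β + c ^ 2 * α - d * c * ζ) + (M + 4 * M ^ 2) * t ^ 2 := by
  obtain ⟨_, _, h2⟩ := scalarH_bounds hM ht ht0 hβ
  have hM2 : 0 ≤ M ^ 2 := sq_nonneg M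
  have ht2 : 0 ≤ t ^ 2 := sq_nonneg t
  have hd1 : d ^ 2 ≤ 1 := by linarith [sq_nonneg c]
  have hdc : d * c ≤ 1 := by nlinarith [sq_nonneg (d - c)]
  have hdc0 : 0 ≤ d * c := mul_nonneg hd0 hc0
  have hc1 : c ^ 2 ≤ 1 := by linarith [sq_nonneg d]
  have hα3 : α ^ 2 ≤ M ^ 2 := sq_le_sq' (abs_le.mp hα).1 (abs_le.mp hα).2
  have hζ3 : ζ ^ 2 ≤ M ^ 2 := pow_le_pow_left₀ hζ0 hζM 2
  -- the first square
  have hx2 : x ^ 2 ≤ 1 - 2 * (t * β) + (2 * M + 4 * M ^ 2) * t ^ 2 := by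
    have h3 : x ^ 2 ≤ (1 - t * β + M * t ^ 2) ^ 2 := pow_le_pow_left₀ hx0 hx 2
    have h4 : (1 - t * β + M * t ^ 2) ^ 2 =
        1 - 2 * (t * β) + 2 * M * t ^ 2 + (t * β - M * t ^ 2) ^ 2 := by ring
    rw [h4] at h3
    linarith
  have hxd : x ^ 2 * d ^ 2 ≤ (1 - 2 * (t * β)) * d ^ 2 + (2 * M + 4 * M ^ 2) * t ^ 2 := by
    have h3 := mul_le_mul_of_nonneg_right hx2 (sq_nonneg d)
    have h5 : (2 * M + 4 * M ^ 2) * t ^ 2 * d ^ 2 ≤ (2 * M + 4 * M ^ 2) * t ^ 2 * 1 :=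
      mul_le_mul_of_nonneg_left hd1 (by positivity)
    have h6 : (1 - 2 * (t * β) + (2 * M + 4 * M ^ 2) * t ^ 2) * d ^ 2 =
        (1 - 2 * (t * β)) * d ^ 2 + (2 * M + 4 * M ^ 2) * t ^ 2 * d ^ 2 := by ring
    rw [h6] at h3
    linarith
  -- the second square
  have e1 : t ^ 2 * (α ^ 2 * c ^ 2) ≤ t ^ 2 * M ^ 2 := by
    refine mul_le_mul_of_nonneg_left ?_ ht2
    calc α ^ 2 * c ^ 2 ≤ M ^ 2 * 1 := mul_le_mul hα3 hc1 (sq_nonneg c) hM2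
      _ = M ^ 2 := mul_one _
  have e2 : t ^ 2 * (d ^ 2 * ζ ^ 2) ≤ t ^ 2 * M ^ 2 := by
    refine mul_le_mul_of_nonneg_left ?_ ht2
    calc d ^ 2 * ζ ^ 2 ≤ 1 * M ^ 2 := mul_le_mul hd1 hζ3 (sq_nonneg ζ) zero_le_one
      _ = M ^ 2 := one_mul _
  have e3 : t ^ 2 * (-(2 * α * (d * c) * ζ)) ≤ t ^ 2 * (2 * M ^ 2) := by
    refine mul_le_mul_of_nonneg_left ?_ ht2
    have g1 : |α| * ζ ≤ M * M := mul_le_mul hα hζM hζ0 hM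
    have g3 : (|α| * ζ) * (d * c) ≤ (M * M) * 1 :=
      mul_le_mul g1 hdc hdc0 (mul_nonneg hM hM)
    have g4 : -α * (ζ * (d * c)) ≤ |α| * (ζ * (d * c)) :=
      mul_le_mul_of_nonneg_right (neg_le_abs α) (mul_nonneg hζ0 hdc0)
    have g5 : -(2 * α * (d * c) * ζ) = 2 * (-α * (ζ * (d * c))) := by ring
    have g6 : |α| * (ζ * (d * c)) = (|α| * ζ) * (d * c) := by ring
    rw [g5]
    rw [g6] at g4
    linarith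
  have hsq : ((1 - t * α) * c + d * (t * ζ)) ^ 2 = c ^ 2 - 2 * t * (c ^ 2 * α - d * c * ζ) +
      (t ^ 2 * (α ^ 2 * c ^ 2) + t ^ 2 * (d ^ 2 * ζ ^ 2) + t ^ 2 * (-(2 * α * (d * c) * ζ))) := by
    ring
  have hX0 : 0 ≤ x ^ 2 * d ^ 2 + ((1 - t * α) * c + d * (t * ζ)) ^ 2 := by positivity
  have hXle : x ^ 2 * d ^ 2 + ((1 - t * α) * c + d * (t * ζ)) ^ 2 ≤
      1 - 2 * t * (d ^ 2 * β + c ^ 2 * α - d * c * ζ) + (2 * M + 8 * M ^ 2) * t ^ 2 := by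
    rw [hsq]
    have h7 : (1 - 2 * (t * β)) * d ^ 2 + c ^ 2 = 1 - 2 * t * (d ^ 2 * β) := by
      rw [hcd]; ring
    linarith
  generalize x ^ 2 * d ^ 2 + ((1 - t * α) * c + d * (t * ζ)) ^ 2 = X at hXle hX0 ⊢
  have h1 := Real.sq_sqrt hX0
  have h8 : 0 ≤ (√X - 1) ^ 2 := sq_nonneg _
  have h9 : (√X - 1) ^ 2 = √X ^ 2 - 2 * √X + 1 := by ring
  rw [h9, h1] at h8
  linarith

theorem scalarH_prod {M K₁ K₂ A B t β D j : ℝ} (hM : 0 ≤ M) (hK₁ : 0 ≤ K₁) (hK₂ : 0 ≤ K₂)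
    (hj : 0 ≤ j) (ht : 0 ≤ t) (ht1 : t ≤ 1) (hβ : |β| ≤ M) (hD : |D| ≤ 2 * M)
    (hA0 : 0 ≤ A) (hB0 : 0 ≤ B) (hA : A ≤ 1 - j * (t * β) + K₁ * t ^ 2)
    (hB : B ≤ 1 - t * D + K₂ * t ^ 2) :
    A * B ≤ 1 - t * (j * β + D) +
      (K₁ + K₂ + 2 * j * M ^ 2 + j * M * K₂ + 2 * M * K₁ + K₁ * K₂) * t ^ 2 := by
  have ht2 : 0 ≤ t ^ 2 := sq_nonneg t
  have ht3 : t ^ 3 ≤ t ^ 2 := by
    calc t ^ 3 = t ^ 2 * t := by ring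
      _ ≤ t ^ 2 * 1 := mul_le_mul_of_nonneg_left ht1 ht2
      _ = t ^ 2 := mul_one _
  have ht30 : 0 ≤ t ^ 3 := pow_nonneg ht 3
  have ht4 : t ^ 4 ≤ t ^ 2 := by
    calc t ^ 4 = t ^ 3 * t := by ring
      _ ≤ t ^ 3 * 1 := mul_le_mul_of_nonneg_left ht1 ht30
      _ ≤ t ^ 2 := by linarith
  have h1 : A * B ≤ (1 - j * (t * β) + K₁ * t ^ 2) * (1 - t * D + K₂ * t ^ 2) :=
    mul_le_mul hA hB hB0 (hA0.trans hA)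
  have e1 : t ^ 2 * (j * (β * D)) ≤ t ^ 2 * (j * (2 * M ^ 2)) := by
    refine mul_le_mul_of_nonneg_left (mul_le_mul_of_nonneg_left ?_ hj) ht2
    calc β * D ≤ |β * D| := le_abs_self _
      _ = |β| * |D| := abs_mul _ _
      _ ≤ M * (2 * M) := mul_le_mul hβ hD (abs_nonneg _) hM
      _ = 2 * M ^ 2 := by ring
  have e2 : t ^ 3 * (j * (-β * K₂)) ≤ t ^ 2 * (j * (M * K₂)) := by
    have g1 : j * (-β * K₂) ≤ j * (M * K₂) :=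
      mul_le_mul_of_nonneg_left
        (mul_le_mul_of_nonneg_right ((neg_le_abs β).trans hβ) hK₂) hj
    calc t ^ 3 * (j * (-β * K₂)) ≤ t ^ 3 * (j * (M * K₂)) := mul_le_mul_of_nonneg_left g1 ht30
      _ ≤ t ^ 2 * (j * (M * K₂)) := mul_le_mul_of_nonneg_right ht3 (by positivity)
  have e3 : t ^ 3 * (-D * K₁) ≤ t ^ 2 * (2 * M * K₁) := by
    have g1 : -D * K₁ ≤ 2 * M * K₁ :=
      mul_le_mul_of_nonneg_right ((neg_le_abs D).trans hD) hK₁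
    calc t ^ 3 * (-D * K₁) ≤ t ^ 3 * (2 * M * K₁) := mul_le_mul_of_nonneg_left g1 ht30
      _ ≤ t ^ 2 * (2 * M * K₁) := mul_le_mul_of_nonneg_right ht3 (by positivity)
  have e4 : t ^ 4 * (K₁ * K₂) ≤ t ^ 2 * (K₁ * K₂) :=
    mul_le_mul_of_nonneg_right ht4 (by positivity)
  have hexp : (1 - j * (t * β) + K₁ * t ^ 2) * (1 - t * D + K₂ * t ^ 2) =
      1 - t * (j * β + D) + (K₁ + K₂) * t ^ 2 + t ^ 2 * (j * (β * D)) +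
        t ^ 3 * (j * (-β * K₂)) + t ^ 3 * (-D * K₁) + t ^ 4 * (K₁ * K₂) := by ring
  rw [hexp] at h1
  linarith

/-- PROOF: monotone in `x₁`, `x₂`, so replace them by the bounds (nonnegative for `t ≤ t₀`);
`√y ≤ (1+y)/2`; expand. Compare `Vale.Agent.P219.TP.scalar_exp`. -/
theorem scalar_exp_H (j : ℕ) {M : ℝ} (hM : 0 ≤ M) : ∃ C t₀ : ℝ, 0 ≤ C ∧ 0 < t₀ ∧
    ∀ t x₁ x₂ β₁ β₂ α' ζ b : ℝ, 0 ≤ t → t ≤ t₀ → |α'| ≤ M → |β₁| ≤ M → |β₂| ≤ M → 0 ≤ ζ → ζ ≤ M →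
      |b| ≤ 1 → 0 ≤ x₁ → 0 ≤ x₂ → x₁ ≤ 1 - t * β₁ + M * t ^ 2 → x₂ ≤ 1 - t * β₂ + M * t ^ 2 →
      x₁ ^ j * √(x₂ ^ 2 * b ^ 2 + ((1 - t * α') * √(1 - b ^ 2) + |b| * (t * ζ)) ^ 2) ≤
      1 - t * (j * β₁ + b ^ 2 * β₂ + (1 - b ^ 2) * α' - |b| * √(1 - b ^ 2) * ζ) + C * t ^ 2 := by
  obtain ⟨Ck, hCk, hk⟩ := TP.one_sub_pow_le j
  refine ⟨(j * M + 4 * Ck * M ^ 2) + (M + 4 * M ^ 2) + 2 * j * M ^ 2 + j * M * (M + 4 * M ^ 2) +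
    2 * M * (j * M + 4 * Ck * M ^ 2) + (j * M + 4 * Ck * M ^ 2) * (M + 4 * M ^ 2),
    1 / (4 * (M + 1)), by positivity, by positivity, ?_⟩
  intro t x₁ x₂ β₁ β₂ α ζ b ht ht0 hα hβ₁ hβ₂ hζ0 hζM hb hx₁ hx₂ hx₁' hx₂'
  have hb2 : b ^ 2 = |b| ^ 2 := (sq_abs b).symm
  have hc2 : √(1 - b ^ 2) ^ 2 = 1 - |b| ^ 2 := by
    rw [Real.sq_sqrt, hb2]
    nlinarith [abs_nonneg b]
  have hc0 : 0 ≤ √(1 - b ^ 2) := Real.sqrt_nonneg _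
  have hd0 : 0 ≤ |b| := abs_nonneg _
  generalize √(1 - b ^ 2) = c at hc2 hc0 ⊢
  rw [hb2]
  generalize |b| = d at hc2 hd0 hb ⊢
  have ht1 : t ≤ 1 := (scalarH_bounds hM ht ht0 hβ₁).1
  have hA := scalarH_pow j hM hCk hk ht ht0 hβ₁ hx₁ hx₁'
  have hB := scalarH_sqrt hM ht ht0 hα hβ₂ hζ0 hζM hc0 hd0 hc2 hx₂ hx₂'
  have hD := TP.scalar_D_bound hα hβ₂ hζ0 hζM hc0 hd0 hc2
  have hDe : (j : ℝ) * β₁ + d ^ 2 * β₂ + (1 - d ^ 2) * α - d * c * ζ =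
      j * β₁ + (d ^ 2 * β₂ + c ^ 2 * α - d * c * ζ) := by
    rw [hc2]; ring
  rw [hDe]
  exact scalarH_prod hM (by positivity) (by positivity) (Nat.cast_nonneg j) ht ht1 hβ₁ hD
    (pow_nonneg hx₁ j) (Real.sqrt_nonneg _) hA hB

end Vale.Agent.P219.TPH
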