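import Vale.Agent.P219.TPH.AreaH
import Vale.Agent.P219.TPH.ScalarH
import Vale.Agent.P219.TPH.DetExp
import Vale.Agent.P219.TPH.CutoffH
import Vale.Agent.P219.TP.PerContract

/-! # Total variation of a contracted function, exact kernel (task H7) -/

open MeasureTheory Set Metric
open scoped ENNReal ContDiff

namespace Vale.Agent.P219.TPH

open Vale.Agent.P219.TP

variable {n : ℕ} (G : Geo n) {k : ℝ}

theorem perH_alg (φ d1 d2 ct s rt r ra b m sa sb : ℝ) :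
    m * (φ * ct) + b ^ 2 * (φ * (ct + rt)) + (1 - b ^ 2) * (φ + (2 * r ^ 2 * d1 + ra * d2)) -
      |b| * sb * (s * (|d2| * sa)) =
    (φ + 2 * r ^ 2 * d1 + ra * d2) * (1 - b ^ 2) + ct * φ * ((m + 1) - 1 + b ^ 2) -
      s * |d2| * |b| * (sa * sb) + φ * b ^ 2 * rt := by
  ring

/-- The exponent of the scalar expansion is `kapE`. -/
theorem kapE_eq (hn : 2 ≤ n) {Φ : ℝ × ℝ → ℝ} {δ : ℝ} (hδ : 0 < δ)
    (hΦ : ContDiffOn ℝ ∞ Φ {p | -δ < p.1}) {ν p x : E n} (hν : ‖ν‖ = 1)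
    (hx : x ≠ p) (b : ℝ) :
    ((n - 2 : ℕ) : ℝ) * (th Φ 1 ν (G.lg p x) *
        (‖G.lg p x‖ * cs k ‖G.lg p x‖ / sn k ‖G.lg p x‖)) +
      b ^ 2 * (th Φ 1 ν (G.lg p x) *
        (‖G.lg p x‖ * cs k ‖G.lg p x‖ / sn k ‖G.lg p x‖ + rtau G k p (G.lg p x))) +
      (1 - b ^ 2) * (th Φ 1 ν (G.lg p x) + fderiv ℝ (th Φ 1 ν) (G.lg p x) (G.lg p x)) -
      |b| * √(1 - b ^ 2) * (‖G.lg p x‖ ^ 2 / sn k ‖G.lg p x‖ *
        (|fderiv ℝ Φ (‖G.lg p x‖ ^ 2, inner ℝ (G.lg p x) ν) (0, 1)| *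
          √(1 - (inner ℝ (G.lg p x) ν / ‖G.lg p x‖) ^ 2))) =
    kapE G k Φ ν p x b := by
  have hvne : G.lg p x ≠ 0 := by
    intro h0
    exact hx ((G.lg_eq_zero).mp h0).symm
  unfold kapE
  generalize rtau G k p (G.lg p x) = rt
  generalize G.lg p x = v at hvne
  have hvpos : 0 < ‖v‖ := norm_pos_iff.mpr hvne
  have hcast : ((n - 1 : ℕ) : ℝ) = ((n - 2 : ℕ) : ℝ) + 1 := by
    have : n - 1 = (n - 2) + 1 := by omega
    rw [this]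
    push_cast
    ring
  have hra : ‖v‖ * (inner ℝ v ν / ‖v‖) = inner ℝ v ν := by
    field_simp
  have ha1 : |inner ℝ v ν / ‖v‖| ≤ 1 := by
    have := perc_cos v ν
    rwa [hν, mul_one] at this
  have hsq : √((1 - (inner ℝ v ν / ‖v‖) ^ 2) * (1 - b ^ 2)) =
      √(1 - (inner ℝ v ν / ‖v‖) ^ 2) * √(1 - b ^ 2) := by
    refine Real.sqrt_mul ?_ _
    nlinarith [abs_le.mp ha1]
  obtain ⟨-, hrad, -⟩ := th_deriv hδ hΦ one_pos ν v
  rw [div_one, one_pow, div_one, div_one, inv_one, one_mul] at hrad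
  have hth : th Φ 1 ν v = Φ (‖v‖ ^ 2, inner ℝ v ν) := by
    rw [th, one_pow, div_one, div_one, inv_one, one_mul]
  rw [kapH, hsq, hrad, hth, hcast, hra]
  exact perH_alg _ _ _ _ _ _ _ _ _ _ _ _

theorem perH_sq_div_sn {k r : ℝ} (hk : 0 ≤ k) (hr : 0 < r) :
    0 ≤ r ^ 2 / sn k r ∧ r ^ 2 / sn k r ≤ r := by
  have h1 := sn_pos hk hr
  have h2 := le_sn hk hr.le
  refine ⟨by positivity, ?_⟩
  rw [div_le_iff₀ h1, sq]
  exact mul_le_mul_of_nonneg_left h2 hr.le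

/-- Bounds for all first order quantities. -/
theorem perH_bounds (hk : 0 ≤ k) (o : E n) (ρ : ℝ)
    {Φ : ℝ × ℝ → ℝ} {δ : ℝ}
    (hδ : 0 < δ) (hΦ : ContDiffOn ℝ ∞ Φ {p | -δ < p.1}) :
    ∃ M : ℝ, 0 ≤ M ∧ ∀ (p ν x : E n), ‖G.lg o p‖ ≤ ρ → ‖ν‖ = 1 → ‖G.lg o x‖ ≤ ρ → x ≠ p →
      |th Φ 1 ν (G.lg p x)| ≤ M ∧
      |th Φ 1 ν (G.lg p x) + fderiv ℝ (th Φ 1 ν) (G.lg p x) (G.lg p x)| ≤ M ∧
      |th Φ 1 ν (G.lg p x) * (‖G.lg p x‖ * cs k ‖G.lg p x‖ / sn k ‖G.lg p x‖)| ≤ M ∧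
      |th Φ 1 ν (G.lg p x) *
        (‖G.lg p x‖ * cs k ‖G.lg p x‖ / sn k ‖G.lg p x‖ + rtau G k p (G.lg p x))| ≤ M ∧
      ‖G.lg p x‖ ^ 2 / sn k ‖G.lg p x‖ *
        (|fderiv ℝ Φ (‖G.lg p x‖ ^ 2, inner ℝ (G.lg p x) ν) (0, 1)| *
          √(1 - (inner ℝ (G.lg p x) ν / ‖G.lg p x‖) ^ 2)) ≤ M := by
  obtain ⟨M, hM0, hM⟩ := th_bounds (n := n) (R₀ := 1) hδ hΦ 1 one_pos (2 * ρ)
  obtain ⟨C1, hC10, hC1⟩ := rtau_bound G hk (G.isCompact_gball o ρ) (2 * ρ)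
  have hc0 : 0 ≤ cs k (2 * ρ) := zero_le_one.trans (one_le_cs _ _)
  refine ⟨M + M * (cs k (2 * ρ) + C1), by positivity, ?_⟩
  intro p ν x hp hν hx hxp
  have hv2 : ‖G.lg p x‖ ≤ 2 * ρ := perc_norm_lg_le G hp hx
  have hvne : G.lg p x ≠ 0 := by
    intro h0
    exact hxp ((G.lg_eq_zero).mp h0).symm
  have hrt := hC1 p hp (G.lg p x) hv2
  revert hrt
  generalize rtau G k p (G.lg p x) = rt
  intro hrt
  generalize G.lg p x = v at hvne hv2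
  have hvpos : 0 < ‖v‖ := norm_pos_iff.mpr hvne
  obtain ⟨hb1, hb2, hb3⟩ := hM ν v 1 hν le_rfl le_rfl hv2
  rw [one_pow, div_one, div_one, inv_one, one_mul, one_mul] at hb3
  obtain ⟨hct1, hct2⟩ := ctr_bounds hk hvpos
  have hct3 : ‖v‖ * cs k ‖v‖ / sn k ‖v‖ ≤ cs k (2 * ρ) :=
    hct2.trans (cs_mono hk (norm_nonneg _) hv2)
  have hct0 : 0 ≤ ‖v‖ * cs k ‖v‖ / sn k ‖v‖ := zero_le_one.trans hct1
  generalize ‖v‖ * cs k ‖v‖ / sn k ‖v‖ = ct at hct0 hct3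
  have hMc : 0 ≤ M * (cs k (2 * ρ) + C1) := by positivity
  refine ⟨hb1.trans (by linarith), hb2.trans (by linarith), ?_, ?_, ?_⟩
  · rw [abs_mul, abs_of_nonneg hct0]
    have h1 : |th Φ 1 ν v| * ct ≤ M * cs k (2 * ρ) := mul_le_mul hb1 hct3 hct0 hM0
    have h2 : 0 ≤ M * C1 := by positivity
    linarith
  · rw [abs_mul]
    have h1 : |ct + rt| ≤ cs k (2 * ρ) + C1 :=
      (abs_add_le _ _).trans (add_le_add (by rwa [abs_of_nonneg hct0]) hrt)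
    have h2 : |th Φ 1 ν v| * |ct + rt| ≤ M * (cs k (2 * ρ) + C1) :=
      mul_le_mul hb1 h1 (abs_nonneg _) hM0
    linarith
  · obtain ⟨h1, h2⟩ := perH_sq_div_sn hk hvpos
    have ha1 : |inner ℝ v ν / ‖v‖| ≤ 1 := by
      have := perc_cos v ν
      rwa [hν, mul_one] at this
    have hsq1 : √(1 - (inner ℝ v ν / ‖v‖) ^ 2) ≤ 1 := by
      refine Real.sqrt_le_one.mpr ?_
      nlinarith [sq_nonneg (inner ℝ v ν / ‖v‖)]
    calc ‖v‖ ^ 2 / sn k ‖v‖ * (|fderiv ℝ Φ (‖v‖ ^ 2, inner ℝ v ν) (0, 1)| *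
          √(1 - (inner ℝ v ν / ‖v‖) ^ 2))
        ≤ ‖v‖ * (|fderiv ℝ Φ (‖v‖ ^ 2, inner ℝ v ν) (0, 1)| * 1) := by gcongr
      _ ≤ M := by rw [mul_one]; exact hb3
      _ ≤ M + M * (cs k (2 * ρ) + C1) := by linarith

theorem perH_small {t M : ℝ} (ht : 0 ≤ t) (hM : 0 ≤ M) (h : t ≤ 1 / (2 * (M + 1))) :
    t * M ≤ 1 / 2 := by
  have h1 : t * (2 * (M + 1)) ≤ 1 := by
    rwa [le_div_iff₀ (by positivity)] at h
  nlinarith

theorem perH_pos {t M a : ℝ} (ht : 0 ≤ t) (h : t * M ≤ 1 / 2) (ha : |a| ≤ M) :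
    0 < 1 - t * a := by
  have h1 := mul_le_mul_of_nonneg_left ((le_abs_self a).trans ha) ht
  linarith

theorem perH_up {x y t C M : ℝ} (hM : 0 ≤ M) (h : x ≤ y + C * t ^ 2) :
    x ≤ y + (M + C) * t ^ 2 := by
  have h1 : 0 ≤ M * t ^ 2 := by positivity
  linarith

/-- Pointwise estimate, uniform constants. Compare `TP.area_pointwise`. -/
theorem area_pointwise_H (hn : 2 ≤ n) (hk : 0 ≤ k) (hG : Curv G k) (o : E n) {ρ : ℝ}
    {Φ : ℝ × ℝ → ℝ} {δ : ℝ}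
    (hδ : 0 < δ) (hΦ : ContDiffOn ℝ ∞ Φ {p | -δ < p.1})
    (hΦ0 : ∀ r a : ℝ, 0 ≤ r → |a| ≤ 1 → 0 ≤ Φ (r ^ 2, r * a)) :
    ∃ C t₀ : ℝ, 0 ≤ C ∧ 0 < t₀ ∧ ∀ (p ν x : E n) (t : ℝ), ‖G.lg o p‖ ≤ ρ → ‖ν‖ = 1 →
      0 ≤ t → t ≤ t₀ → ‖G.lg o x‖ ≤ ρ → x ≠ p → ∀ θ : E n → ℝ,
      (∀ v, ‖v‖ < 2 * ρ + 1 → θ v = th Φ 1 ν v) → ∀ N y : E n,
      (∀ ξ η, G.A (G.rad θ p t x) η = fderiv ℝ (G.rad θ p t) x (G.A x ξ) →
        inner ℝ y η = inner ℝ N ξ) →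
      G.w (G.rad θ p t x) * |(fderiv ℝ (G.rad θ p t) x).det| * ‖y‖ ≤
        G.w x * (‖N‖ - t * (kapE G k Φ ν p x
          (inner ℝ (G.lg x p) N / (‖G.lg x p‖ * ‖N‖)) * ‖N‖) + C * t ^ 2 * ‖N‖) := by
  obtain ⟨M0, hM00, hM0⟩ := perH_bounds G hk o ρ hδ hΦ
  obtain ⟨C1, t1, hC10, ht1, hbd⟩ := bh_d_exp hn G hk o ρ hδ hΦ hΦ0
  obtain ⟨C2, t2, hC20, ht2, hsc⟩ := scalar_exp_H (n - 2) (M := M0 + C1) (by positivity)
  refine ⟨C2, min (min t1 t2) (1 / (2 * (M0 + 1))), hC20, by positivity, ?_⟩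
  intro p ν x t hp hν ht0 htt hx hxp θ hθ N y hy
  have htt1 : t ≤ t1 := htt.trans ((min_le_left _ _).trans (min_le_left _ _))
  have htt2 : t ≤ t2 := htt.trans ((min_le_left _ _).trans (min_le_right _ _))
  have htt3 : t ≤ 1 / (2 * (M0 + 1)) := htt.trans (min_le_right _ _)
  obtain ⟨hb1, hb2, hb3, hb4, hb5⟩ := hM0 p ν x hp hν hx hxp
  obtain ⟨hd1, hd2, hd3, hd4⟩ := hbd p ν x t hp hν hx hxp ht0 htt1 _ _ rfl rfl
  have hkey := fun b => kapE_eq G (k := k) hn hδ hΦ hν hxp b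
  have hv2 : ‖G.lg p x‖ ≤ 2 * ρ := perc_norm_lg_le G hp hx
  have hvne : G.lg p x ≠ 0 := by
    intro h0
    exact hxp ((G.lg_eq_zero).mp h0).symm
  have hvpos : 0 < ‖G.lg p x‖ := norm_pos_iff.mpr hvne
  have hvlt : ‖G.lg p x‖ < 2 * ρ + 1 := by linarith
  have hev : θ =ᶠ[nhds (G.lg p x)] th Φ 1 ν := by
    have h1 : {u : E n | ‖u‖ < 2 * ρ + 1} ∈ nhds (G.lg p x) :=
      (isOpen_lt continuous_norm continuous_const).mem_nhds hvlt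
    filter_upwards [h1] with u hu
    exact hθ u hu
  obtain ⟨hsm, -, htan⟩ := th_deriv hδ hΦ one_pos ν (G.lg p x)
  have htan2 := htan hν
  rw [one_pow, div_one, div_one, inv_one, one_mul, one_mul] at htan2
  have hθv : θ (G.lg p x) = th Φ 1 ν (G.lg p x) := hθ _ hvlt
  have hfd : fderiv ℝ θ (G.lg p x) = fderiv ℝ (th Φ 1 ν) (G.lg p x) := hev.fderiv_eq
  have hdiff : DifferentiableAt ℝ θ (G.lg p x) :=
    (hsm.differentiableAt (by simp)).congr_of_eventuallyEq hev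
  have htM : t * M0 ≤ 1 / 2 := perH_small ht0 hM00 htt3
  set τ : ℝ := |fderiv ℝ Φ (‖G.lg p x‖ ^ 2, inner ℝ (G.lg p x) ν) (0, 1)| *
          √(1 - (inner ℝ (G.lg p x) ν / ‖G.lg p x‖) ^ 2) with hτ
  have hτ0 : 0 ≤ τ := by positivity
  set b : ℝ := inner ℝ (G.lg x p) N / (‖G.lg x p‖ * ‖N‖) with hb
  have hb1' : |b| ≤ 1 := perc_cos _ _
  have hθ0 : 0 ≤ θ (G.lg p x) := by
    rw [hθv]
    exact th_one_nonneg hΦ0 hν
  have hβ : 0 < 1 - t * θ (G.lg p x) := by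
    rw [hθv]
    exact perH_pos ht0 htM hb1
  have hα : 0 < 1 - t * (θ (G.lg p x) + fderiv ℝ θ (G.lg p x) (G.lg p x)) := by
    rw [hθv, hfd]
    exact perH_pos ht0 htM hb2
  have h1 := area_elem_H hn hk hG (θ := θ) (p := p) (x := x) (t := t) (τ := τ) hxp hdiff ht0 hτ0
    (fun z hz => by rw [hfd]; exact htan2 z hz) hθ0 hβ hα hy (b := b) hb rfl rfl
  refine h1.trans ?_
  rw [hθv, hfd]
  have hMM : M0 ≤ M0 + C1 := le_add_of_nonneg_right hC10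
  have hζ0 : 0 ≤ ‖G.lg p x‖ ^ 2 / sn k ‖G.lg p x‖ * τ :=
    mul_nonneg (perH_sq_div_sn hk hvpos).1 hτ0
  have h2 := hsc t _ _ _ _ _ _ b ht0 htt2 (hb2.trans hMM) (hb3.trans hMM)
    (hb4.trans hMM) hζ0 (hb5.trans hMM) hb1' hd1 hd2 (perH_up hM00 hd3) (perH_up hM00 hd4)
  rw [hkey b] at h2
  rw [mul_assoc]
  refine mul_le_mul_of_nonneg_left ?_ (G.w_pos x).le
  refine (mul_le_mul_of_nonneg_right h2 (norm_nonneg N)).trans (le_of_eq ?_)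
  ring

theorem perH_kapH_measurable (m : ℕ) {Φ : ℝ × ℝ → ℝ} {δ : ℝ} (hδ : 0 < δ)
    (hΦ : ContDiffOn ℝ ∞ Φ {p | -δ < p.1}) :
    Measurable fun q : ℝ × ℝ × ℝ => kapH k m Φ q.1 q.2.1 q.2.2 := by
  have hU : IsOpen {p : ℝ × ℝ | -δ < p.1} := isOpen_lt continuous_const continuous_fst
  have hg : Continuous fun q : ℝ × ℝ × ℝ => (q.1 ^ 2, q.1 * q.2.1) := by fun_prop
  have hmem : ∀ q : ℝ × ℝ × ℝ, (q.1 ^ 2, q.1 * q.2.1) ∈ {p : ℝ × ℝ | -δ < p.1} := fun q => by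
    show -δ < q.1 ^ 2
    nlinarith [sq_nonneg q.1]
  have h0 : Continuous fun q : ℝ × ℝ × ℝ => Φ (q.1 ^ 2, q.1 * q.2.1) :=
    hΦ.continuousOn.comp_continuous hg hmem
  have h1 : Continuous fun q : ℝ × ℝ × ℝ => fderiv ℝ Φ (q.1 ^ 2, q.1 * q.2.1) :=
    (hΦ.continuousOn_fderiv_of_isOpen hU (by simp)).comp_continuous hg hmem
  have h2 : Continuous fun q : ℝ × ℝ × ℝ => fderiv ℝ Φ (q.1 ^ 2, q.1 * q.2.1) (1, 0) :=
    h1.clm_apply continuous_const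
  have h3 : Continuous fun q : ℝ × ℝ × ℝ => fderiv ℝ Φ (q.1 ^ 2, q.1 * q.2.1) (0, 1) :=
    h1.clm_apply continuous_const
  have h4 : Continuous fun q : ℝ × ℝ × ℝ => 2 * q.1 ^ 2 := by fun_prop
  have h5 : Continuous fun q : ℝ × ℝ × ℝ => q.1 * q.2.1 := by fun_prop
  have h6 : Continuous fun q : ℝ × ℝ × ℝ => 1 - q.2.2 ^ 2 := by fun_prop
  have h7 : Continuous fun q : ℝ × ℝ × ℝ => |q.2.2| := by fun_prop
  have h8 : Continuous fun q : ℝ × ℝ × ℝ => √((1 - q.2.1 ^ 2) * (1 - q.2.2 ^ 2)) := by fun_prop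
  have h9 : Continuous fun q : ℝ × ℝ × ℝ => (m : ℝ) - 1 + q.2.2 ^ 2 := by fun_prop
  have hs : Measurable fun q : ℝ × ℝ × ℝ => sn k q.1 :=
    ((contDiff_sn k).continuous.comp continuous_fst).measurable
  have hc : Measurable fun q : ℝ × ℝ × ℝ => cs k q.1 :=
    ((contDiff_cs k).continuous.comp continuous_fst).measurable
  have h10 : Measurable fun q : ℝ × ℝ × ℝ => q.1 * cs k q.1 / sn k q.1 :=
    (measurable_fst.mul hc).div hs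
  have h11 : Measurable fun q : ℝ × ℝ × ℝ => q.1 ^ 2 / sn k q.1 :=
    (measurable_fst.pow_const 2).div hs
  exact ((((h0.add (h4.mul h2)).add (h5.mul h3)).mul h6).measurable.add
    ((h10.mul h0.measurable).mul h9.measurable)).sub
    (((h11.mul h3.abs.measurable).mul h7.measurable).mul h8.measurable)

theorem perH_rtau_measurable (p : E n) : Measurable fun x => rtau G k p (G.lg p x) := by
  have hlg : Continuous fun x => G.lg p x :=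
    G.lg_smooth.continuous.comp (continuous_const.prodMk continuous_id)
  have hT : ContDiff ℝ ∞ fun u : E n => G.T p u :=
    G.T_smooth.comp (contDiff_const.prodMk contDiff_id)
  have hf : ContDiff ℝ ∞ fun u : E n => Real.log (G.T p u).det :=
    (volExp_contDiff_det.comp hT).log fun u => (det_T_pos G p u).ne'
  have hfc : Continuous fun u : E n => fderiv ℝ (fun u => Real.log (G.T p u).det) u u :=
    (hf.continuous_fderiv (by simp)).clm_apply continuous_id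
  have hs : Measurable fun x => sn k ‖G.lg p x‖ :=
    ((contDiff_sn k).continuous.comp hlg.norm).measurable
  have hc : Measurable fun x => cs k ‖G.lg p x‖ :=
    ((contDiff_cs k).continuous.comp hlg.norm).measurable
  exact (hfc.comp hlg).measurable.add
    (((hlg.norm.measurable.mul hc).div hs).const_sub 1 |>.const_mul _)

/-- Bound of `kapH`. -/
theorem perH_kapH_bound (hk : 0 ≤ k) (m : ℕ) (L : ℝ) {Φ : ℝ × ℝ → ℝ} {δ : ℝ} (hδ : 0 < δ)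
    (hΦ : ContDiffOn ℝ ∞ Φ {p | -δ < p.1}) :
    ∃ K : ℝ, 0 ≤ K ∧ ∀ r a b : ℝ, 0 ≤ r → r ≤ L → |a| ≤ 1 → |b| ≤ 1 → |kapH k m Φ r a b| ≤ K := by
  have hU : IsOpen {p : ℝ × ℝ | -δ < p.1} := isOpen_lt continuous_const continuous_fst
  have hg : Continuous fun q : ℝ × ℝ × ℝ => (q.1 ^ 2, q.1 * q.2.1) := by fun_prop
  have hmem : ∀ q : ℝ × ℝ × ℝ, (q.1 ^ 2, q.1 * q.2.1) ∈ {p : ℝ × ℝ | -δ < p.1} := fun q => by
    show -δ < q.1 ^ 2
    nlinarith [sq_nonneg q.1]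
  have h0 : Continuous fun q : ℝ × ℝ × ℝ => Φ (q.1 ^ 2, q.1 * q.2.1) :=
    hΦ.continuousOn.comp_continuous hg hmem
  have h1 : Continuous fun q : ℝ × ℝ × ℝ => fderiv ℝ Φ (q.1 ^ 2, q.1 * q.2.1) :=
    (hΦ.continuousOn_fderiv_of_isOpen hU (by simp)).comp_continuous hg hmem
  have h2 : Continuous fun q : ℝ × ℝ × ℝ => fderiv ℝ Φ (q.1 ^ 2, q.1 * q.2.1) (1, 0) :=
    h1.clm_apply continuous_const
  have h3 : Continuous fun q : ℝ × ℝ × ℝ => fderiv ℝ Φ (q.1 ^ 2, q.1 * q.2.1) (0, 1) :=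
    h1.clm_apply continuous_const
  have h4 : Continuous fun q : ℝ × ℝ × ℝ => 2 * q.1 ^ 2 := by fun_prop
  have h5 : Continuous fun q : ℝ × ℝ × ℝ => q.1 * q.2.1 := by fun_prop
  have h6 : Continuous fun q : ℝ × ℝ × ℝ => 1 - q.2.2 ^ 2 := by fun_prop
  have h7 : Continuous fun q : ℝ × ℝ × ℝ => |q.2.2| := by fun_prop
  have h8 : Continuous fun q : ℝ × ℝ × ℝ => √((1 - q.2.1 ^ 2) * (1 - q.2.2 ^ 2)) := by fun_prop
  have h9 : Continuous fun q : ℝ × ℝ × ℝ => (m : ℝ) - 1 + q.2.2 ^ 2 := by fun_prop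
  have f1 : Continuous fun q : ℝ × ℝ × ℝ => (Φ (q.1 ^ 2, q.1 * q.2.1) +
      2 * q.1 ^ 2 * fderiv ℝ Φ (q.1 ^ 2, q.1 * q.2.1) (1, 0) +
      q.1 * q.2.1 * fderiv ℝ Φ (q.1 ^ 2, q.1 * q.2.1) (0, 1)) * (1 - q.2.2 ^ 2) :=
    ((h0.add (h4.mul h2)).add (h5.mul h3)).mul h6
  have f2 : Continuous fun q : ℝ × ℝ × ℝ => Φ (q.1 ^ 2, q.1 * q.2.1) *
      ((m : ℝ) - 1 + q.2.2 ^ 2) := h0.mul h9
  have f3 : Continuous fun q : ℝ × ℝ × ℝ => |fderiv ℝ Φ (q.1 ^ 2, q.1 * q.2.1) (0, 1)| *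
      |q.2.2| * √((1 - q.2.1 ^ 2) * (1 - q.2.2 ^ 2)) := (h3.abs.mul h7).mul h8
  have hcpt : IsCompact (Icc (0 : ℝ) L ×ˢ (Icc (-1 : ℝ) 1 ×ˢ Icc (-1 : ℝ) 1)) :=
    isCompact_Icc.prod (isCompact_Icc.prod isCompact_Icc)
  obtain ⟨A1, hA1⟩ := hcpt.exists_bound_of_continuousOn f1.continuousOn
  obtain ⟨A2, hA2⟩ := hcpt.exists_bound_of_continuousOn f2.continuousOn
  obtain ⟨A3, hA3⟩ := hcpt.exists_bound_of_continuousOn f3.continuousOn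
  refine ⟨|A1| + cs k L * |A2| + |L| * |A3|, ?_, ?_⟩
  · have := zero_le_one.trans (one_le_cs k L)
    positivity
  intro r a b hr hrL ha hb
  have hq : ((r, a, b) : ℝ × ℝ × ℝ) ∈ Icc (0 : ℝ) L ×ˢ (Icc (-1 : ℝ) 1 ×ˢ Icc (-1 : ℝ) 1) :=
    ⟨⟨hr, hrL⟩, ⟨(abs_le.mp ha).1, (abs_le.mp ha).2⟩, ⟨(abs_le.mp hb).1, (abs_le.mp hb).2⟩⟩
  have e1 := (hA1 _ hq).trans (le_abs_self _)
  have e2 := (hA2 _ hq).trans (le_abs_self _)
  have e3 := (hA3 _ hq).trans (le_abs_self _)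
  rw [Real.norm_eq_abs] at e1 e2 e3
  simp only at e1 e2 e3
  have hct : |r * cs k r / sn k r| ≤ cs k L := by
    rcases hr.eq_or_lt with h | h
    · rw [← h, sn_zero, div_zero, abs_zero]
      exact zero_le_one.trans (one_le_cs k L)
    · obtain ⟨g1, g2⟩ := ctr_bounds hk h
      rw [abs_of_nonneg (zero_le_one.trans g1)]
      exact g2.trans (cs_mono hk hr hrL)
  have hs2 : |r ^ 2 / sn k r| ≤ |L| := by
    rcases hr.eq_or_lt with h | h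
    · rw [← h, sn_zero, div_zero, abs_zero]
      exact abs_nonneg _
    · obtain ⟨g1, g2⟩ := perH_sq_div_sn hk h
      rw [abs_of_nonneg g1]
      exact g2.trans (hrL.trans (le_abs_self L))
  unfold kapH
  generalize (Φ (r ^ 2, r * a) + 2 * r ^ 2 * fderiv ℝ Φ (r ^ 2, r * a) (1, 0) +
      r * a * fderiv ℝ Φ (r ^ 2, r * a) (0, 1)) * (1 - b ^ 2) = X1 at e1 ⊢
  generalize |fderiv ℝ Φ (r ^ 2, r * a) (0, 1)| = Y3 at e3 ⊢
  generalize √((1 - a ^ 2) * (1 - b ^ 2)) = S at e3 ⊢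
  generalize r * cs k r / sn k r = ct at hct ⊢
  generalize r ^ 2 / sn k r = s2 at hs2 ⊢
  generalize Φ (r ^ 2, r * a) = Φ0 at e2 ⊢
  have g1 : |ct * Φ0 * ((m : ℝ) - 1 + b ^ 2)| ≤ cs k L * |A2| := by
    rw [mul_assoc, abs_mul]
    exact mul_le_mul hct e2 (abs_nonneg _) (zero_le_one.trans (one_le_cs k L))
  have g2 : |s2 * Y3 * |b| * S| ≤ |L| * |A3| := by
    have : s2 * Y3 * |b| * S = s2 * (Y3 * |b| * S) := by ring
    rw [this, abs_mul]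
    exact mul_le_mul hs2 e3 (abs_nonneg _) (abs_nonneg _)
  calc |X1 + ct * Φ0 * ((m : ℝ) - 1 + b ^ 2) - s2 * Y3 * |b| * S|
      ≤ |X1 + ct * Φ0 * ((m : ℝ) - 1 + b ^ 2)| + |s2 * Y3 * |b| * S| := abs_sub _ _
    _ ≤ (|X1| + |ct * Φ0 * ((m : ℝ) - 1 + b ^ 2)|) + |s2 * Y3 * |b| * S| := by
        gcongr
        exact abs_add_le _ _
    _ ≤ |A1| + cs k L * |A2| + |L| * |A3| := by
        gcongr

/-- Bound of `kapE`. -/
theorem perH_kapE_bound (hk : 0 ≤ k) (o : E n) (ρ : ℝ)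
    {Φ : ℝ × ℝ → ℝ} {δ : ℝ}
    (hδ : 0 < δ) (hΦ : ContDiffOn ℝ ∞ Φ {p | -δ < p.1}) :
    ∃ K : ℝ, 0 ≤ K ∧ ∀ (p ν x : E n) (b : ℝ), ‖G.lg o p‖ ≤ ρ → ‖ν‖ = 1 → ‖G.lg o x‖ ≤ ρ →
      |b| ≤ 1 → |kapE G k Φ ν p x b| ≤ K := by
  obtain ⟨K1, hK10, hK1⟩ := perH_kapH_bound (k := k) hk (n - 1) (2 * ρ) hδ hΦ
  obtain ⟨M, hM0, hM⟩ := th_bounds (n := n) (R₀ := 1) hδ hΦ 1 one_pos (2 * ρ)
  obtain ⟨C1, hC10, hC1⟩ := rtau_bound G hk (G.isCompact_gball o ρ) (2 * ρ)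
  refine ⟨K1 + M * 1 * C1, by positivity, ?_⟩
  intro p ν x b hp hν hx hb
  have hv2 : ‖G.lg p x‖ ≤ 2 * ρ := perc_norm_lg_le G hp hx
  have hrt := hC1 p hp (G.lg p x) hv2
  have hth := (hM ν (G.lg p x) 1 hν le_rfl le_rfl hv2).1
  have ha : |inner ℝ (G.lg p x) ν / ‖G.lg p x‖| ≤ 1 := by
    have := perc_cos (G.lg p x) ν
    rwa [hν, mul_one] at this
  have hkH := hK1 ‖G.lg p x‖ _ b (norm_nonneg _) hv2 ha hb
  have hb2 : |b ^ 2| ≤ 1 := by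
    rw [abs_pow]
    exact pow_le_one₀ (abs_nonneg _) hb
  unfold kapE
  refine (abs_add_le _ _).trans (add_le_add hkH ?_)
  rw [abs_mul, abs_mul]
  exact mul_le_mul (mul_le_mul hth hb2 (abs_nonneg _) hM0) hrt (abs_nonneg _) (by positivity)

theorem perH_kapE_measurable {Φ : ℝ × ℝ → ℝ} {δ : ℝ} (hδ : 0 < δ)
    (hΦ : ContDiffOn ℝ ∞ Φ {p | -δ < p.1}) (p ν : E n) {β : E n → ℝ} (hβ : Measurable β) :
    Measurable fun x => kapE G k Φ ν p x (β x) := by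
  have hlg1 : Continuous fun x => G.lg p x :=
    G.lg_smooth.continuous.comp (continuous_const.prodMk continuous_id)
  have m1 : Measurable fun x => ‖G.lg p x‖ := hlg1.norm.measurable
  have m2 : Measurable fun x => inner ℝ (G.lg p x) ν / ‖G.lg p x‖ :=
    (hlg1.inner continuous_const).measurable.div hlg1.norm.measurable
  have m4 : Measurable fun x => kapH k (n - 1) Φ ‖G.lg p x‖
      (inner ℝ (G.lg p x) ν / ‖G.lg p x‖) (β x) := by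
    have e1 := m1.prodMk (m2.prodMk hβ)
    have e2 := perH_kapH_measurable (k := k) (n - 1) hδ hΦ
    have e5 := e2.comp e1; exact e5
  have hth : Continuous (th Φ 1 ν) := by
    have e3 : ContDiff ℝ ∞ (th Φ 1 ν) := by
      rw [contDiff_iff_contDiffAt]
      intro v
      exact (th_deriv hδ hΦ one_pos ν v).1
    exact e3.continuous
  have m5 : Measurable fun x => th Φ 1 ν (G.lg p x) := (hth.comp hlg1).measurable
  have m7 : Measurable fun x => rtau G k p (G.lg p x) := perH_rtau_measurable G p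
  have m8 : Measurable fun x => β x ^ 2 := hβ.pow_const 2
  have m9 : Measurable fun x => th Φ 1 ν (G.lg p x) * β x ^ 2 * rtau G k p (G.lg p x) :=
    (m5.mul m8).mul m7
  have m10 : Measurable fun x => kapH k (n - 1) Φ ‖G.lg p x‖
      (inner ℝ (G.lg p x) ν / ‖G.lg p x‖) (β x) + th Φ 1 ν (G.lg p x) * β x ^ 2 * rtau G k p (G.lg p x) := by
    exact Measurable.add m4 m9
  exact m10

theorem kapE_integrable (hk : 0 ≤ k) {Φ : ℝ × ℝ → ℝ} {δ : ℝ} (hδ : 0 < δ)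
    (hΦ : ContDiffOn ℝ ∞ Φ {p | -δ < p.1}) {o p ν : E n} {ρ : ℝ} (hp : ‖G.lg o p‖ ≤ ρ)
    (hν : ‖ν‖ = 1) {h : E n → ℝ} (hh : G.Cls o ρ h) :
    Integrable (fun x => kapE G k Φ ν p x (G.ang h x p) * ‖G.D h x‖) G.vol := by
  obtain ⟨K, hK0, hK⟩ := perH_kapE_bound G hk o ρ hδ hΦ
  have hlg2 : Continuous fun x => G.lg x p :=
    G.lg_smooth.continuous.comp (continuous_id.prodMk continuous_const)
  have hD := perc_D_cont G hh.smooth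
  have m3 : Measurable fun x => G.ang h x p :=
    (hlg2.inner hD).measurable.div (hlg2.norm.mul hD.norm).measurable
  have m6 : Measurable fun x => kapE G k Φ ν p x (G.ang h x p) :=
    perH_kapE_measurable G hδ hΦ p ν m3
  refine ((perc_D_integrable G hh).const_mul K).mono'
    (m6.mul hD.norm.measurable).aestronglyMeasurable
    (Filter.Eventually.of_forall fun x => ?_)
  by_cases hB : ‖G.lg o x‖ ≤ ρ
  · rw [norm_mul, norm_norm, Real.norm_eq_abs]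
    exact mul_le_mul_of_nonneg_right (hK p ν x _ hp hν hB (perc_cos _ _)) (norm_nonneg _)
  · rw [perc_D_of_eventually G (perc_D_zero G hh (not_le.mp hB))]
    simp

theorem per_contract_H (hn : 2 ≤ n) (hk : 0 ≤ k) (hG : Curv G k) (o : E n) {ρ : ℝ}
    {Φ : ℝ × ℝ → ℝ} {δ : ℝ}
    (hδ : 0 < δ) (hΦ : ContDiffOn ℝ ∞ Φ {p | -δ < p.1})
    (hΦ0 : ∀ r a : ℝ, 0 ≤ r → |a| ≤ 1 → 0 ≤ Φ (r ^ 2, r * a)) :
    ∃ C t₀ : ℝ, 0 ≤ C ∧ 0 < t₀ ∧ ∀ (p ν : E n) (t : ℝ) (h : E n → ℝ), ‖G.lg o p‖ ≤ ρ →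
      ‖ν‖ = 1 → 0 ≤ t → t ≤ t₀ → G.Cls o ρ h → ∀ θ : E n → ℝ,
      (∀ v, ‖v‖ < 2 * ρ + 1 → θ v = th Φ 1 ν v) → ∀ Ψ : E n ≃ₜ E n,
      (∀ x, Ψ x = G.rad θ p t x) → ContDiff ℝ ∞ Ψ → ContDiff ℝ ∞ Ψ.symm →
      G.per (h ∘ Ψ.symm) ≤ G.per h -
        t * (∫ x, kapE G k Φ ν p x (G.ang h x p) * ‖G.D h x‖ ∂G.vol) + C * t ^ 2 * G.per h := by
  obtain ⟨C, t₀, hC0, ht₀, hmain⟩ := area_pointwise_H G hn hk hG o hδ hΦ hΦ0 (ρ := ρ)
  refine ⟨C, t₀, hC0, ht₀, ?_⟩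
  intro p ν t h hp hν ht0 ht1 hh θ hθ Ψ hΨ hΨ1 hΨ2
  have hfun : (Ψ : E n → E n) = G.rad θ p t := funext hΨ
  set κ : E n → ℝ := fun x => kapE G k Φ ν p x (G.ang h x p) * ‖G.D h x‖ with hκ
  have hkint : Integrable κ G.vol := kapE_integrable G hk hδ hΦ hp hν hh
  have hDint := perc_D_integrable G hh
  have hgint : Integrable (fun x => ‖G.D h x‖ - t * κ x + C * t ^ 2 * ‖G.D h x‖) G.vol :=
    (hDint.sub (hkint.const_mul t)).add (hDint.const_mul _)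
  have hae : ∀ᵐ x ∂G.vol, x ≠ p := by
    have hac : G.vol ≪ volume := withDensity_absolutelyContinuous _ _
    refine hac.ae_le ?_
    have : Nonempty (Fin n) := ⟨⟨0, by omega⟩⟩
    exact compl_mem_ae_iff.mpr (measure_singleton p)
  have hcmp : ∀ᵐ x ∂G.vol, ‖G.D (h ∘ Ψ.symm) (Ψ x)‖ *
      (G.w (Ψ x) * |(fderiv ℝ Ψ x).det| / G.w x) ≤
        ‖G.D h x‖ - t * κ x + C * t ^ 2 * ‖G.D h x‖ := by
    filter_upwards [hae] with x hx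
    have hw := G.w_pos x
    by_cases hB : ‖G.lg o x‖ ≤ ρ
    · have h1 := hmain p ν x t hp hν ht0 ht1 hB hx θ hθ (G.D h x)
        (G.D (h ∘ Ψ.symm) (Ψ x)) (fun ξ η hη => by
          refine D_comp_symm G hΨ1 hΨ2 hh.smooth x ξ η ?_
          rw [hfun]
          exact hη)
      rw [← hfun] at h1
      have h2 : ‖G.D (h ∘ Ψ.symm) (Ψ x)‖ * (G.w (Ψ x) * |(fderiv ℝ Ψ x).det| / G.w x) =
          (G.w (Ψ x) * |(fderiv ℝ Ψ x).det| * ‖G.D (h ∘ Ψ.symm) (Ψ x)‖) / G.w x := by ring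
      rw [h2, div_le_iff₀ hw, mul_comm _ (G.w x)]
      exact h1
    · have h1 := perc_D_zero G hh (not_le.mp hB)
      have h2 : (h ∘ Ψ.symm) =ᶠ[nhds (Ψ x)] fun _ => 0 := by
        have h3 : Filter.Tendsto Ψ.symm (nhds (Ψ x)) (nhds x) := by
          have h4 := Ψ.symm.continuous.tendsto (Ψ x)
          rwa [Ψ.symm_apply_apply] at h4
        exact h3.eventually h1
      have h5 := perc_D_of_eventually G h1
      have h6 := perc_D_of_eventually G h2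
      rw [hκ]
      simp only [h5, h6, norm_zero, zero_mul, mul_zero, sub_zero, add_zero, le_refl]
  have e1 : G.per (h ∘ Ψ.symm) = ∫ x, ‖G.D (h ∘ Ψ.symm) (Ψ x)‖ *
      (G.w (Ψ x) * |(fderiv ℝ Ψ x).det| / G.w x) ∂G.vol :=
    integral_vol_comp G hΨ1 (fun y => ‖G.D (h ∘ Ψ.symm) y‖)
  have e2 : ∫ x, (‖G.D h x‖ - t * κ x + C * t ^ 2 * ‖G.D h x‖) ∂G.vol =
      G.per h - t * (∫ x, κ x ∂G.vol) + C * t ^ 2 * G.per h := by
    have i1 : Integrable (fun x => ‖G.D h x‖ - t * κ x) G.vol := hDint.sub (hkint.const_mul t)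
    rw [integral_add i1 (hDint.const_mul _),
      integral_sub hDint (hkint.const_mul t), integral_const_mul, integral_const_mul]
    rfl
  rw [e1, ← e2]
  refine integral_mono_of_nonneg (Filter.Eventually.of_forall fun x => ?_) hgint hcmp
  have hw := G.w_pos x
  have hw2 := G.w_pos (Ψ x)
  positivity

end Vale.Agent.P219.TPH
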