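import Vale.Agent.P219.TPH.CurvH
import Vale.Agent.P219.TPH.LineThm
import Vale.Agent.P219.TPH.KexReg

/-! # The line theorem for a geodesic (task H13) -/

set_option linter.all false

open MeasureTheory Set Metric
open scoped ENNReal ContDiff

namespace Vale.Agent.P219.TPH

open Vale.Agent.P219.TP

variable {n : ℕ} {G : Geo n} {k : ℝ}

/-- Scalar form of the comparison of the exact and the model kernel: `j = jac ≥ w = sn^(n-1)`,
`β` the bonus. -/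
theorem relax_scalar {K κ j w β : ℝ} (hw : w ≤ j) (hβ : κ * (j - w) ≤ β) (hK : 0 ≤ K + κ) :
    K * w ≤ K * j + β := by
  have h1 : 0 ≤ (K + κ) * (j - w) := mul_nonneg hK (sub_nonneg.2 hw)
  have h2 : (K + κ) * (j - w) = K * j - K * w + κ * (j - w) := by ring
  linarith

/-- The bonus term. -/
noncomputable def ryB (G : Geo n) (k : ℝ) (Φ : ℝ × ℝ → ℝ) (p q : E n) (r a b : ℝ) : ℝ :=
  (Φ (r ^ 2, r * a) * b ^ 2 * rtau G k p (G.lg p q) +
    Φ (r ^ 2, r * b) * a ^ 2 * rtau G k q (G.lg q p)) / 2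

theorem ry_kexs {Φ : ℝ × ℝ → ℝ} {lam H : ℝ} {p q : E n} {r a b : ℝ} (h1 : ‖G.lg p q‖ = r)
    (h2 : ‖G.lg q p‖ = r) :
    kexs G k Φ lam H p q a b = NH k (n - 1) Φ lam r a b + ryB G k Φ p q r a b -
      H / 2 * (ph Φ r a * b + ph Φ r b * a) := by
  unfold kexs kex NH ryB
  rw [h1, h2]
  ring

theorem ry_lg1 (x : E n) {u : E n} (hu : ‖u‖ = 1) {σ τ : ℝ} (h : σ < τ) :
    ‖G.lg (G.ex x (σ • u)) (G.ex x (τ • u))‖ = τ - σ := by
  rw [lg_along, norm_smul, G.norm_V, hu, mul_one, Real.norm_eq_abs, abs_of_pos (sub_pos.2 h)]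

theorem ry_lg2 (x : E n) {u : E n} (hu : ‖u‖ = 1) {σ τ : ℝ} (h : σ < τ) :
    ‖G.lg (G.ex x (τ • u)) (G.ex x (σ • u))‖ = τ - σ := by
  rw [G.norm_lg_comm, ry_lg1 x hu h]

theorem ry_lg1_ne (x : E n) {u : E n} (hu : ‖u‖ = 1) {σ τ : ℝ} (h : σ < τ) :
    G.lg (G.ex x (σ • u)) (G.ex x (τ • u)) ≠ 0 := by
  rw [← norm_pos_iff, ry_lg1 x hu h]
  exact sub_pos.2 h

theorem ry_lg2_ne (x : E n) {u : E n} (hu : ‖u‖ = 1) {σ τ : ℝ} (h : σ < τ) :
    G.lg (G.ex x (τ • u)) (G.ex x (σ • u)) ≠ 0 := by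
  rw [← norm_pos_iff, ry_lg2 x hu h]
  exact sub_pos.2 h

theorem ry_bonus_nonneg (hG : Curv G k) {Φ : ℝ × ℝ → ℝ} {lam H s : ℝ}
    {f : ℝ → ℝ} (hg : Good n k Φ lam H s f) (x : E n) {u : E n} (hu : ‖u‖ = 1) {σ τ a b : ℝ}
    (h : σ < τ) (ha : |a| ≤ 1) (hb : |b| ≤ 1) :
    0 ≤ ryB G k Φ (G.ex x (σ • u)) (G.ex x (τ • u)) (τ - σ) a b := by
  unfold ryB
  have hr : 0 ≤ τ - σ := (sub_pos.2 h).le
  have e1 := hg.nonneg (τ - σ) a hr ha
  have e2 := hg.nonneg (τ - σ) b hr hb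
  have e3 := rtau_nonneg hG (ry_lg1_ne (G := G) x hu h) (G.ex x (σ • u))
  have e4 := rtau_nonneg hG (ry_lg2_ne (G := G) x hu h) (G.ex x (τ • u))
  have e5 := mul_nonneg (mul_nonneg e1 (sq_nonneg b)) e3
  have e6 := mul_nonneg (mul_nonneg e2 (sq_nonneg a)) e4
  linarith

/-- The model kernel times `sn^(n-1)` is at most the exact kernel times the Jacobian, for
nonnegative cosines. PROOF: `kexs = KH + (Φ(r²,ra) b² rtau + Φ(r²,rb) a² rtau')/2`; `bonus_line`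
with `b √(Φ(r²,ra))`, `a √(Φ(r²,rb))`, `r Φ = ph`, `√(ph ph) = r √(Φ Φ)`; `c7`; `relax_scalar`. -/
theorem kexs_ge (hn : 2 ≤ n) (hk : 0 ≤ k) (hG : Curv G k) {Φ : ℝ × ℝ → ℝ} {lam H s : ℝ}
    {f : ℝ → ℝ} (hg : Good n k Φ lam H s f) (x : E n) {u : E n} (hu : ‖u‖ = 1) {σ τ a b : ℝ}
    (h : σ < τ) (ha : 0 ≤ a) (ha1 : a ≤ 1) (hb : 0 ≤ b) (hb1 : b ≤ 1) :
    KH k (n - 1) Φ lam H (τ - σ) a b * sn k (τ - σ) ^ (n - 1) ≤
      kexs G k Φ lam H (G.ex x (σ • u)) (G.ex x (τ • u)) a b * jac G x u σ τ := by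
  have hr : 0 < τ - σ := sub_pos.2 h
  have hsn : 0 < sn k (τ - σ) := sn_pos hk hr
  have hA : |a| ≤ 1 := abs_le.2 ⟨by linarith, ha1⟩
  have hB : |b| ≤ 1 := abs_le.2 ⟨by linarith, hb1⟩
  have e1 := hg.nonneg (τ - σ) a hr.le hA
  have e2 := hg.nonneg (τ - σ) b hr.le hB
  have c7 := hg.c7 (τ - σ) a b hr ha ha1 hb hb1
  have hb2 := bonus_line hk hG x hu h (a := a * √(Φ ((τ - σ) ^ 2, (τ - σ) * b)))
    (b := b * √(Φ ((τ - σ) ^ 2, (τ - σ) * a)))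
    (mul_nonneg ha (Real.sqrt_nonneg _)) (mul_nonneg hb (Real.sqrt_nonneg _))
  have hw := sn_le_jac (by omega : 1 ≤ n) hk hG x hu h
  rw [ry_kexs (ry_lg1 x hu h) (ry_lg2 x hu h)]
  have hKH : NH k (n - 1) Φ lam (τ - σ) a b +
      ryB G k Φ (G.ex x (σ • u)) (G.ex x (τ • u)) (τ - σ) a b -
      H / 2 * (ph Φ (τ - σ) a * b + ph Φ (τ - σ) b * a) = KH k (n - 1) Φ lam H (τ - σ) a b +
      ryB G k Φ (G.ex x (σ • u)) (G.ex x (τ • u)) (τ - σ) a b := by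
    unfold KH
    ring
  rw [hKH, add_mul]
  refine relax_scalar hw ?_ c7
  have hsq : √(ph Φ (τ - σ) a * ph Φ (τ - σ) b) =
      (τ - σ) * (√(Φ ((τ - σ) ^ 2, (τ - σ) * a)) * √(Φ ((τ - σ) ^ 2, (τ - σ) * b))) := by
    unfold ph
    rw [show (τ - σ) * Φ ((τ - σ) ^ 2, (τ - σ) * a) * ((τ - σ) * Φ ((τ - σ) ^ 2, (τ - σ) * b)) =
      (τ - σ) ^ 2 * (Φ ((τ - σ) ^ 2, (τ - σ) * a) * Φ ((τ - σ) ^ 2, (τ - σ) * b)) by ring,
      Real.sqrt_mul (sq_nonneg _), Real.sqrt_sq hr.le, Real.sqrt_mul e1]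
  rw [hsq]
  rw [mul_pow, mul_pow, Real.sq_sqrt e1, Real.sq_sqrt e2] at hb2
  have hb3 := mul_le_mul_of_nonneg_left hb2 (by linarith : (0:ℝ) ≤ (τ - σ) / 2)
  unfold ryB
  refine le_trans (le_of_eq ?_) (hb3.trans (le_of_eq ?_))
  · field_simp
  · field_simp

theorem ry_NH_symm {Φ : ℝ × ℝ → ℝ} {lam : ℝ} {m : ℕ} (r a b : ℝ) :
    NH k m Φ lam r a b = NH k m Φ lam r b a := by
  unfold NH
  ring

theorem ry_ph_cont {Φ : ℝ × ℝ → ℝ} {δ : ℝ} (hδ : 0 < δ)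
    (hΦ : ContDiffOn ℝ ∞ Φ {p | -δ < p.1}) : Continuous fun z : ℝ × ℝ => ph Φ z.1 z.2 := by
  unfold ph
  refine continuous_fst.mul ?_
  refine hΦ.continuousOn.comp_continuous (f := fun z : ℝ × ℝ => ((z.1 ^ 2, z.1 * z.2) : ℝ × ℝ))
    (by fun_prop) (fun z => ?_)
  show -δ < z.1 ^ 2
  have := sq_nonneg z.1
  linarith

theorem ry_T_cont (x u : E n) :
    Continuous fun z : ℝ × ℝ => jac G x u z.1 z.2 := by
  unfold jac
  have h1 : Continuous fun z : E n × E n => G.T z.1 z.2 := G.T_smooth.continuous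
  have h2 : Continuous fun z : ℝ × ℝ => G.T (G.ex x (z.1 • u)) ((z.2 - z.1) • G.V z.1 x u) := by
    refine h1.comp (Continuous.prodMk ((continuous_geod G x u).comp continuous_fst) ?_)
    exact (continuous_snd.sub continuous_fst).smul
      ((ray_continuous_V G x u).comp continuous_fst)
  have h3 : Continuous fun z : ℝ × ℝ =>
      (G.T (G.ex x (z.1 • u)) ((z.2 - z.1) • G.V z.1 x u)).det :=
    ContinuousLinearMap.continuous_det.comp h2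
  exact h3.abs.mul ((continuous_snd.sub continuous_fst).pow _)

/-- The gradient vanishes outside of the support. -/
theorem ry_D_zero {h : E n → ℝ} {y : E n} (hy : y ∉ tsupport h) : G.D h y = 0 := by
  have h1 : fderiv ℝ h y = 0 := by
    by_contra hne
    exact hy (support_fderiv_subset ℝ hne)
  unfold Geo.D
  rw [h1, ContinuousLinearMap.zero_comp, map_zero]

/-- The part of the geodesic inside the support is bounded. -/
theorem ry_window {h : E n → ℝ} (hc : HasCompactSupport h) (x : E n) {u : E n} (hu : ‖u‖ = 1) :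
    ∃ B : ℝ, 0 < B ∧ ∀ t : ℝ, G.ex x (t • u) ∈ tsupport h → |t| < B := by
  have h1 : Continuous fun y => ‖G.lg x y‖ := by
    have h2 : Continuous fun z : E n × E n => G.lg z.1 z.2 := G.lg_smooth.continuous
    exact (h2.comp (Continuous.prodMk continuous_const continuous_id)).norm
  obtain ⟨C, hC⟩ := hc.isCompact.exists_bound_of_continuousOn h1.continuousOn
  refine ⟨|C| + 1, by positivity, fun t ht => ?_⟩
  have h3 := hC _ ht
  rw [norm_norm, G.lg_ex, norm_smul, hu, mul_one, Real.norm_eq_abs] at h3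
  have := le_abs_self C
  linarith

/-- The positive part `P`. -/
noncomputable def ryP (G : Geo n) (k : ℝ) (Φ : ℝ × ℝ → ℝ) (lam H : ℝ) (h : E n → ℝ) (x u : E n)
    (σ τ : ℝ) : ℝ :=
  (kexs G k Φ lam H (G.ex x (σ • u)) (G.ex x (τ • u)) (G.ca h x u σ) (-G.ca h x u τ) +
    H / 2 * (ph Φ (τ - σ) (G.ca h x u σ) * (-G.ca h x u τ) +
      ph Φ (τ - σ) (-G.ca h x u τ) * G.ca h x u σ)) * jac G x u σ τ *
    (‖G.D h (G.ex x (σ • u))‖ * ‖G.D h (G.ex x (τ • u))‖)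

/-- The factor of `k'(τ)`. -/
noncomputable def ryQ1 (G : Geo n) (Φ : ℝ × ℝ → ℝ) (H : ℝ) (h : E n → ℝ) (x u : E n)
    (σ τ : ℝ) : ℝ :=
  H / 2 * ph Φ (τ - σ) (G.ca h x u σ) * jac G x u σ τ * ‖G.D h (G.ex x (σ • u))‖

/-- The factor of `-k'(σ)`. -/
noncomputable def ryQ2 (G : Geo n) (Φ : ℝ × ℝ → ℝ) (H : ℝ) (h : E n → ℝ) (x u : E n)
    (σ τ : ℝ) : ℝ :=
  H / 2 * ph Φ (τ - σ) (-G.ca h x u τ) * jac G x u σ τ * ‖G.D h (G.ex x (τ • u))‖

theorem ry_ca (h : E n → ℝ) (x : E n) {u : E n} (hu : ‖u‖ = 1) (t : ℝ) :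
    |G.ca h x u t| ≤ 1 := ray_abs_ca_le G hu t

theorem ry_can (h : E n → ℝ) (x : E n) {u : E n} (hu : ‖u‖ = 1) (t : ℝ) :
    |-G.ca h x u t| ≤ 1 := by
  rw [abs_neg]
  exact ray_abs_ca_le G hu t

theorem ry_geom (Φ : ℝ × ℝ → ℝ) (lam H : ℝ) {h : E n → ℝ} (hh : ContDiff ℝ 1 h) (x u : E n)
    (σ τ : ℝ) : gkS G (kexs G k Φ lam H) h x u σ τ =
      ryP G k Φ lam H h x u σ τ +
        ryQ1 G Φ H h x u σ τ * deriv (fun s : ℝ => h (G.ex x (s • u))) τ -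
        ryQ2 G Φ H h x u σ τ * deriv (fun s : ℝ => h (G.ex x (s • u))) σ := by
  rw [deriv_geod G hh, deriv_geod G hh]
  unfold gkS ryP ryQ1 ryQ2
  ring

/-- `P` in terms of `NH` and the bonus. -/
theorem ry_P (Φ : ℝ × ℝ → ℝ) (lam H : ℝ) (h : E n → ℝ) (x : E n) {u : E n} (hu : ‖u‖ = 1)
    {σ τ : ℝ} (hστ : σ < τ) : ryP G k Φ lam H h x u σ τ =
      (NH k (n - 1) Φ lam (τ - σ) (G.ca h x u σ) (-G.ca h x u τ) +
        ryB G k Φ (G.ex x (σ • u)) (G.ex x (τ • u)) (τ - σ) (G.ca h x u σ) (-G.ca h x u τ)) *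
        jac G x u σ τ * (‖G.D h (G.ex x (σ • u))‖ * ‖G.D h (G.ex x (τ • u))‖) := by
  unfold ryP
  rw [ry_kexs (ry_lg1 x hu hστ) (ry_lg2 x hu hστ)]
  ring

theorem ry_ph_nonneg {Φ : ℝ × ℝ → ℝ} {lam H s : ℝ} {f : ℝ → ℝ} (hg : Good n k Φ lam H s f)
    {r a : ℝ} (hr : 0 ≤ r) (ha : |a| ≤ 1) : 0 ≤ ph Φ r a :=
  mul_nonneg hr (hg.nonneg r a hr ha)

theorem ry_c1a (hG : Curv G k) {Φ : ℝ × ℝ → ℝ} {lam H s : ℝ}
    {f : ℝ → ℝ} (hg : Good n k Φ lam H s f) (hH : 0 ≤ H) {h : E n → ℝ} (hh : ContDiff ℝ 1 h)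
    (x : E n) {u : E n} (hu : ‖u‖ = 1) {σ τ : ℝ} (hστ : σ < τ) :
    ryQ2 G Φ H h x u σ τ * deriv (fun s : ℝ => h (G.ex x (s • u))) σ ≤
      ryP G k Φ lam H h x u σ τ := by
  rw [deriv_geod G hh, ry_P Φ lam H h x hu hστ]
  unfold ryQ2
  have hr : 0 < τ - σ := sub_pos.2 hστ
  have ha := ry_ca (G := G) h x hu σ
  have hb := ry_can (G := G) h x hu τ
  have c1 := hg.c1 (τ - σ) _ _ hr ha hb
  have hB := ry_bonus_nonneg hG hg x hu hστ ha hb
  have hp := ry_ph_nonneg hg hr.le hb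
  have hJ := jac_nonneg (G := G) x u hστ.le
  have e1 : H / 2 * (ph Φ (τ - σ) (-G.ca h x u τ) * G.ca h x u σ) ≤
      NH k (n - 1) Φ lam (τ - σ) (G.ca h x u σ) (-G.ca h x u τ) +
        ryB G k Φ (G.ex x (σ • u)) (G.ex x (τ • u)) (τ - σ) (G.ca h x u σ) (-G.ca h x u τ) := by
    have e2 : H / 2 * (ph Φ (τ - σ) (-G.ca h x u τ) * G.ca h x u σ) ≤
        H / 2 * (ph Φ (τ - σ) (-G.ca h x u τ) * max (G.ca h x u σ) 0) :=
      mul_le_mul_of_nonneg_left (mul_le_mul_of_nonneg_left (le_max_left _ _) hp) (by linarith)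
    linarith
  have e3 := mul_le_mul_of_nonneg_right (mul_le_mul_of_nonneg_right e1 hJ)
    (mul_nonneg (norm_nonneg (G.D h (G.ex x (σ • u)))) (norm_nonneg (G.D h (G.ex x (τ • u)))))
  refine le_trans (le_of_eq ?_) e3
  ring

theorem ry_c1b (hG : Curv G k) {Φ : ℝ × ℝ → ℝ} {lam H s : ℝ}
    {f : ℝ → ℝ} (hg : Good n k Φ lam H s f) (hH : 0 ≤ H) {h : E n → ℝ} (hh : ContDiff ℝ 1 h)
    (x : E n) {u : E n} (hu : ‖u‖ = 1) {σ τ : ℝ} (hστ : σ < τ) :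
    ryQ1 G Φ H h x u σ τ * -deriv (fun s : ℝ => h (G.ex x (s • u))) τ ≤
      ryP G k Φ lam H h x u σ τ := by
  rw [deriv_geod G hh, ry_P Φ lam H h x hu hστ]
  unfold ryQ1
  have hr : 0 < τ - σ := sub_pos.2 hστ
  have ha := ry_ca (G := G) h x hu σ
  have hb := ry_can (G := G) h x hu τ
  have c1 := hg.c1 (τ - σ) _ _ hr hb ha
  rw [ry_NH_symm] at c1
  have hB := ry_bonus_nonneg hG hg x hu hστ ha hb
  have hp := ry_ph_nonneg hg hr.le ha
  have hJ := jac_nonneg (G := G) x u hστ.le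
  have e1 : H / 2 * (ph Φ (τ - σ) (G.ca h x u σ) * -G.ca h x u τ) ≤
      NH k (n - 1) Φ lam (τ - σ) (G.ca h x u σ) (-G.ca h x u τ) +
        ryB G k Φ (G.ex x (σ • u)) (G.ex x (τ • u)) (τ - σ) (G.ca h x u σ) (-G.ca h x u τ) := by
    have e2 : H / 2 * (ph Φ (τ - σ) (G.ca h x u σ) * -G.ca h x u τ) ≤
        H / 2 * (ph Φ (τ - σ) (G.ca h x u σ) * max (-G.ca h x u τ) 0) :=
      mul_le_mul_of_nonneg_left (mul_le_mul_of_nonneg_left (le_max_left _ _) hp) (by linarith)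
    linarith
  have e3 := mul_le_mul_of_nonneg_right (mul_le_mul_of_nonneg_right e1 hJ)
    (mul_nonneg (norm_nonneg (G.D h (G.ex x (σ • u)))) (norm_nonneg (G.D h (G.ex x (τ • u)))))
  refine le_trans (le_of_eq ?_) e3
  ring

theorem ry_P_nonneg (hG : Curv G k) {Φ : ℝ × ℝ → ℝ} {lam H s : ℝ}
    {f : ℝ → ℝ} (hg : Good n k Φ lam H s f) (hH : 0 ≤ H) (h : E n → ℝ)
    (x : E n) {u : E n} (hu : ‖u‖ = 1) {σ τ : ℝ} (hστ : σ < τ) :
    0 ≤ ryP G k Φ lam H h x u σ τ := by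
  rw [ry_P Φ lam H h x hu hστ]
  have hr : 0 < τ - σ := sub_pos.2 hστ
  have ha := ry_ca (G := G) h x hu σ
  have hb := ry_can (G := G) h x hu τ
  have c1 := hg.c1 (τ - σ) _ _ hr ha hb
  have hB := ry_bonus_nonneg hG hg x hu hστ ha hb
  have hp := ry_ph_nonneg hg hr.le hb
  have hJ := jac_nonneg (G := G) x u hστ.le
  have e1 : 0 ≤ H / 2 * (ph Φ (τ - σ) (-G.ca h x u τ) * max (G.ca h x u σ) 0) :=
    mul_nonneg (by linarith) (mul_nonneg hp (le_max_right _ _))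
  exact mul_nonneg (mul_nonneg (by linarith) hJ) (mul_nonneg (norm_nonneg _) (norm_nonneg _))

theorem ry_Q1_nonneg {Φ : ℝ × ℝ → ℝ} {lam H s : ℝ}
    {f : ℝ → ℝ} (hg : Good n k Φ lam H s f) (hH : 0 ≤ H) (h : E n → ℝ)
    (x : E n) {u : E n} (hu : ‖u‖ = 1) {σ τ : ℝ} (hστ : σ < τ) :
    0 ≤ ryQ1 G Φ H h x u σ τ := by
  have hr : 0 < τ - σ := sub_pos.2 hστ
  exact mul_nonneg (mul_nonneg (mul_nonneg (by linarith)
    (ry_ph_nonneg hg hr.le (ry_ca (G := G) h x hu σ))) (jac_nonneg (G := G) x u hστ.le))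
    (norm_nonneg _)

theorem ry_Q2_nonneg {Φ : ℝ × ℝ → ℝ} {lam H s : ℝ}
    {f : ℝ → ℝ} (hg : Good n k Φ lam H s f) (hH : 0 ≤ H) (h : E n → ℝ)
    (x : E n) {u : E n} (hu : ‖u‖ = 1) {σ τ : ℝ} (hστ : σ < τ) :
    0 ≤ ryQ2 G Φ H h x u σ τ := by
  have hr : 0 < τ - σ := sub_pos.2 hστ
  exact mul_nonneg (mul_nonneg (mul_nonneg (by linarith)
    (ry_ph_nonneg hg hr.le (ry_can (G := G) h x hu τ))) (jac_nonneg (G := G) x u hστ.le))
    (norm_nonneg _)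

/-- Product of two monotone quantities, weight `w`. -/
theorem ry_mono_aux {p p' j j' w w' : ℝ} (hw : 0 < w) (hw' : 0 < w')
    (h1 : p * w ≤ p' * w') (h2 : j * w' ≤ j' * w) (hj : 0 ≤ j) (hp : 0 ≤ p') :
    p * j ≤ p' * j' := by
  have h3 : p * w * (j * w') ≤ p' * w' * (j * w') :=
    mul_le_mul_of_nonneg_right h1 (mul_nonneg hj hw'.le)
  have h4 : p' * w' * (j * w') ≤ p' * w' * (j' * w) :=
    mul_le_mul_of_nonneg_left h2 (mul_nonneg hp hw'.le)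
  have h5 : p * j * (w * w') ≤ p' * j' * (w * w') := by
    calc p * j * (w * w') = p * w * (j * w') := by ring
      _ ≤ p' * w' * (j' * w) := h3.trans h4
      _ = p' * j' * w' * w := by ring
      _ = p' * j' * (w * w') := by ring
  exact le_of_mul_le_mul_right h5 (mul_pos hw hw')

theorem ry_Q1_mono (hn : 2 ≤ n) (hk : 0 ≤ k) (hG : Curv G k) {Φ : ℝ × ℝ → ℝ} {lam H s : ℝ}
    {f : ℝ → ℝ} (hg : Good n k Φ lam H s f) (hH : 0 ≤ H) (h : E n → ℝ)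
    (x : E n) {u : E n} (hu : ‖u‖ = 1) {σ τ τ' : ℝ} (hστ : σ < τ) (hτ : τ ≤ τ') :
    ryQ1 G Φ H h x u σ τ ≤ ryQ1 G Φ H h x u σ τ' := by
  have hr : 0 < τ - σ := sub_pos.2 hστ
  have hr' : 0 < τ' - σ := by linarith
  have ha := ry_ca (G := G) h x hu σ
  have c3 := hg.c3 _ ha (show τ - σ ∈ Ioi (0:ℝ) from hr) (show τ' - σ ∈ Ioi (0:ℝ) from hr')
    (by linarith)
  have j1 := jac_mono_right (by omega : 1 ≤ n) hk hG x hu hστ hτ
  have e := ry_mono_aux (pow_pos (sn_pos hk hr) (n - 1)) (pow_pos (sn_pos hk hr') (n - 1)) c3 j1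
    (jac_nonneg (G := G) x u hστ.le) (ry_ph_nonneg hg hr'.le ha)
  unfold ryQ1
  refine mul_le_mul_of_nonneg_right ?_ (norm_nonneg _)
  rw [mul_assoc, mul_assoc]
  exact mul_le_mul_of_nonneg_left e (by linarith)

theorem ry_Q2_anti (hn : 2 ≤ n) (hk : 0 ≤ k) (hG : Curv G k) {Φ : ℝ × ℝ → ℝ} {lam H s : ℝ}
    {f : ℝ → ℝ} (hg : Good n k Φ lam H s f) (hH : 0 ≤ H) (h : E n → ℝ)
    (x : E n) {u : E n} (hu : ‖u‖ = 1) {σ σ' τ : ℝ} (hστ : σ < τ) (hσ : σ' ≤ σ) :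
    ryQ2 G Φ H h x u σ τ ≤ ryQ2 G Φ H h x u σ' τ := by
  have hr : 0 < τ - σ := sub_pos.2 hστ
  have hr' : 0 < τ - σ' := by linarith
  have hb := ry_can (G := G) h x hu τ
  have c3 := hg.c3 _ hb (show τ - σ ∈ Ioi (0:ℝ) from hr) (show τ - σ' ∈ Ioi (0:ℝ) from hr')
    (by linarith)
  have j1 := jac_mono_left (by omega : 1 ≤ n) hk hG x hu hστ hσ
  have e := ry_mono_aux (pow_pos (sn_pos hk hr) (n - 1)) (pow_pos (sn_pos hk hr') (n - 1)) c3 j1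
    (jac_nonneg (G := G) x u hστ.le) (ry_ph_nonneg hg hr'.le hb)
  unfold ryQ2
  refine mul_le_mul_of_nonneg_right ?_ (norm_nonneg _)
  rw [mul_assoc, mul_assoc]
  exact mul_le_mul_of_nonneg_left e (by linarith)

theorem ry_c6 (hn : 2 ≤ n) (hk : 0 ≤ k) (hG : Curv G k) {Φ : ℝ × ℝ → ℝ} {lam H s : ℝ}
    {f : ℝ → ℝ} (hg : Good n k Φ lam H s f) {h : E n → ℝ} (hh : ContDiff ℝ 1 h)
    (x : E n) {u : E n} (hu : ‖u‖ = 1) {σ τ : ℝ} (hστ : σ < τ)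
    (h1 : 0 ≤ deriv (fun s : ℝ => h (G.ex x (s • u))) σ)
    (h2 : deriv (fun s : ℝ => h (G.ex x (s • u))) τ ≤ 0) :
    deriv (fun s : ℝ => h (G.ex x (s • u))) σ * -deriv (fun s : ℝ => h (G.ex x (s • u))) τ *
      (s * (τ - σ) - (f (clip (G.ca h x u σ)) + f (clip (-G.ca h x u τ))) / 2) ≤
      gkS G (kexs G k Φ lam H) h x u σ τ := by
  rw [deriv_geod G hh] at h1 h2 ⊢
  rw [deriv_geod G hh]
  have ha := ry_ca (G := G) h x hu σ
  have hb := ry_can (G := G) h x hu τ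
  unfold gkS
  set a := G.ca h x u σ with hadef
  have hbdef : G.ca h x u τ = -(-G.ca h x u τ) := (neg_neg _).symm
  rw [hbdef] at h2 ⊢
  set b := -G.ca h x u τ with hbd
  rw [neg_neg] at *
  set p := ‖G.D h (G.ex x (σ • u))‖ with hp
  set q := ‖G.D h (G.ex x (τ • u))‖ with hq
  have hp0 : 0 ≤ p := norm_nonneg _
  have hq0 : 0 ≤ q := norm_nonneg _
  rcases hp0.eq_or_lt with hp1 | hp1
  · rw [← hp1]
    simp
  rcases hq0.eq_or_lt with hq1 | hq1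
  · rw [← hq1]
    simp
  have ha0 : 0 ≤ a := by
    by_contra hneg
    rw [not_le] at hneg
    have := mul_neg_of_neg_of_pos hneg hp1
    linarith
  have hb0 : 0 ≤ b := by
    by_contra hneg
    rw [not_le] at hneg
    have := mul_neg_of_neg_of_pos hneg hq1
    linarith
  have ha1 : a ≤ 1 := (le_abs_self _).trans ha
  have hb1 : b ≤ 1 := (le_abs_self _).trans hb
  rw [clip_of_mem ha0 ha1, clip_of_mem hb0 hb1]
  have c6 := hg.c6 (τ - σ) a b (sub_pos.2 hστ) ha0 ha1 hb0 hb1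
  have c7 := kexs_ge hn hk hG hg x hu hστ ha0 ha1 hb0 hb1
  have e := mul_le_mul_of_nonneg_right (c6.trans c7) (mul_nonneg hp0 hq0)
  refine le_trans (le_of_eq ?_) e
  ring

theorem ry_D_meas {h : E n → ℝ} (hh : ContDiff ℝ 1 h) (x u : E n) :
    Continuous fun t : ℝ => ‖G.D h (G.ex x (t • u))‖ :=
  ((ray_continuous_D G hh).comp (continuous_geod G x u)).norm

theorem ry_aux {α : Type*} [MeasurableSpace α] {κ : E n → E n → ℝ → ℝ → ℝ}
    (hκ : Measurable fun z : E n × E n × ℝ × ℝ => κ z.1 z.2.1 z.2.2.1 z.2.2.2)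
    {p q : α → E n} {a b : α → ℝ} (hp : Measurable p) (hq : Measurable q) (ha : Measurable a)
    (hb : Measurable b) : Measurable fun z => κ (p z) (q z) (a z) (b z) :=
  hκ.comp (hp.prodMk (hq.prodMk (ha.prodMk hb)))

theorem ry_P_meas1 (hk : 0 ≤ k) {Φ : ℝ × ℝ → ℝ} {δ : ℝ} (hδ : 0 < δ)
    (hΦ : ContDiffOn ℝ ∞ Φ {p | -δ < p.1}) (lam H : ℝ) {h : E n → ℝ} (hh : ContDiff ℝ 1 h)
    (x u : E n) : Measurable fun z : ℝ × ℝ => kexs G k Φ lam H (G.ex x (z.1 • u))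
      (G.ex x (z.2 • u)) (G.ca h x u z.1) (-G.ca h x u z.2) := by
  have hca := measurable_ca G hh x u
  have hγ := (continuous_geod G x u).measurable
  refine ry_aux (measurable_kexs G hk hδ hΦ lam H) (p := fun z : ℝ × ℝ => G.ex x (z.1 • u))
    (q := fun z : ℝ × ℝ => G.ex x (z.2 • u)) (a := fun z : ℝ × ℝ => G.ca h x u z.1)
    (b := fun z : ℝ × ℝ => -G.ca h x u z.2) ?_ ?_ ?_ ?_
  · exact hγ.comp measurable_fst
  · exact hγ.comp measurable_snd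
  · exact hca.comp measurable_fst
  · exact (hca.comp measurable_snd).neg

theorem ry_P_meas (hk : 0 ≤ k) {Φ : ℝ × ℝ → ℝ} {δ : ℝ} (hδ : 0 < δ)
    (hΦ : ContDiffOn ℝ ∞ Φ {p | -δ < p.1}) (lam H : ℝ) {h : E n → ℝ} (hh : ContDiff ℝ 1 h)
    (x u : E n) : Measurable (Function.uncurry (ryP G k Φ lam H h x u)) := by
  unfold Function.uncurry ryP
  have hca := measurable_ca G hh x u
  have hph := (ry_ph_cont hδ hΦ).measurable
  have m1 := ry_P_meas1 (G := G) hk hδ hΦ lam H hh x u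
  have c1 : Measurable fun z : ℝ × ℝ => G.ca h x u z.1 := hca.comp measurable_fst
  have c2 : Measurable fun z : ℝ × ℝ => -G.ca h x u z.2 := (hca.comp measurable_snd).neg
  have m2 : Measurable fun z : ℝ × ℝ => ph Φ (z.2 - z.1) (G.ca h x u z.1) :=
    hph.comp ((measurable_snd.sub measurable_fst).prodMk c1)
  have m3 : Measurable fun z : ℝ × ℝ => ph Φ (z.2 - z.1) (-G.ca h x u z.2) :=
    hph.comp ((measurable_snd.sub measurable_fst).prodMk c2)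
  have m4 : Measurable fun z : ℝ × ℝ => jac G x u z.1 z.2 := (ry_T_cont x u).measurable
  have m5 : Measurable fun z : ℝ × ℝ => ‖G.D h (G.ex x (z.1 • u))‖ *
      ‖G.D h (G.ex x (z.2 • u))‖ :=
    ((ry_D_meas hh x u).measurable.comp measurable_fst).mul
      ((ry_D_meas hh x u).measurable.comp measurable_snd)
  have m6 : Measurable fun z : ℝ × ℝ => H / 2 * (ph Φ (z.2 - z.1) (G.ca h x u z.1) *
      (-G.ca h x u z.2) + ph Φ (z.2 - z.1) (-G.ca h x u z.2) * G.ca h x u z.1) :=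
    ((m2.mul c2).add (m3.mul c1)).const_mul (H / 2)
  exact ((m1.add m6).mul m4).mul m5

theorem ry_Q1_meas {Φ : ℝ × ℝ → ℝ} {δ : ℝ} (hδ : 0 < δ)
    (hΦ : ContDiffOn ℝ ∞ Φ {p | -δ < p.1}) (H : ℝ) {h : E n → ℝ} (hh : ContDiff ℝ 1 h)
    (x u : E n) : Measurable (Function.uncurry (ryQ1 G Φ H h x u)) := by
  unfold Function.uncurry ryQ1
  have hca := measurable_ca G hh x u
  have m2 : Measurable fun z : ℝ × ℝ => ph Φ (z.2 - z.1) (G.ca h x u z.1) :=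
    (ry_ph_cont hδ hΦ).measurable.comp
      ((measurable_snd.sub measurable_fst).prodMk (hca.comp measurable_fst))
  have m4 : Measurable fun z : ℝ × ℝ => jac G x u z.1 z.2 := (ry_T_cont x u).measurable
  exact ((m2.const_mul (H / 2)).mul m4).mul ((ry_D_meas hh x u).measurable.comp measurable_fst)

theorem ry_Q2_meas {Φ : ℝ × ℝ → ℝ} {δ : ℝ} (hδ : 0 < δ)
    (hΦ : ContDiffOn ℝ ∞ Φ {p | -δ < p.1}) (H : ℝ) {h : E n → ℝ} (hh : ContDiff ℝ 1 h)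
    (x u : E n) : Measurable (Function.uncurry (ryQ2 G Φ H h x u)) := by
  unfold Function.uncurry ryQ2
  have hca := measurable_ca G hh x u
  have m2 : Measurable fun z : ℝ × ℝ => ph Φ (z.2 - z.1) (-G.ca h x u z.2) :=
    (ry_ph_cont hδ hΦ).measurable.comp
      ((measurable_snd.sub measurable_fst).prodMk (hca.comp measurable_snd).neg)
  have m4 : Measurable fun z : ℝ × ℝ => jac G x u z.1 z.2 := (ry_T_cont x u).measurable
  exact ((m2.const_mul (H / 2)).mul m4).mul ((ry_D_meas hh x u).measurable.comp measurable_snd)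

theorem ry_bounds (hk : 0 ≤ k) {Φ : ℝ × ℝ → ℝ} {δ : ℝ} (hδ : 0 < δ)
    (hΦ : ContDiffOn ℝ ∞ Φ {p | -δ < p.1}) (lam H : ℝ) {h : E n → ℝ} (hh : ContDiff ℝ 1 h)
    (x : E n) {u : E n} (hu : ‖u‖ = 1) (B : ℝ) : ∃ M : ℝ, ∀ σ τ, -B < σ → σ < τ → τ < B →
      |ryP G k Φ lam H h x u σ τ| ≤ M ∧ |ryQ1 G Φ H h x u σ τ| ≤ M ∧
        |ryQ2 G Φ H h x u σ τ| ≤ M := by
  have hK : IsCompact ((fun t : ℝ => G.ex x (t • u)) '' Icc (-B) B) :=
    isCompact_Icc.image (continuous_geod G x u)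
  obtain ⟨C1, hC1, h1⟩ := kexs_bound G hk hδ hΦ lam H hK
  obtain ⟨C2, h2⟩ := (isCompact_Icc (a := (0:ℝ)) (b := 2 * B)).prod
    (isCompact_Icc (a := (-1:ℝ)) (b := 1)) |>.exists_bound_of_continuousOn
    (ry_ph_cont hδ hΦ).continuousOn
  obtain ⟨C3, h3⟩ := (isCompact_Icc (a := -B) (b := B)).prod
    (isCompact_Icc (a := -B) (b := B)) |>.exists_bound_of_continuousOn
    (ry_T_cont (G := G) x u).continuousOn
  obtain ⟨C4, h4⟩ := (isCompact_Icc (a := -B) (b := B)).exists_bound_of_continuousOn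
    (ry_D_meas (G := G) hh x u).continuousOn
  refine ⟨(C1 + |H / 2| * (|C2| + |C2|)) * |C3| * (|C4| * |C4|) +
    |H / 2| * |C2| * |C3| * |C4|, fun σ τ hσ hστ hτ => ?_⟩
  have iσ : σ ∈ Icc (-B) B := ⟨hσ.le, by linarith⟩
  have iτ : τ ∈ Icc (-B) B := ⟨by linarith, hτ.le⟩
  have ha := ry_ca (G := G) h x hu σ
  have ha' := ry_ca (G := G) h x hu τ
  have hb := ry_can (G := G) h x hu τ
  have k1 : |kexs G k Φ lam H (G.ex x (σ • u)) (G.ex x (τ • u)) (G.ca h x u σ)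
      (-G.ca h x u τ)| ≤ C1 :=
    h1 _ ⟨σ, iσ, rfl⟩ _ ⟨τ, iτ, rfl⟩ _ _ ha hb
  have k2 : |ph Φ (τ - σ) (G.ca h x u σ)| ≤ |C2| := by
    refine (h2 (τ - σ, G.ca h x u σ) ⟨⟨?_, ?_⟩, ?_⟩).trans (le_abs_self _)
    · show 0 ≤ τ - σ
      linarith
    · show τ - σ ≤ 2 * B
      linarith
    · exact abs_le.1 ha
  have k3 : |ph Φ (τ - σ) (-G.ca h x u τ)| ≤ |C2| := by
    refine (h2 (τ - σ, -G.ca h x u τ) ⟨⟨?_, ?_⟩, ?_⟩).trans (le_abs_self _)
    · show 0 ≤ τ - σ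
      linarith
    · show τ - σ ≤ 2 * B
      linarith
    · exact abs_le.1 hb
  have k4 : |jac G x u σ τ| ≤ |C3| := (h3 (σ, τ) ⟨iσ, iτ⟩).trans (le_abs_self _)
  have k5 : |‖G.D h (G.ex x (σ • u))‖| ≤ |C4| := (h4 σ iσ).trans (le_abs_self _)
  have k6 : |‖G.D h (G.ex x (τ • u))‖| ≤ |C4| := (h4 τ iτ).trans (le_abs_self _)
  have n0 : 0 ≤ |H / 2| := abs_nonneg _
  have n2 : 0 ≤ |C2| := abs_nonneg _
  have n3 : 0 ≤ |C3| := abs_nonneg _
  have n4 : 0 ≤ |C4| := abs_nonneg _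
  have b1 : |ryP G k Φ lam H h x u σ τ| ≤
      (C1 + |H / 2| * (|C2| + |C2|)) * |C3| * (|C4| * |C4|) := by
    unfold ryP
    rw [abs_mul, abs_mul, abs_mul]
    refine mul_le_mul (mul_le_mul ?_ k4 (abs_nonneg _) ?_) (mul_le_mul k5 k6 (abs_nonneg _) n4)
      (mul_nonneg (abs_nonneg _) (abs_nonneg _)) (mul_nonneg ?_ n3)
    · refine (abs_add_le _ _).trans (add_le_add k1 ?_)
      rw [abs_mul]
      refine mul_le_mul_of_nonneg_left ((abs_add_le _ _).trans (add_le_add ?_ ?_)) n0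
      · rw [abs_mul]
        calc _ ≤ |C2| * 1 := mul_le_mul k2 hb (abs_nonneg _) n2
          _ = |C2| := mul_one _
      · rw [abs_mul]
        calc _ ≤ |C2| * 1 := mul_le_mul k3 ha (abs_nonneg _) n2
          _ = |C2| := mul_one _
    · exact add_nonneg hC1 (mul_nonneg n0 (add_nonneg n2 n2))
    · exact add_nonneg hC1 (mul_nonneg n0 (add_nonneg n2 n2))
  have b2 : |ryQ1 G Φ H h x u σ τ| ≤ |H / 2| * |C2| * |C3| * |C4| := by
    unfold ryQ1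
    rw [abs_mul, abs_mul, abs_mul]
    exact mul_le_mul (mul_le_mul (mul_le_mul_of_nonneg_left k2 n0) k4 (abs_nonneg _)
      (mul_nonneg n0 n2)) k5 (abs_nonneg _) (mul_nonneg (mul_nonneg n0 n2) n3)
  have b3 : |ryQ2 G Φ H h x u σ τ| ≤ |H / 2| * |C2| * |C3| * |C4| := by
    unfold ryQ2
    rw [abs_mul, abs_mul, abs_mul]
    exact mul_le_mul (mul_le_mul (mul_le_mul_of_nonneg_left k3 n0) k4 (abs_nonneg _)
      (mul_nonneg n0 n2)) k6 (abs_nonneg _) (mul_nonneg (mul_nonneg n0 n2) n3)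
  have p1 : 0 ≤ (C1 + |H / 2| * (|C2| + |C2|)) * |C3| * (|C4| * |C4|) := (abs_nonneg _).trans b1
  have p2 : 0 ≤ |H / 2| * |C2| * |C3| * |C4| := (abs_nonneg _).trans b2
  exact ⟨by linarith, by linarith, by linarith⟩

theorem ry_full {F : ℝ → ℝ → ℝ≥0∞} {A B : ℝ}
    (h0 : ∀ σ τ, σ ∉ Ioo A B ∨ τ ∉ Ioo A B → F σ τ = 0) :
    ∫⁻ σ, ∫⁻ τ in Ioi σ, F σ τ = ∫⁻ σ in Ioo A B, ∫⁻ τ in Ioo σ B, F σ τ := by
  rw [← lintegral_indicator measurableSet_Ioo]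
  refine lintegral_congr fun σ => ?_
  by_cases hσ : σ ∈ Ioo A B
  · rw [indicator_of_mem hσ, ← lintegral_indicator measurableSet_Ioo,
      ← lintegral_indicator measurableSet_Ioi]
    refine lintegral_congr fun τ => ?_
    by_cases h1 : τ ∈ Ioi σ
    · rw [indicator_of_mem h1]
      by_cases h2 : τ < B
      · rw [indicator_of_mem (show τ ∈ Ioo σ B from ⟨h1, h2⟩)]
      · rw [indicator_of_notMem (fun h => h2 h.2)]
        exact h0 σ τ (Or.inr fun h => h2 h.2)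
    · rw [indicator_of_notMem h1, indicator_of_notMem (fun h => h1 h.1)]
  · rw [indicator_of_notMem hσ]
    have : ∀ τ, F σ τ = 0 := fun τ => h0 σ τ (Or.inl hσ)
    simp [this]

/-- The line theorem for `h` on the geodesic `t ↦ ex x (t u)`. PROOF: `line_thm` with
`k t = h(ex x (t u))`, `D = ‖D h‖`, `k' = ca · D`, `a = ca σ`, `b = -ca τ`, `r = τ - σ`,
`P = (NH + (Φ(r²,ra) b² rtau + Φ(r²,rb) a² rtau')/2) jac D(σ) D(τ)`,
`Q₁ = H/2 ph(r,a) jac D(σ)`, `Q₂ = H/2 ph(r,b) jac D(τ)` (monotone by `c3`, `jac_mono_right`,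
`jac_mono_left`), `c1` for `c1a`, `c1b`, `kexs_ge` and `c6` for `c6`. The integrand vanishes outside
of a bounded interval containing `{t : γ t ∈ tsupport h}`. -/
theorem ray_H (hn : 2 ≤ n) (hk : 0 ≤ k) (hG : Curv G k) {Φ : ℝ × ℝ → ℝ} {lam H s : ℝ}
    {f : ℝ → ℝ} (hg : Good n k Φ lam H s f) (hH : 0 ≤ H) (hs : 0 ≤ s) (hf : Continuous f)
    (hf0 : ∀ a ∈ Icc (0 : ℝ) 1, 0 ≤ f a) {h : E n → ℝ} (hh : ContDiff ℝ 1 h)
    (hc : HasCompactSupport h) (h01 : ∀ x, 0 ≤ h x ∧ h x ≤ 1) {x u : E n} (hu : ‖u‖ = 1) :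
    ENNReal.ofReal (s * volume.real {t : ℝ | h (G.ex x (t • u)) = 1}) +
        (∫⁻ σ, ∫⁻ τ in Ioi σ, ENNReal.ofReal (-gkS G (kexs G k Φ lam H) h x u σ τ)) ≤
      (∫⁻ σ, ∫⁻ τ in Ioi σ, ENNReal.ofReal (gkS G (kexs G k Φ lam H) h x u σ τ)) +
        ENNReal.ofReal (btL G f h x u univ) := by
  obtain ⟨δ, hδ, hΦ⟩ := hg.smooth
  obtain ⟨B, hB, hwin⟩ := ry_window (G := G) hc x hu
  obtain ⟨M, hM⟩ := ry_bounds (G := G) hk hδ hΦ lam H hh x hu B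
  obtain ⟨c, hcb⟩ := (isCompact_Icc (a := (0 : ℝ)) (b := 1)).exists_bound_of_continuousOn
    hf.continuousOn
  have hfc : ∀ a : ℝ, 0 ≤ f (clip a) ∧ f (clip a) ≤ c := fun a =>
    ⟨hf0 _ (clip_mem a), (le_abs_self _).trans (hcb _ (clip_mem a))⟩
  have hca := measurable_ca G hh x u
  have hm1 : Measurable fun t => f (clip (G.ca h x u t)) :=
    (hf.measurable.comp continuous_clip.measurable).comp hca
  have hm2 : Measurable fun t => f (clip (-G.ca h x u t)) :=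
    (hf.measurable.comp continuous_clip.measurable).comp hca.neg
  have hout : ∀ t, t ∉ Ioo (-B) B → G.ex x (t • u) ∉ tsupport h := by
    intro t ht hmem
    exact ht (abs_lt.1 (hwin t hmem))
  have hk0 : ∀ t, t ∉ Ioo (-B) B → h (G.ex x (t • u)) = 0 := fun t ht =>
    image_eq_zero_of_notMem_tsupport (hout t ht)
  have hD0 : ∀ t, t ∉ Ioo (-B) B → ‖G.D h (G.ex x (t • u))‖ = 0 := fun t ht => by
    rw [ry_D_zero (hout t ht), norm_zero]
  have key := line_thm (k := fun t : ℝ => h (G.ex x (t • u))) (contDiff_geod G hh x u)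
    (fun t => h01 _) (A := -B) (B := B) (by linarith)
    (fun t ht => hk0 t fun hm => absurd hm.1 (not_lt.2 ht))
    (fun t ht => hk0 t fun hm => absurd hm.2 (not_lt.2 ht))
    (ry_P_meas (G := G) hk hδ hΦ lam H hh x u) (ry_Q1_meas (G := G) hδ hΦ H hh x u)
    (ry_Q2_meas (G := G) hδ hΦ H hh x u) (M := M)
    (fun σ τ h1 h2 h3 => ⟨ry_P_nonneg hG hg hH h x hu h2,
      (le_abs_self _).trans (hM σ τ h1 h2 h3).1⟩)
    (fun σ τ h1 h2 h3 => ⟨ry_Q1_nonneg hg hH h x hu h2,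
      (le_abs_self _).trans (hM σ τ h1 h2 h3).2.1⟩)
    (fun σ τ h1 h2 h3 => ⟨ry_Q2_nonneg hg hH h x hu h2,
      (le_abs_self _).trans (hM σ τ h1 h2 h3).2.2⟩)
    (fun σ _ τ hτ τ' _ hle => ry_Q1_mono hn hk hG hg hH h x hu hτ.1 hle)
    (fun τ _ σ' _ σ hσ hle => ry_Q2_anti hn hk hG hg hH h x hu hσ.2 hle)
    (fun σ τ _ h2 _ _ => ry_c1a hG hg hH hh x hu h2)
    (fun σ τ _ h2 _ _ => ry_c1b hG hg hH hh x hu h2) hs
    (f₁ := fun t => f (clip (G.ca h x u t))) (f₂ := fun t => f (clip (-G.ca h x u t)))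
    hm1 hm2 (fun t => hfc _) (fun t => hfc _)
    (fun σ τ _ h2 _ h4 h5 => by
      rw [← ry_geom Φ lam H hh x u σ τ]
      exact ry_c6 hn hk hG hg hh x hu h2 h4 h5)
    (g := gkS G (kexs G k Φ lam H) h x u)
    (fun σ τ _ _ _ => ry_geom Φ lam H hh x u σ τ)
  have hg0 : ∀ σ τ, σ ∉ Ioo (-B) B ∨ τ ∉ Ioo (-B) B →
      gkS G (kexs G k Φ lam H) h x u σ τ = 0 := by
    intro σ τ hor
    unfold gkS
    rcases hor with h1 | h1
    · rw [hD0 σ h1, zero_mul, mul_zero]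
    · rw [hD0 τ h1, mul_zero, mul_zero]
  rw [ry_full (A := -B) (B := B) (fun σ τ hor => by rw [hg0 σ τ hor, neg_zero, ENNReal.ofReal_zero]),
    ry_full (A := -B) (B := B) (fun σ τ hor => by rw [hg0 σ τ hor, ENNReal.ofReal_zero])]
  refine key.trans (le_of_eq ?_)
  congr 2
  unfold btL
  have e1 : ∫ t in univ, f (clip (G.ca h x u t)) *
      max 0 (G.ca h x u t * ‖G.D h (G.ex x (t • u))‖) =
      ∫ t in Ioo (-B) B, f (clip (G.ca h x u t)) *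
        max 0 (deriv (fun t : ℝ => h (G.ex x (t • u))) t) := by
    rw [Measure.restrict_univ]
    simp only [deriv_geod G hh x u]
    symm
    apply setIntegral_eq_integral_of_forall_compl_eq_zero
    intro t ht
    rw [hD0 t ht, mul_zero, max_self, mul_zero]
  have e2 : ∫ t in univ, f (clip (-G.ca h x u t)) *
      max 0 (-(G.ca h x u t) * ‖G.D h (G.ex x (t • u))‖) =
      ∫ t in Ioo (-B) B, f (clip (-G.ca h x u t)) *
        max 0 (-deriv (fun t : ℝ => h (G.ex x (t • u))) t) := by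
    rw [Measure.restrict_univ]
    simp only [deriv_geod G hh x u, neg_mul]
    symm
    apply setIntegral_eq_integral_of_forall_compl_eq_zero
    intro t ht
    rw [hD0 t ht, mul_zero, neg_zero, max_self, mul_zero]
  rw [e1, e2]

end Vale.Agent.P219.TPH
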